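import Vale.Agent.P229.Calc

/-!
# P229, `C³` version: finite smoothness calculus.
`Sm n U f` now means `ContDiffOn ℝ n f U`; everything else (`dx`, `dy`, `br`, `disc`, `Bd`, `Dw`,
`Lo`, `No`, pointwise rules, congruence) is shared with `Vale.Agent.P229.Calc`.
-/

namespace Vale.Agent.P229.C3

open MeasureTheory Set
open scoped ContDiff

/-- `C^n` on an (open) set -/
def Sm (n : ℕ) (U : Set (ℝ × ℝ)) (f : ℝ × ℝ → ℝ) : Prop := ContDiffOn ℝ n f U

variable {f g h P u : ℝ × ℝ → ℝ} {z : ℝ × ℝ} {U : Set (ℝ × ℝ)}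

/-! ### smoothness -/

variable {n m : ℕ}

theorem Sm.contDiffAt (hU : IsOpen U) (hf : Sm n U f) (hz : z ∈ U) : ContDiffAt ℝ n f z :=
  (hf z hz).contDiffAt (hU.mem_nhds hz)

theorem Sm.of_le (hf : Sm n U f) (h : m ≤ n) : Sm m U f :=
  ContDiffOn.of_le hf (by exact_mod_cast h)

theorem Sm.diff (hU : IsOpen U) (hf : Sm (n + 1) U f) (hz : z ∈ U) : DifferentiableAt ℝ f z :=
  (hf.contDiffAt hU hz).differentiableAt (by simp)

theorem Sm.of_contDiff (hf : ContDiff ℝ n f) : Sm n U f := hf.contDiffOn

theorem Sm.mono {V : Set (ℝ × ℝ)} (hf : Sm n U f) (h : V ⊆ U) : Sm n V f := ContDiffOn.mono hf h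

theorem Sm.continuousOn (hf : Sm n U f) : ContinuousOn f U := ContDiffOn.continuousOn hf

theorem Sm.congr (hf : Sm n U f) (h : ∀ z ∈ U, g z = f z) : Sm n U g := ContDiffOn.congr hf h

theorem Sm.fderiv_apply (hU : IsOpen U) (hf : Sm (n + 1) U f) (v : ℝ × ℝ) :
    Sm n U (fun z => fderiv ℝ f z v) := by
  have h1 : ContDiffOn ℝ n (fun z => fderiv ℝ f z) U :=
    ContDiffOn.fderiv_of_isOpen hf hU (by norm_cast)
  exact h1.clm_apply contDiffOn_const

theorem Sm.dx (hU : IsOpen U) (hf : Sm (n + 1) U f) : Sm n U (dx f) := hf.fderiv_apply hU _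
theorem Sm.dy (hU : IsOpen U) (hf : Sm (n + 1) U f) : Sm n U (dy f) := hf.fderiv_apply hU _

theorem Sm.const (c : ℝ) : Sm n U (fun _ => c) := contDiffOn_const
theorem Sm.add (hf : Sm n U f) (hg : Sm n U g) : Sm n U (fun z => f z + g z) :=
  ContDiffOn.add hf hg
theorem Sm.sub (hf : Sm n U f) (hg : Sm n U g) : Sm n U (fun z => f z - g z) :=
  ContDiffOn.sub hf hg
theorem Sm.mul (hf : Sm n U f) (hg : Sm n U g) : Sm n U (fun z => f z * g z) :=
  ContDiffOn.mul hf hg
theorem Sm.neg (hf : Sm n U f) : Sm n U (fun z => - f z) := ContDiffOn.neg hf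
theorem Sm.pow (hf : Sm n U f) (k : ℕ) : Sm n U (fun z => f z ^ k) := ContDiffOn.pow hf k
theorem Sm.div (hf : Sm n U f) (hg : Sm n U g) (h0 : ∀ z ∈ U, g z ≠ 0) :
    Sm n U (fun z => f z / g z) := ContDiffOn.div hf hg h0

theorem Sm.br (hU : IsOpen U) (hf : Sm (n + 1) U f) (hg : Sm (n + 1) U g) : Sm n U (br f g) :=
  ((hf.dx hU).mul (hg.dy hU)).sub ((hf.dy hU).mul (hg.dx hU))

theorem Sm.Lo (hU : IsOpen U) (hu : Sm (n + 1) U u) (hP : Sm (n + 1) U P) (hf : Sm (n + 1) U f)
    (h0 : ∀ z ∈ U, P229.br u P z ≠ 0) : Sm n U (Lo u P f) :=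
  (Sm.br hU hf hP).div (Sm.br hU hu hP) h0

theorem Sm.No (hU : IsOpen U) (hu : Sm (n + 1) U u) (hP : Sm (n + 1) U P) (hf : Sm (n + 1) U f)
    (h0 : ∀ z ∈ U, P229.br u P z ≠ 0) : Sm n U (No u P f) :=
  (Sm.br hU hu hf).div (Sm.br hU hu hP) h0

theorem contDiff_dx (hf : ContDiff ℝ (n + 1 : ℕ) f) : ContDiff ℝ n (dx f) := by
  have := Sm.dx isOpen_univ (Sm.of_contDiff (U := univ) hf)
  exact contDiffOn_univ.1 this

theorem contDiff_dy (hf : ContDiff ℝ (n + 1 : ℕ) f) : ContDiff ℝ n (dy f) := by
  have := Sm.dy isOpen_univ (Sm.of_contDiff (U := univ) hf)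
  exact contDiffOn_univ.1 this

theorem contDiff_Dw (w : List Bool) (hf : ContDiff ℝ (n + w.length : ℕ) f) :
    ContDiff ℝ n (Dw w f) := by
  induction w generalizing n with
  | nil => exact hf
  | cons b w ih =>
    have h1 : ContDiff ℝ (n + 1 : ℕ) (Dw w f) := by
      apply ih
      have e : n + 1 + w.length = n + (b :: w).length := by simp; ring
      rw [e]
      exact hf
    cases b <;> simp only [Dw]
    · exact contDiff_dy h1
    · exact contDiff_dx h1

theorem Sm_Dw (hU : IsOpen U) (w : List Bool) (hf : Sm (n + w.length) U f) :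
    Sm n U (Dw w f) := by
  induction w generalizing n with
  | nil => exact hf
  | cons b w ih =>
    have h1 : Sm (n + 1) U (Dw w f) := by
      apply ih
      have e : n + 1 + w.length = n + (b :: w).length := by simp; ring
      rw [e]
      exact hf
    cases b <;> simp only [Dw]
    · exact h1.dy hU
    · exact h1.dx hU

theorem Sm.dx_dy_comm (hU : IsOpen U) (hf : Sm 2 U f) (hz : z ∈ U) :
    P229.dx (P229.dy f) z = P229.dy (P229.dx f) z :=
  P229.dx_dy_comm (hf.contDiffAt hU hz)

/-! ### integration -/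

/-- `∫ {f,g} = 0` for `f` compactly supported in `U`, `g` smooth on `U` -/
theorem integral_br_eq_zero (hU : IsOpen U) (hf : ContDiff ℝ 1 f) (hc : HasCompactSupport f)
    (hs : tsupport f ⊆ U) (hg : Sm 2 U g) : ∫ z, br f g z = 0 := by
  have hgx : ContDiffOn ℝ 1 (dx g) U := hg.dx hU
  have hgy : ContDiffOn ℝ 1 (dy g) U := hg.dy hU
  have h1 : ContDiff ℝ 1 (fun z => f z * dy g z) := contDiff_mul_of_tsupport (n := 1) hU hf hs hgy
  have h2 : ContDiff ℝ 1 (fun z => f z * dx g z) := contDiff_mul_of_tsupport (n := 1) hU hf hs hgx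
  have c1 : HasCompactSupport (fun z => f z * dy g z) := hc.mul_right
  have c2 : HasCompactSupport (fun z => f z * dx g z) := hc.mul_right
  have e : ∀ z, br f g z = dx (fun z => f z * dy g z) z - dy (fun z => f z * dx g z) z := by
    intro z
    by_cases hz : z ∈ tsupport f
    · have hzU := hs hz
      have hfd : DifferentiableAt ℝ f z := hf.differentiable (by simp) z
      have d1 : DifferentiableAt ℝ (dy g) z := (hg.dy hU).diff hU hzU
      have d2 : DifferentiableAt ℝ (dx g) z := (hg.dx hU).diff hU hzU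
      rw [dx_mul hfd d1, dy_mul hfd d2, hg.dx_dy_comm hU hzU]
      simp only [br]
      ring
    · have h0 : f =ᶠ[nhds z] 0 := notMem_tsupport_iff_eventuallyEq.1 hz
      have e1 : (fun w => f w * dy g w) =ᶠ[nhds z] fun _ => 0 := by
        filter_upwards [h0] with w hw
        simp [hw]
      have e2 : (fun w => f w * dx g w) =ᶠ[nhds z] fun _ => 0 := by
        filter_upwards [h0] with w hw
        simp [hw]
      have a1 : dx (fun w => f w * dy g w) z = 0 := by
        show fderiv ℝ (fun w => f w * dy g w) z (1, 0) = 0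
        rw [e1.fderiv_eq]; simp
      have a2 : dy (fun w => f w * dx g w) z = 0 := by
        show fderiv ℝ (fun w => f w * dx g w) z (0, 1) = 0
        rw [e2.fderiv_eq]; simp
      simp only [br, dx_eq_zero_of_notMem hz, dy_eq_zero_of_notMem hz, a1, a2]
      ring
  have i1 : Integrable (fun z => dx (fun z => f z * dy g z) z) :=
    (continuous_dx h1).integrable_of_hasCompactSupport (hasCompactSupport_dx c1)
  have i2 : Integrable (fun z => dy (fun z => f z * dx g z) z) :=
    (continuous_dy h2).integrable_of_hasCompactSupport (hasCompactSupport_dy c2)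
  rw [integral_congr_ae (Filter.Eventually.of_forall e), integral_sub i1 i2,
    integral_dx_eq_zero h1 c1, integral_dy_eq_zero h2 c2, sub_zero]

/-- integration by parts for brackets: `f` is `C^1` with compact support in `U`,
`g` is `C^1` on `U`, `P` smooth on `U`. -/
theorem integral_mul_br (hU : IsOpen U) (hf : ContDiff ℝ 1 f) (hc : HasCompactSupport f)
    (hs : tsupport f ⊆ U) (hg : ContDiffOn ℝ 1 g U) (hP : Sm 2 U P) :
    ∫ z, f z * br g P z = - ∫ z, br f P z * g z := by
  have hfg : ContDiff ℝ 1 (fun z => f z * g z) := contDiff_mul_of_tsupport (n := 1) hU hf hs hg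
  have cfg : HasCompactSupport (fun z => f z * g z) := hc.mul_right
  have sfg : tsupport (fun z => f z * g z) ⊆ U := (tsupport_mul_subset_left).trans hs
  have h0 := integral_br_eq_zero hU hfg cfg sfg hP
  -- pointwise product rule
  have e : ∀ z, br (fun w => f w * g w) P z = br f P z * g z + f z * br g P z := by
    intro z
    by_cases hz : z ∈ tsupport f
    · exact br_mul_left (hf.differentiable (by simp) z)
        (((hg z (hs hz)).contDiffAt (hU.mem_nhds (hs hz))).differentiableAt (by simp))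
    · have hz' : z ∉ tsupport (fun z => f z * g z) := fun h => hz (tsupport_mul_subset_left h)
      have f0 : f z = 0 := image_eq_zero_of_notMem_tsupport hz
      simp only [br, dx_eq_zero_of_notMem hz, dy_eq_zero_of_notMem hz, dx_eq_zero_of_notMem hz',
        dy_eq_zero_of_notMem hz', f0]
      ring
  have hPx : ContDiffOn ℝ 0 (dx P) U := (hP.dx hU).of_le (by simp)
  have hPy : ContDiffOn ℝ 0 (dy P) U := (hP.dy hU).of_le (by simp)
  have hgx : ContinuousOn (dx g) U := by
    have : ContinuousOn (fun z => fderiv ℝ g z) U := hg.continuousOn_fderiv_of_isOpen hU (by simp)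
    exact this.clm_apply continuousOn_const
  have hgy : ContinuousOn (dy g) U := by
    have : ContinuousOn (fun z => fderiv ℝ g z) U := hg.continuousOn_fderiv_of_isOpen hU (by simp)
    exact this.clm_apply continuousOn_const
  have cont1 : ∀ {k m : ℝ × ℝ → ℝ}, Continuous k → (∀ z, z ∉ tsupport f → k z = 0) →
      ContinuousOn m U → Integrable (fun z => k z * m z) := by
    intro k m hk hk0 hm
    have hcont : Continuous (fun z => k z * m z) := by
      rw [continuous_iff_continuousAt]
      intro z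
      by_cases hz : z ∈ tsupport f
      · exact hk.continuousAt.mul ((hm z (hs hz)).continuousAt (hU.mem_nhds (hs hz)))
      · have hn : (tsupport f)ᶜ ∈ nhds z := (isClosed_tsupport f).isOpen_compl.mem_nhds hz
        have : (fun z => k z * m z) =ᶠ[nhds z] fun _ => 0 := by
          filter_upwards [hn] with w hw
          rw [hk0 w hw, zero_mul]
        exact (continuousAt_const).congr this.symm
    refine hcont.integrable_of_hasCompactSupport ?_
    refine HasCompactSupport.intro (K := tsupport f) hc.isCompact ?_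
    intro z hz
    rw [hk0 z hz, zero_mul]
  have i1 : Integrable (fun z => br f P z * g z) := by
    have a1 : Integrable (fun z => dx f z * (dy P z * g z)) :=
      cont1 (continuous_dx hf) (fun z hz => dx_eq_zero_of_notMem hz)
        ((contDiffOn_zero.1 hPy).mul hg.continuousOn)
    have a2 : Integrable (fun z => dy f z * (dx P z * g z)) :=
      cont1 (continuous_dy hf) (fun z hz => dy_eq_zero_of_notMem hz)
        ((contDiffOn_zero.1 hPx).mul hg.continuousOn)
    refine (a1.sub a2).congr (Filter.Eventually.of_forall fun z => ?_)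
    show dx f z * (dy P z * g z) - dy f z * (dx P z * g z) = br f P z * g z
    simp only [br]; ring
  have i2 : Integrable (fun z => f z * br g P z) := by
    refine cont1 hf.continuous (fun z hz => image_eq_zero_of_notMem_tsupport hz) ?_
    exact (hgx.mul (contDiffOn_zero.1 hPy)).sub (hgy.mul (contDiffOn_zero.1 hPx))
  rw [integral_congr_ae (Filter.Eventually.of_forall e), integral_add i1 i2] at h0
  linarith

/-- `L` and `N` commute -/
theorem Lo_No_comm (hU : IsOpen U) (hu : Sm 2 U u) (hP : Sm 2 U P) (hf : Sm 2 U f)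
    (h0 : ∀ z ∈ U, br u P z ≠ 0) (hz : z ∈ U) :
    Lo u P (No u P f) z = No u P (Lo u P f) z := by
  have h0z := h0 z hz
  have dJ : DifferentiableAt ℝ (br u P) z := (hu.br hU hP).diff hU hz
  have d1 : DifferentiableAt ℝ (br u f) z := (hu.br hU hf).diff hU hz
  have d2 : DifferentiableAt ℝ (br f P) z := (hf.br hU hP).diff hU hz
  have ux := (hu.dx hU).diff hU hz
  have uy := (hu.dy hU).diff hU hz
  have Px := (hP.dx hU).diff hU hz
  have Py := (hP.dy hU).diff hU hz
  have fx := (hf.dx hU).diff hU hz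
  have fy := (hf.dy hU).diff hU hz
  have su := hu.dx_dy_comm hU hz
  have sP := hP.dx_dy_comm hU hz
  have sf := hf.dx_dy_comm hU hz
  have n1 : No u P f = fun z => br u f z / br u P z := rfl
  have n2 : Lo u P f = fun z => br f P z / br u P z := rfl
  have c1 : Lo u P (No u P f) z = (dx (No u P f) z * dy P z - dy (No u P f) z * dx P z) / br u P z := rfl
  have c2 : No u P (Lo u P f) z = (dx u z * dy (Lo u P f) z - dy u z * dx (Lo u P f) z) / br u P z := rfl
  rw [c1, c2, n1, n2, dx_div d1 dJ h0z, dy_div d1 dJ h0z, dx_div d2 dJ h0z, dy_div d2 dJ h0z,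
    dx_br ux uy fx fy, dy_br ux uy fx fy, dx_br ux uy Px Py, dy_br ux uy Px Py,
    dx_br fx fy Px Py, dy_br fx fy Px Py, su, sP, sf]
  have hJ : br u P z = dx u z * dy P z - dy u z * dx P z := rfl
  have hF1 : br u f z = dx u z * dy f z - dy u z * dx f z := rfl
  have hF2 : br f P z = dx f z * dy P z - dy f z * dx P z := rfl
  rw [div_left_inj' h0z]
  rw [hF1, hF2]
  rw [hJ] at h0z ⊢
  field_simp
  ring

end Vale.Agent.P229.C3
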