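import Vale.Agent.P229.Gauss
import Vale.Agent.P229.C3.Surf

/-! P229, `C³` version, module H: Gauss and Codazzi equations in conformal coordinates. -/

namespace Vale.Agent.P229.C3

open MeasureTheory Set
open scoped ContDiff

/-- components of `F_x × F_y` -/
noncomputable def n1 (T : Tri) : ℝ × ℝ → ℝ := fun z => dx T.b z * dy T.h z - dx T.h z * dy T.b z
noncomputable def n2 (T : Tri) : ℝ × ℝ → ℝ := fun z => dx T.h z * dy T.a z - dx T.a z * dy T.h z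
noncomputable def n3 (T : Tri) : ℝ × ℝ → ℝ := fun z => dx T.a z * dy T.b z - dx T.b z * dy T.a z

noncomputable def lxx (T : Tri) : ℝ × ℝ → ℝ := fun z =>
  dx (dx T.a) z * n1 T z + dx (dx T.b) z * n2 T z + dx (dx T.h) z * n3 T z
noncomputable def lxy (T : Tri) : ℝ × ℝ → ℝ := fun z =>
  dx (dy T.a) z * n1 T z + dx (dy T.b) z * n2 T z + dx (dy T.h) z * n3 T z
noncomputable def lyy (T : Tri) : ℝ × ℝ → ℝ := fun z =>
  dy (dy T.a) z * n1 T z + dy (dy T.b) z * n2 T z + dy (dy T.h) z * n3 T z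

namespace GaussAux3

variable {z : ℝ × ℝ}

theorem dfa {f : ℝ × ℝ → ℝ} (hf : Differentiable ℝ f) (z : ℝ × ℝ) : DifferentiableAt ℝ f z :=
  hf z

theorem cx {n : ℕ} {f : ℝ × ℝ → ℝ} (hf : ContDiff ℝ (n + 1 : ℕ) f) : ContDiff ℝ n (dx f) :=
  contDiff_dx hf

theorem c3x {f : ℝ × ℝ → ℝ} (hf : ContDiff ℝ 3 f) : ContDiff ℝ 2 (dx f) := by
  have := contDiff_dx (n := 2) (f := f) (by exact_mod_cast hf)
  exact_mod_cast this

theorem c3y {f : ℝ × ℝ → ℝ} (hf : ContDiff ℝ 3 f) : ContDiff ℝ 2 (dy f) := by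
  have := contDiff_dy (n := 2) (f := f) (by exact_mod_cast hf)
  exact_mod_cast this

theorem c2x {f : ℝ × ℝ → ℝ} (hf : ContDiff ℝ 2 f) : ContDiff ℝ 1 (dx f) := by
  have := contDiff_dx (n := 1) (f := f) (by exact_mod_cast hf)
  exact_mod_cast this

theorem c2y {f : ℝ × ℝ → ℝ} (hf : ContDiff ℝ 2 f) : ContDiff ℝ 1 (dy f) := by
  have := contDiff_dy (n := 1) (f := f) (by exact_mod_cast hf)
  exact_mod_cast this

theorem d1 {f : ℝ × ℝ → ℝ} (hf : ContDiff ℝ 1 f) : Differentiable ℝ f :=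
  hf.differentiable (by simp)

theorem d2 {f : ℝ × ℝ → ℝ} (hf : ContDiff ℝ 2 f) : Differentiable ℝ f :=
  hf.differentiable (by simp)

theorem dinf {f : ℝ × ℝ → ℝ} (hf : ContDiff ℝ ∞ f) : Differentiable ℝ f :=
  hf.differentiable (by simp)

theorem dx_dot {f1 f2 f3 g1 g2 g3 : ℝ × ℝ → ℝ} (h1 : Differentiable ℝ f1) (h2 : Differentiable ℝ f2)
    (h3 : Differentiable ℝ f3) (k1 : Differentiable ℝ g1) (k2 : Differentiable ℝ g2) (k3 : Differentiable ℝ g3)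
    (z : ℝ × ℝ) : dx (fun w => f1 w * g1 w + f2 w * g2 w + f3 w * g3 w) z =
      (dx f1 z * g1 z + f1 z * dx g1 z) + (dx f2 z * g2 z + f2 z * dx g2 z) +
        (dx f3 z * g3 z + f3 z * dx g3 z) := by
  have d1 : DifferentiableAt ℝ (fun w => f1 w * g1 w) z := (dfa h1 z).mul (dfa k1 z)
  have d2 : DifferentiableAt ℝ (fun w => f2 w * g2 w) z := (dfa h2 z).mul (dfa k2 z)
  have d3 : DifferentiableAt ℝ (fun w => f3 w * g3 w) z := (dfa h3 z).mul (dfa k3 z)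
  have d12 : DifferentiableAt ℝ (fun w => f1 w * g1 w + f2 w * g2 w) z := d1.add d2
  rw [dx_add d12 d3, dx_add d1 d2, dx_mul (dfa h1 z) (dfa k1 z),
    dx_mul (dfa h2 z) (dfa k2 z), dx_mul (dfa h3 z) (dfa k3 z)]

theorem dy_dot {f1 f2 f3 g1 g2 g3 : ℝ × ℝ → ℝ} (h1 : Differentiable ℝ f1) (h2 : Differentiable ℝ f2)
    (h3 : Differentiable ℝ f3) (k1 : Differentiable ℝ g1) (k2 : Differentiable ℝ g2) (k3 : Differentiable ℝ g3)
    (z : ℝ × ℝ) : dy (fun w => f1 w * g1 w + f2 w * g2 w + f3 w * g3 w) z =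
      (dy f1 z * g1 z + f1 z * dy g1 z) + (dy f2 z * g2 z + f2 z * dy g2 z) +
        (dy f3 z * g3 z + f3 z * dy g3 z) := by
  have d1 : DifferentiableAt ℝ (fun w => f1 w * g1 w) z := (dfa h1 z).mul (dfa k1 z)
  have d2 : DifferentiableAt ℝ (fun w => f2 w * g2 w) z := (dfa h2 z).mul (dfa k2 z)
  have d3 : DifferentiableAt ℝ (fun w => f3 w * g3 w) z := (dfa h3 z).mul (dfa k3 z)
  have d12 : DifferentiableAt ℝ (fun w => f1 w * g1 w + f2 w * g2 w) z := d1.add d2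
  rw [dy_add d12 d3, dy_add d1 d2, dy_mul (dfa h1 z) (dfa k1 z),
    dy_mul (dfa h2 z) (dfa k2 z), dy_mul (dfa h3 z) (dfa k3 z)]

theorem comm' {f : ℝ × ℝ → ℝ} (hf : ContDiff ℝ 2 f) : dy (dx f) = dx (dy f) := by
  funext z
  exact (P229.dx_dy_comm hf.contDiffAt).symm

theorem comm3 {f : ℝ × ℝ → ℝ} (hf : ContDiff ℝ 3 f) : dy (dx f) = dx (dy f) :=
  comm' (hf.of_le (by norm_cast))

/-- the first order relations between second and first derivatives -/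
theorem rels (T : Tri) (ψ : ℝ × ℝ → ℝ) (hψ : ContDiff ℝ ∞ ψ) (hI : IsImm ψ T) :
    ∀ z ∈ disc 3,
      (dx (dx T.a) z * dx T.a z + dx (dx T.b) z * dx T.b z + dx (dx T.h) z * dx T.h z =
        dx ψ z * Real.exp (2 * ψ z)) ∧
      (dx (dy T.a) z * dx T.a z + dx (dy T.b) z * dx T.b z + dx (dy T.h) z * dx T.h z =
        dy ψ z * Real.exp (2 * ψ z)) ∧
      (dx (dy T.a) z * dy T.a z + dx (dy T.b) z * dy T.b z + dx (dy T.h) z * dy T.h z =
        dx ψ z * Real.exp (2 * ψ z)) ∧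
      (dy (dy T.a) z * dy T.a z + dy (dy T.b) z * dy T.b z + dy (dy T.h) z * dy T.h z =
        dy ψ z * Real.exp (2 * ψ z)) ∧
      (dx (dx T.a) z * dy T.a z + dx (dx T.b) z * dy T.b z + dx (dx T.h) z * dy T.h z =
        -(dy ψ z * Real.exp (2 * ψ z))) ∧
      (dy (dy T.a) z * dx T.a z + dy (dy T.b) z * dx T.b z + dy (dy T.h) z * dx T.h z =
        -(dx ψ z * Real.exp (2 * ψ z))) := by
  intro z hz
  have hO := isOpen_disc 3
  have ax := d2 (c3x T.ha)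
  have bx := d2 (c3x T.hb)
  have hx := d2 (c3x T.hh)
  have ay := d2 (c3y T.ha)
  have by' := d2 (c3y T.hb)
  have hy := d2 (c3y T.hh)
  have r1 : ∀ w ∈ disc 3, dx T.a w * dx T.a w + dx T.b w * dx T.b w + dx T.h w * dx T.h w =
      Real.exp (2 * ψ w) := fun w hw => by rw [← (hI w hw).1]; ring
  have r2 : ∀ w ∈ disc 3, dy T.a w * dy T.a w + dy T.b w * dy T.b w + dy T.h w * dy T.h w =
      Real.exp (2 * ψ w) := fun w hw => by rw [← (hI w hw).2.1]; ring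
  have r3 : ∀ w ∈ disc 3, dx T.a w * dy T.a w + dx T.b w * dy T.b w + dx T.h w * dy T.h w =
      0 := fun w hw => (hI w hw).2.2
  have s1 := dx_congr hO r1 hz
  have s2 := dy_congr hO r1 hz
  have s3 := dx_congr hO r2 hz
  have s4 := dy_congr hO r2 hz
  have s5 := dx_congr hO r3 hz
  have s6 := dy_congr hO r3 hz
  rw [dx_dot ax bx hx ax bx hx, P229.GaussAux.dx_E hψ] at s1
  rw [dy_dot ax bx hx ax bx hx, P229.GaussAux.dy_E hψ] at s2
  rw [dx_dot ay by' hy ay by' hy, P229.GaussAux.dx_E hψ] at s3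
  rw [dy_dot ay by' hy ay by' hy, P229.GaussAux.dy_E hψ] at s4
  rw [dx_dot ax bx hx ay by' hy, dx_const] at s5
  rw [dy_dot ax bx hx ay by' hy, dy_const] at s6
  rw [comm3 T.ha, comm3 T.hb, comm3 T.hh] at s2 s6
  refine ⟨by linarith, by linarith, by linarith, by linarith, by linarith, by linarith⟩

/-- the second order relation -/
theorem rel2 (T : Tri) (ψ : ℝ × ℝ → ℝ) (hψ : ContDiff ℝ ∞ ψ) (hI : IsImm ψ T) :
    ∀ z ∈ disc 3,
      (dx (dx T.a) z * dy (dy T.a) z + dx (dx T.b) z * dy (dy T.b) z +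
        dx (dx T.h) z * dy (dy T.h) z) -
      (dx (dy T.a) z ^ 2 + dx (dy T.b) z ^ 2 + dx (dy T.h) z ^ 2) =
        -((dx (dx ψ) z + dy (dy ψ) z) * Real.exp (2 * ψ z)) -
          2 * (dx ψ z ^ 2 + dy ψ z ^ 2) * Real.exp (2 * ψ z) := by
  intro z hz
  have hO := isOpen_disc 3
  have ay := d2 (c3y T.ha)
  have by' := d2 (c3y T.hb)
  have hy := d2 (c3y T.hh)
  have axx := d1 (c2x (c3x T.ha))
  have bxx := d1 (c2x (c3x T.hb))
  have hxx := d1 (c2x (c3x T.hh))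
  have axy := d1 (c2x (c3y T.ha))
  have bxy := d1 (c2x (c3y T.hb))
  have hxy := d1 (c2x (c3y T.hh))
  have ψx := dinf (P229.contDiff_dx hψ)
  have ψy := dinf (P229.contDiff_dy hψ)
  have r5 : ∀ w ∈ disc 3, dx (dx T.a) w * dy T.a w + dx (dx T.b) w * dy T.b w +
      dx (dx T.h) w * dy T.h w = -(dy ψ w * Real.exp (2 * ψ w)) :=
    fun w hw => (rels T ψ hψ hI w hw).2.2.2.2.1
  have r3 : ∀ w ∈ disc 3, dx (dy T.a) w * dy T.a w + dx (dy T.b) w * dy T.b w +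
      dx (dy T.h) w * dy T.h w = dx ψ w * Real.exp (2 * ψ w) :=
    fun w hw => (rels T ψ hψ hI w hw).2.2.1
  have s5 := dy_congr hO r5 hz
  have s3 := dx_congr hO r3 hz
  rw [dy_dot axx bxx hxx ay by' hy, dy_neg, dy_mul (dfa ψy z) (dinf (P229.GaussAux.contDiff_E hψ) z),
    P229.GaussAux.dy_E hψ] at s5
  rw [dx_dot axy bxy hxy ay by' hy, dx_mul (dfa ψx z) (dinf (P229.GaussAux.contDiff_E hψ) z), P229.GaussAux.dx_E hψ] at s3
  have c1 : ∀ {f : ℝ × ℝ → ℝ}, ContDiff ℝ 3 f → dy (dx (dx f)) z = dx (dx (dy f)) z := by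
    intro f hf
    rw [comm' (c3x hf), comm3 hf]
  rw [c1 T.ha, c1 T.hb, c1 T.hh] at s5
  nlinarith

theorem frame_alg (A1 A2 A3 X1 X2 X3 Y1 Y2 Y3 E p q : ℝ) (hE : E ≠ 0)
    (hX : X1 ^ 2 + X2 ^ 2 + X3 ^ 2 = E) (hY : Y1 ^ 2 + Y2 ^ 2 + Y3 ^ 2 = E)
    (hXY : X1 * Y1 + X2 * Y2 + X3 * Y3 = 0)
    (hp : A1 * X1 + A2 * X2 + A3 * X3 = p * E) (hq : A1 * Y1 + A2 * Y2 + A3 * Y3 = q * E) :
    A1 = p * X1 + q * Y1 + (A1 * (X2 * Y3 - X3 * Y2) + A2 * (X3 * Y1 - X1 * Y3) +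
      A3 * (X1 * Y2 - X2 * Y1)) * (X2 * Y3 - X3 * Y2) / E ^ 2 := by
  have h1 : ((X1 ^ 2 + X2 ^ 2 + X3 ^ 2) * (Y1 ^ 2 + Y2 ^ 2 + Y3 ^ 2) -
      (X1 * Y1 + X2 * Y2 + X3 * Y3) ^ 2) * A1 =
      (A1 * (X2 * Y3 - X3 * Y2) + A2 * (X3 * Y1 - X1 * Y3) +
        A3 * (X1 * Y2 - X2 * Y1)) * (X2 * Y3 - X3 * Y2) +
      ((Y1 ^ 2 + Y2 ^ 2 + Y3 ^ 2) * (A1 * X1 + A2 * X2 + A3 * X3) -
        (X1 * Y1 + X2 * Y2 + X3 * Y3) * (A1 * Y1 + A2 * Y2 + A3 * Y3)) * X1 +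
      ((X1 ^ 2 + X2 ^ 2 + X3 ^ 2) * (A1 * Y1 + A2 * Y2 + A3 * Y3) -
        (X1 * Y1 + X2 * Y2 + X3 * Y3) * (A1 * X1 + A2 * X2 + A3 * X3)) * Y1 := by ring
  rw [hX, hY, hXY, hp, hq] at h1
  have h2 : (A1 * (X2 * Y3 - X3 * Y2) + A2 * (X3 * Y1 - X1 * Y3) +
        A3 * (X1 * Y2 - X2 * Y1)) * (X2 * Y3 - X3 * Y2) =
        E ^ 2 * (A1 - p * X1 - q * Y1) := by linear_combination -h1
  rw [h2]
  field_simp
  ring

end GaussAux3

open GaussAux3

theorem gauss (T : Tri) (ψ : ℝ × ℝ → ℝ) (hψ : ContDiff ℝ ∞ ψ) (hI : IsImm ψ T) :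
    ∀ z ∈ disc 3, lxx T z * lyy T z - lxy T z ^ 2
      = - Real.exp (6 * ψ z) * (dx (dx ψ) z + dy (dy ψ) z) := by
  intro z hz
  obtain ⟨h1, h2, h3, h4, h5, h6⟩ := rels T ψ hψ hI z hz
  have h7 := rel2 T ψ hψ hI z hz
  obtain ⟨i1, i2, i3⟩ := hI z hz
  have e6 : Real.exp (6 * ψ z) = Real.exp (2 * ψ z) ^ 3 := by
    rw [← Real.exp_nat_mul]; congr 1; push_cast; ring
  rw [e6]
  simp only [lxx, lyy, lxy, n1, n2, n3]
  generalize dx (dx ψ) z = ψxx at *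
  generalize dy (dy ψ) z = ψyy at *
  generalize dx ψ z = ψx at *
  generalize dy ψ z = ψy at *
  generalize Real.exp (2 * ψ z) = E at *
  generalize dx (dx T.a) z = A1 at *
  generalize dx (dx T.b) z = A2 at *
  generalize dx (dx T.h) z = A3 at *
  generalize dx (dy T.a) z = B1 at *
  generalize dx (dy T.b) z = B2 at *
  generalize dx (dy T.h) z = B3 at *
  generalize dy (dy T.a) z = C1 at *
  generalize dy (dy T.b) z = C2 at *
  generalize dy (dy T.h) z = C3 at *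
  generalize dx T.a z = X1 at *
  generalize dx T.b z = X2 at *
  generalize dx T.h z = X3 at *
  generalize dy T.a z = Y1 at *
  generalize dy T.b z = Y2 at *
  generalize dy T.h z = Y3 at *
  have key : ∀ A1 A2 A3 C1 C2 C3 : ℝ,
      (A1 * (X2 * Y3 - X3 * Y2) + A2 * (X3 * Y1 - X1 * Y3) + A3 * (X1 * Y2 - X2 * Y1)) *
      (C1 * (X2 * Y3 - X3 * Y2) + C2 * (X3 * Y1 - X1 * Y3) + C3 * (X1 * Y2 - X2 * Y1)) =
      (A1 * C1 + A2 * C2 + A3 * C3) * (E * E) -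
      E * (A1 * X1 + A2 * X2 + A3 * X3) * (C1 * X1 + C2 * X2 + C3 * X3) -
      E * (A1 * Y1 + A2 * Y2 + A3 * Y3) * (C1 * Y1 + C2 * Y2 + C3 * Y3) := by
    intro A1 A2 A3 C1 C2 C3
    have g : (A1 * (X2 * Y3 - X3 * Y2) + A2 * (X3 * Y1 - X1 * Y3) + A3 * (X1 * Y2 - X2 * Y1)) *
      (C1 * (X2 * Y3 - X3 * Y2) + C2 * (X3 * Y1 - X1 * Y3) + C3 * (X1 * Y2 - X2 * Y1)) =
      (A1 * C1 + A2 * C2 + A3 * C3) * ((X1 ^ 2 + X2 ^ 2 + X3 ^ 2) * (Y1 ^ 2 + Y2 ^ 2 + Y3 ^ 2) -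
        (X1 * Y1 + X2 * Y2 + X3 * Y3) ^ 2) -
      (A1 * X1 + A2 * X2 + A3 * X3) * ((C1 * X1 + C2 * X2 + C3 * X3) *
        (Y1 ^ 2 + Y2 ^ 2 + Y3 ^ 2) - (X1 * Y1 + X2 * Y2 + X3 * Y3) *
        (C1 * Y1 + C2 * Y2 + C3 * Y3)) +
      (A1 * Y1 + A2 * Y2 + A3 * Y3) * ((C1 * X1 + C2 * X2 + C3 * X3) *
        (X1 * Y1 + X2 * Y2 + X3 * Y3) - (X1 ^ 2 + X2 ^ 2 + X3 ^ 2) *
        (C1 * Y1 + C2 * Y2 + C3 * Y3)) := by ring
    rw [g, i1, i2, i3]
    ring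
  rw [sq, key A1 A2 A3 C1 C2 C3, key B1 B2 B3 B1 B2 B3, h1, h2, h3, h4, h5, h6]
  linear_combination (E ^ 2) * h7

/-- `F_xx = ψ_x F_x - ψ_y F_y + l_xx n / e^{4ψ}` etc.; only what is needed for the alignment -/
theorem frame (T : Tri) (ψ : ℝ × ℝ → ℝ) (hψ : ContDiff ℝ ∞ ψ) (hI : IsImm ψ T) :
    ∀ z ∈ disc 3,
      dx (dx T.a) z = dx ψ z * dx T.a z - dy ψ z * dy T.a z
        + lxx T z * n1 T z / Real.exp (4 * ψ z) ∧
      dx (dx T.h) z = dx ψ z * dx T.h z - dy ψ z * dy T.h z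
        + lxx T z * n3 T z / Real.exp (4 * ψ z) ∧
      dx (dy T.a) z = dy ψ z * dx T.a z + dx ψ z * dy T.a z
        + lxy T z * n1 T z / Real.exp (4 * ψ z) ∧
      dx (dy T.h) z = dy ψ z * dx T.h z + dx ψ z * dy T.h z
        + lxy T z * n3 T z / Real.exp (4 * ψ z) := by
  intro z hz
  obtain ⟨h1, h2, h3, h4, h5, h6⟩ := rels T ψ hψ hI z hz
  obtain ⟨i1, i2, i3⟩ := hI z hz
  have e4 : Real.exp (4 * ψ z) = Real.exp (2 * ψ z) ^ 2 := by
    rw [← Real.exp_nat_mul]; congr 1; push_cast; ring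
  have hE : Real.exp (2 * ψ z) ≠ 0 := (Real.exp_pos _).ne'
  rw [e4]
  simp only [lxx, lxy, n1, n2, n3]
  refine ⟨?_, ?_, ?_, ?_⟩
  · have := frame_alg (dx (dx T.a) z) (dx (dx T.b) z) (dx (dx T.h) z) (dx T.a z) (dx T.b z)
      (dx T.h z) (dy T.a z) (dy T.b z) (dy T.h z) _ (dx ψ z) (-dy ψ z) hE i1 i2 i3 h1
      (by rw [h5]; ring)
    linear_combination this
  · have := frame_alg (dx (dx T.h) z) (dx (dx T.a) z) (dx (dx T.b) z) (dx T.h z) (dx T.a z)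
      (dx T.b z) (dy T.h z) (dy T.a z) (dy T.b z) _ (dx ψ z) (-dy ψ z) hE
      (by rw [← i1]; ring) (by rw [← i2]; ring) (by rw [← i3]; ring)
      (by rw [← h1]; ring) (by rw [neg_mul, ← h5]; ring)
    linear_combination this
  · have := frame_alg (dx (dy T.a) z) (dx (dy T.b) z) (dx (dy T.h) z) (dx T.a z) (dx T.b z)
      (dx T.h z) (dy T.a z) (dy T.b z) (dy T.h z) _ (dy ψ z) (dx ψ z) hE i1 i2 i3 h2 h3
    linear_combination this
  · have := frame_alg (dx (dy T.h) z) (dx (dy T.a) z) (dx (dy T.b) z) (dx T.h z) (dx T.a z)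
      (dx T.b z) (dy T.h z) (dy T.a z) (dy T.b z) _ (dy ψ z) (dx ψ z) hE
      (by rw [← i1]; ring) (by rw [← i2]; ring) (by rw [← i3]; ring)
      (by rw [← h2]; ring) (by rw [← h3]; ring)
    linear_combination this

theorem codazzi (T : Tri) (ψ : ℝ × ℝ → ℝ) (hψ : ContDiff ℝ ∞ ψ) (hI : IsImm ψ T) :
    ∀ z ∈ disc 3, dy (lxx T) z - dx (lxy T) z
      = 2 * dy ψ z * lxx T z - 2 * dx ψ z * lxy T z + dy ψ z * (lxx T z + lyy T z) := by
  intro z hz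
  obtain ⟨h1, h2, h3, h4, h5, h6⟩ := rels T ψ hψ hI z hz
  obtain ⟨i1, i2, i3⟩ := hI z hz
  have hE : Real.exp (2 * ψ z) ≠ 0 := (Real.exp_pos _).ne'
  have ax := d2 (c3x T.ha)
  have bx := d2 (c3x T.hb)
  have hx := d2 (c3x T.hh)
  have ay := d2 (c3y T.ha)
  have by' := d2 (c3y T.hb)
  have hy := d2 (c3y T.hh)
  have axx := d1 (c2x (c3x T.ha))
  have bxx := d1 (c2x (c3x T.hb))
  have hxx := d1 (c2x (c3x T.hh))
  have axy := d1 (c2x (c3y T.ha))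
  have bxy := d1 (c2x (c3y T.hb))
  have hxy := d1 (c2x (c3y T.hh))
  have sn1 : Differentiable ℝ (n1 T) := (bx.mul hy).sub (hx.mul by')
  have sn2 : Differentiable ℝ (n2 T) := (hx.mul ay).sub (ax.mul hy)
  have sn3 : Differentiable ℝ (n3 T) := (ax.mul by').sub (bx.mul ay)
  have t1 : dy (lxx T) z = _ := dy_dot axx bxx hxx sn1 sn2 sn3 z
  have t2 : dx (lxy T) z = _ := dx_dot axy bxy hxy sn1 sn2 sn3 z
  have c1 : ∀ {f : ℝ × ℝ → ℝ}, ContDiff ℝ 3 f → dy (dx (dx f)) z = dx (dx (dy f)) z := by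
    intro f hf
    rw [comm' (c3x hf), comm3 hf]
  have dmul : ∀ {f g : ℝ × ℝ → ℝ}, Differentiable ℝ f → Differentiable ℝ g →
      DifferentiableAt ℝ (fun w => f w * g w) z := fun hf hg => (dfa hf z).mul (dfa hg z)
  have un1 : dx (n1 T) z = dx (dx T.b) z * dy T.h z + dx T.b z * dx (dy T.h) z -
      (dx (dx T.h) z * dy T.b z + dx T.h z * dx (dy T.b) z) := by
    have : n1 T = fun w => dx T.b w * dy T.h w - dx T.h w * dy T.b w := rfl
    rw [this, dx_sub (dmul bx hy) (dmul hx by'), dx_mul (dfa bx z) (dfa hy z),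
      dx_mul (dfa hx z) (dfa by' z)]
  have un2 : dx (n2 T) z = dx (dx T.h) z * dy T.a z + dx T.h z * dx (dy T.a) z -
      (dx (dx T.a) z * dy T.h z + dx T.a z * dx (dy T.h) z) := by
    have : n2 T = fun w => dx T.h w * dy T.a w - dx T.a w * dy T.h w := rfl
    rw [this, dx_sub (dmul hx ay) (dmul ax hy), dx_mul (dfa hx z) (dfa ay z),
      dx_mul (dfa ax z) (dfa hy z)]
  have un3 : dx (n3 T) z = dx (dx T.a) z * dy T.b z + dx T.a z * dx (dy T.b) z -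
      (dx (dx T.b) z * dy T.a z + dx T.b z * dx (dy T.a) z) := by
    have : n3 T = fun w => dx T.a w * dy T.b w - dx T.b w * dy T.a w := rfl
    rw [this, dx_sub (dmul ax by') (dmul bx ay), dx_mul (dfa ax z) (dfa by' z),
      dx_mul (dfa bx z) (dfa ay z)]
  have vn1 : dy (n1 T) z = dx (dy T.b) z * dy T.h z + dx T.b z * dy (dy T.h) z -
      (dx (dy T.h) z * dy T.b z + dx T.h z * dy (dy T.b) z) := by
    have : n1 T = fun w => dx T.b w * dy T.h w - dx T.h w * dy T.b w := rfl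
    rw [this, dy_sub (dmul bx hy) (dmul hx by'), dy_mul (dfa bx z) (dfa hy z),
      dy_mul (dfa hx z) (dfa by' z), comm3 T.hb, comm3 T.hh]
  have vn2 : dy (n2 T) z = dx (dy T.h) z * dy T.a z + dx T.h z * dy (dy T.a) z -
      (dx (dy T.a) z * dy T.h z + dx T.a z * dy (dy T.h) z) := by
    have : n2 T = fun w => dx T.h w * dy T.a w - dx T.a w * dy T.h w := rfl
    rw [this, dy_sub (dmul hx ay) (dmul ax hy), dy_mul (dfa hx z) (dfa ay z),
      dy_mul (dfa ax z) (dfa hy z), comm3 T.ha, comm3 T.hh]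
  have vn3 : dy (n3 T) z = dx (dy T.a) z * dy T.b z + dx T.a z * dy (dy T.b) z -
      (dx (dy T.b) z * dy T.a z + dx T.b z * dy (dy T.a) z) := by
    have : n3 T = fun w => dx T.a w * dy T.b w - dx T.b w * dy T.a w := rfl
    rw [this, dy_sub (dmul ax by') (dmul bx ay), dy_mul (dfa ax z) (dfa by' z),
      dy_mul (dfa bx z) (dfa ay z), comm3 T.ha, comm3 T.hb]
  rw [t1, t2, un1, un2, un3, vn1, vn2, vn3, c1 T.ha, c1 T.hb, c1 T.hh]
  simp only [lxx, lyy, lxy, n1, n2, n3]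
  clear t1 t2 un1 un2 un3 vn1 vn2 vn3 c1 dmul sn1 sn2 sn3 axx bxx hxx axy bxy hxy ax bx hx ay by' hy
  generalize dx (dx (dy T.a)) z = D1 at *
  generalize dx (dx (dy T.b)) z = D2 at *
  generalize dx (dx (dy T.h)) z = D3 at *
  generalize dx ψ z = ψx at *
  generalize dy ψ z = ψy at *
  generalize Real.exp (2 * ψ z) = E at *
  generalize dx (dx T.a) z = A1 at *
  generalize dx (dx T.b) z = A2 at *
  generalize dx (dx T.h) z = A3 at *
  generalize dx (dy T.a) z = B1 at *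
  generalize dx (dy T.b) z = B2 at *
  generalize dx (dy T.h) z = B3 at *
  generalize dy (dy T.a) z = C1 at *
  generalize dy (dy T.b) z = C2 at *
  generalize dy (dy T.h) z = C3 at *
  generalize dx T.a z = X1 at *
  generalize dx T.b z = X2 at *
  generalize dx T.h z = X3 at *
  generalize dy T.a z = Y1 at *
  generalize dy T.b z = Y2 at *
  generalize dy T.h z = Y3 at *
  -- frame expansions
  have rot : ∀ A1 A2 A3 p q : ℝ, A1 * X1 + A2 * X2 + A3 * X3 = p * E →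
      A1 * Y1 + A2 * Y2 + A3 * Y3 = q * E → ∃ al : ℝ,
      al * E ^ 2 = (A1 * (X2 * Y3 - X3 * Y2) + A2 * (X3 * Y1 - X1 * Y3) +
        A3 * (X1 * Y2 - X2 * Y1)) ∧ A1 = p * X1 + q * Y1 + al * (X2 * Y3 - X3 * Y2) ∧
      A2 = p * X2 + q * Y2 + al * (X3 * Y1 - X1 * Y3) ∧
      A3 = p * X3 + q * Y3 + al * (X1 * Y2 - X2 * Y1) := by
    intro A1 A2 A3 p q hp hq
    refine ⟨(A1 * (X2 * Y3 - X3 * Y2) + A2 * (X3 * Y1 - X1 * Y3) +
        A3 * (X1 * Y2 - X2 * Y1)) / E ^ 2, by field_simp, ?_, ?_, ?_⟩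
    · have := frame_alg A1 A2 A3 X1 X2 X3 Y1 Y2 Y3 E p q hE i1 i2 i3 hp hq
      linear_combination this
    · have := frame_alg A2 A3 A1 X2 X3 X1 Y2 Y3 Y1 E p q hE (by rw [← i1]; ring)
        (by rw [← i2]; ring) (by rw [← i3]; ring) (by rw [← hp]; ring) (by rw [← hq]; ring)
      linear_combination this
    · have := frame_alg A3 A1 A2 X3 X1 X2 Y3 Y1 Y2 E p q hE (by rw [← i1]; ring)
        (by rw [← i2]; ring) (by rw [← i3]; ring) (by rw [← hp]; ring) (by rw [← hq]; ring)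
      linear_combination this
  obtain ⟨al, a0, a1, a2, a3⟩ := rot A1 A2 A3 ψx (-ψy) h1 (by rw [h5]; ring)
  obtain ⟨be, b0, b1, b2, b3⟩ := rot B1 B2 B3 ψy ψx h2 h3
  obtain ⟨ga, c0, c1, c2, c3⟩ := rot C1 C2 C3 (-ψx) ψy (by rw [h6]; ring) h4
  have hn : (X2 * Y3 - X3 * Y2) ^ 2 + (X3 * Y1 - X1 * Y3) ^ 2 + (X1 * Y2 - X2 * Y1) ^ 2 =
      E ^ 2 := by
    have : (X2 * Y3 - X3 * Y2) ^ 2 + (X3 * Y1 - X1 * Y3) ^ 2 + (X1 * Y2 - X2 * Y1) ^ 2 =
      (X1 ^ 2 + X2 ^ 2 + X3 ^ 2) * (Y1 ^ 2 + Y2 ^ 2 + Y3 ^ 2) -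
      (X1 * Y1 + X2 * Y2 + X3 * Y3) ^ 2 := by ring
    rw [this, i1, i2, i3]; ring
  rw [← a0, ← b0, ← c0]
  clear a0 b0 c0 rot h1 h2 h3 h4 h5 h6 i1 i2 i3
  subst a1 a2 a3 b1 b2 b3 c1 c2 c3
  linear_combination (2 * (al * ψy - be * ψx) + ψy * (al + ga)) * hn

theorem kf_eq (T : Tri) (ψ : ℝ × ℝ → ℝ) (hψ : ContDiff ℝ ∞ ψ) (hI : IsImm ψ T)
    (h0 : ∀ z ∈ disc 2, 0 < br T.a T.b z) :
    ∀ z ∈ disc 2, kf T z = (1 + pf T z ^ 2 + Pf T z ^ 2) ^ 2 *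
      (-(dx (dx ψ) z + dy (dy ψ) z) * Real.exp (-2 * ψ z)) := by
  intro z hz
  have hO := isOpen_disc 2
  have hsub : disc 2 ⊆ disc 3 := by
    intro w hw
    unfold disc at *
    simp only [Set.mem_ofPred_eq] at *
    linarith
  have hz3 := hsub hz
  have hJ : ∀ w ∈ disc 2, br T.a T.b w ≠ 0 := fun w hw => (h0 w hw).ne'
  have sa : Sm 3 (disc 2) T.a := T.ha.contDiffOn
  have sb : Sm 3 (disc 2) T.b := T.hb.contDiffOn
  have sh : Sm 3 (disc 2) T.h := T.hh.contDiffOn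
  have sp : Sm 2 (disc 2) (pf T) := Sm.Lo hO sa sb sh hJ
  have sP : Sm 2 (disc 2) (Pf T) := Sm.No hO sa sb sh hJ
  have q1 : ∀ w ∈ disc 2, dx T.h w = pf T w * dx T.a w + Pf T w * dx T.b w :=
    fun w hw => dx_eq_Lo_No (hJ w hw)
  have q2 : ∀ w ∈ disc 2, dy T.h w = pf T w * dy T.a w + Pf T w * dy T.b w :=
    fun w hw => dy_eq_Lo_No (hJ w hw)
  have dp := sp.diff hO hz
  have dP := sP.diff hO hz
  have dax := d2 (c3x T.ha) z
  have dbx := d2 (c3x T.hb) z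
  have day := d2 (c3y T.ha) z
  have dby := d2 (c3y T.hb) z
  have m1 : DifferentiableAt ℝ (fun w => pf T w * dx T.a w) z := dp.mul dax
  have m2 : DifferentiableAt ℝ (fun w => Pf T w * dx T.b w) z := dP.mul dbx
  have m3 : DifferentiableAt ℝ (fun w => pf T w * dy T.a w) z := dp.mul day
  have m4 : DifferentiableAt ℝ (fun w => Pf T w * dy T.b w) z := dP.mul dby
  have s1 := dx_congr hO q1 hz
  have s2 := dx_congr hO q2 hz
  have s3 := dy_congr hO q1 hz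
  have s4 := dy_congr hO q2 hz
  rw [dx_add m1 m2, dx_mul dp dax, dx_mul dP dbx] at s1
  rw [dx_add m3 m4, dx_mul dp day, dx_mul dP dby] at s2
  rw [dy_add m1 m2, dy_mul dp dax, dy_mul dP dbx, comm3 T.ha, comm3 T.hb, comm3 T.hh] at s3
  rw [dy_add m3 m4, dy_mul dp day, dy_mul dP dby] at s4
  have hg := gauss T ψ hψ hI z hz3
  obtain ⟨i1, i2, i3⟩ := hI z hz3
  have e6 : Real.exp (6 * ψ z) = Real.exp (2 * ψ z) ^ 3 := by
    rw [← Real.exp_nat_mul]; congr 1; push_cast; ring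
  have em : Real.exp (-2 * ψ z) = (Real.exp (2 * ψ z))⁻¹ := by
    rw [← Real.exp_neg]; congr 1; ring
  have hE : Real.exp (2 * ψ z) ≠ 0 := (Real.exp_pos _).ne'
  have hJz := hJ z hz
  have t1 := q1 z hz
  have t2 := q2 z hz
  rw [em]
  rw [e6] at hg
  simp only [lxx, lyy, lxy, n1, n2, n3] at hg
  simp only [kf]
  have ebr : br (pf T) (Pf T) z = dx (pf T) z * dy (Pf T) z - dy (pf T) z * dx (Pf T) z := rfl
  have eJ : br T.a T.b z = dx T.a z * dy T.b z - dy T.a z * dx T.b z := rfl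
  rw [ebr]
  generalize br T.a T.b z = J at *
  generalize dx (dx ψ) z = ψxx at *
  generalize dy (dy ψ) z = ψyy at *
  generalize Real.exp (2 * ψ z) = E at *
  generalize dx (dx T.a) z = A1 at *
  generalize dx (dx T.b) z = A2 at *
  generalize dx (dx T.h) z = A3 at *
  generalize dx (dy T.a) z = B1 at *
  generalize dx (dy T.b) z = B2 at *
  generalize dx (dy T.h) z = B3 at *
  generalize dy (dy T.a) z = C1 at *
  generalize dy (dy T.b) z = C2 at *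
  generalize dy (dy T.h) z = C3 at *
  generalize dx (pf T) z = px at *
  generalize dy (pf T) z = py at *
  generalize dx (Pf T) z = Px at *
  generalize dy (Pf T) z = Py at *
  generalize pf T z = p at *
  generalize Pf T z = P at *
  generalize dx T.a z = X1 at *
  generalize dx T.b z = X2 at *
  generalize dx T.h z = X3 at *
  generalize dy T.a z = Y1 at *
  generalize dy T.b z = Y2 at *
  generalize dy T.h z = Y3 at *
  clear dp dP dax dbx day dby m1 m2 m3 m4 sa sb sh sp sP q1 q2 hJ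
  have n1e : X2 * Y3 - X3 * Y2 = -(J * p) := by rw [t1, t2, eJ]; ring
  have n2e : X3 * Y1 - X1 * Y3 = -(J * P) := by rw [t1, t2, eJ]; ring
  have n3e : X1 * Y2 - X2 * Y1 = J := by rw [eJ]; ring
  have hn : J ^ 2 * (1 + p ^ 2 + P ^ 2) = E ^ 2 := by
    have e1 : (X2 * Y3 - X3 * Y2) ^ 2 + (X3 * Y1 - X1 * Y3) ^ 2 + (X1 * Y2 - X2 * Y1) ^ 2 =
      (X1 ^ 2 + X2 ^ 2 + X3 ^ 2) * (Y1 ^ 2 + Y2 ^ 2 + Y3 ^ 2) -
      (X1 * Y1 + X2 * Y2 + X3 * Y3) ^ 2 := by ring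
    rw [i1, i2, i3, n1e, n2e, n3e] at e1
    linear_combination e1
  rw [n1e, n2e, n3e] at hg
  have l1 : A1 * -(J * p) + A2 * -(J * P) + A3 * J = J * (px * X1 + Px * X2) := by
    rw [s1]; ring
  have l2 : B1 * -(J * p) + B2 * -(J * P) + B3 * J = J * (px * Y1 + Px * Y2) := by
    rw [s2]; ring
  have l2' : B1 * -(J * p) + B2 * -(J * P) + B3 * J = J * (py * X1 + Py * X2) := by
    rw [s3]; ring
  have l3 : C1 * -(J * p) + C2 * -(J * P) + C3 * J = J * (py * Y1 + Py * Y2) := by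
    rw [s4]; ring
  have hg2 : J ^ 3 * (px * Py - py * Px) = -E ^ 3 * (ψxx + ψyy) := by
    rw [← hg, sq (B1 * -(J * p) + B2 * -(J * P) + B3 * J)]
    nth_rewrite 1 [l2]
    rw [l2', l1, l3]
    rw [show J ^ 3 = J ^ 2 * J by ring]
    nth_rewrite 2 [eJ]
    ring
  have h3 : (px * Py - py * Px) * E = (1 + p ^ 2 + P ^ 2) ^ 2 * (-(ψxx + ψyy)) * J := by
    have h4 : J ^ 3 ≠ 0 := pow_ne_zero 3 hJz
    apply mul_left_cancel₀ h4
    have h5 : J ^ 4 * (1 + p ^ 2 + P ^ 2) ^ 2 = E ^ 4 := by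
      calc J ^ 4 * (1 + p ^ 2 + P ^ 2) ^ 2 = (J ^ 2 * (1 + p ^ 2 + P ^ 2)) ^ 2 := by ring
        _ = E ^ 4 := by rw [hn]; ring
    linear_combination E * hg2 + (ψxx + ψyy) * h5
  field_simp
  linear_combination h3

end Vale.Agent.P229.C3
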