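import Vale.Agent.P229.Align
import Vale.Agent.P229.C3.Basic
import Vale.Agent.P229.C3.Gauss

/-! P229, `C^3` version, module I: alignment of the zero set of `P` with the axis, and the sign
of `N κ`. -/

namespace Vale.Agent.P229.C3

open MeasureTheory Set
open scoped ContDiff

namespace AlignAux3

open BasicAux3
open P229.BasicAux (mul_le' four mem_disc disc_mono)
open P229.AlignAux (axis_mem sizes abs_le_of_sub_one disc23 DD DD_bd quot_bd dx_R dy_R diff_R Wreg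
  isOpen_Wreg lap_out bracket wreg_disc abs_sign key_q key_final)

variable {f : ℝ × ℝ → ℝ} {z : ℝ × ℝ}

theorem hasDerivAt_line {U : Set (ℝ × ℝ)} (hU : IsOpen U) (hf : Sm 1 U f) (p v : ℝ × ℝ) (t : ℝ)
    (ht : p + t • v ∈ U) :
    HasDerivAt (fun t : ℝ => f (p + t • v))
      (dx f (p + t • v) * v.1 + dy f (p + t • v) * v.2) t := by
  have h1 := (hf.diff hU ht).hasFDerivAt
  have h2 : HasDerivAt (fun t : ℝ => p + t • v) v t := by
    simpa using ((hasDerivAt_id t).smul_const v).const_add p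
  have h3 := h1.comp_hasDerivAt t h2
  refine h3.congr_deriv ?_
  have e2 : v = v.1 • ((1 : ℝ), (0 : ℝ)) + v.2 • ((0 : ℝ), (1 : ℝ)) := by
    ext <;> simp
  nth_rewrite 2 [e2]
  rw [map_add, map_smul, map_smul]
  simp only [dx, dy, smul_eq_mul]
  ring

/-- mean value theorem on a segment from `p` to `p + v` -/
theorem mvt {U : Set (ℝ × ℝ)} (hU : IsOpen U) (hf : Sm 1 U f) (p v : ℝ × ℝ)
    (hs : ∀ t ∈ Icc (0 : ℝ) 1, p + t • v ∈ U) :
    ∃ t ∈ Icc (0 : ℝ) 1, f (p + v) - f p =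
      dx f (p + t • v) * v.1 + dy f (p + t • v) * v.2 := by
  obtain ⟨c, hc, h⟩ := exists_hasDerivAt_eq_slope (fun t : ℝ => f (p + t • v))
    (fun t => dx f (p + t • v) * v.1 + dy f (p + t • v) * v.2) zero_lt_one
    (fun t ht => (hasDerivAt_line hU hf p v t (hs t ht)).continuousAt.continuousWithinAt)
    (fun t ht => hasDerivAt_line hU hf p v t (hs t ⟨ht.1.le, ht.2.le⟩))
  refine ⟨c, ⟨hc.1.le, hc.2.le⟩, ?_⟩
  rw [h]
  simp

/-- vertical mean value theorem in `disc 2` -/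
theorem vmv (hf : Sm 1 (disc 2) f) (hz : z ∈ disc 2) :
    ∃ w ∈ disc 2, f z - f (z.1, 0) = dy f w * z.2 := by
  have hs : ∀ t ∈ Icc (0 : ℝ) 1, ((z.1, 0) : ℝ × ℝ) + t • ((0 : ℝ), z.2) ∈ disc 2 := by
    intro t ht
    rw [mem_disc] at *
    simp only [Prod.smul_mk, smul_eq_mul, mul_zero, Prod.mk_add_mk, add_zero, zero_add]
    have h1 : (t * z.2) ^ 2 ≤ z.2 ^ 2 := by
      rw [mul_pow]
      have : t ^ 2 ≤ 1 := pow_le_one₀ ht.1 ht.2
      nlinarith [sq_nonneg z.2]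
    linarith
  obtain ⟨t, ht, h⟩ := mvt (isOpen_disc 2) hf (z.1, 0) (0, z.2) hs
  refine ⟨_, hs t ht, ?_⟩
  simpa using h

/-- horizontal mean value theorem on the axis -/
theorem hmv (hf : Sm 1 (disc 2) f) {x : ℝ} (hx : |x| < 2) :
    ∃ ξ : ℝ, |ξ| ≤ |x| ∧ f (x, 0) - f 0 = dx f (ξ, 0) * x := by
  have hs : ∀ t ∈ Icc (0 : ℝ) 1, (0 : ℝ × ℝ) + t • ((x, 0) : ℝ × ℝ) ∈ disc 2 := by
    intro t ht
    rw [mem_disc]
    simp only [Prod.smul_mk, smul_eq_mul, mul_zero, zero_add]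
    have h1 : |t * x| < 2 := by
      rw [abs_mul, abs_of_nonneg ht.1]
      have := abs_nonneg x
      nlinarith [ht.2, ht.1]
    have h2 := sq_lt_sq' (by linarith [(abs_lt.1 h1).1]) (abs_lt.1 h1).2
    linarith
  obtain ⟨t, ht, h⟩ := mvt (isOpen_disc 2) hf 0 (x, 0) hs
  refine ⟨t * x, ?_, ?_⟩
  · rw [abs_mul, abs_of_nonneg ht.1]
    have := abs_nonneg x
    nlinarith [ht.2]
  · simpa using h

/-- Gronwall on the axis -/
theorem gron_right {G δ : ℝ} (hG : 0 < G) (hf : Sm 1 (disc 2) f) (h0 : f 0 = 0)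
    (hb : ∀ w ∈ disc 2, |dx f w| ≤ G * (|f w| + δ)) (hδ : 0 ≤ δ) (s : ℝ) (hs : s = 1 ∨ s = -1)
    {x : ℝ} (hx0 : 0 ≤ x) (hx : x < 2) : |f (s * x, 0)| ≤ Real.exp (2 * G) * δ := by
  have hmem : ∀ t ∈ Icc (0 : ℝ) x, (0 : ℝ × ℝ) + t • ((s, 0) : ℝ × ℝ) ∈ disc 2 := by
    intro t ht
    have e : (0 : ℝ × ℝ) + t • ((s, 0) : ℝ × ℝ) = (t * s, 0) := by simp
    rw [e]
    apply axis_mem
    rw [abs_mul]
    have : |s| = 1 := by rcases hs with h | h <;> simp [h]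
    rw [this, mul_one, abs_of_nonneg ht.1]
    linarith [ht.2]
  have h := norm_le_gronwallBound_of_norm_deriv_right_le
    (f := fun t : ℝ => f ((0 : ℝ × ℝ) + t • ((s, 0) : ℝ × ℝ)))
    (f' := fun t : ℝ => dx f ((0 : ℝ × ℝ) + t • ((s, 0) : ℝ × ℝ)) * s +
      dy f ((0 : ℝ × ℝ) + t • ((s, 0) : ℝ × ℝ)) * 0)
    (δ := 0) (K := G) (ε := G * δ) (a := 0) (b := x)
    (fun t ht => (hasDerivAt_line (isOpen_disc 2) hf 0 (s, 0) t
      (hmem t ht)).continuousAt.continuousWithinAt)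
    (fun t ht => (hasDerivAt_line (isOpen_disc 2) hf 0 (s, 0) t
      (hmem t ⟨ht.1, ht.2.le⟩)).hasDerivWithinAt)
    (by simp [h0])
    (fun t ht => by
      have h1 := hb _ (hmem t ⟨ht.1, ht.2.le⟩)
      rw [mul_zero, add_zero, Real.norm_eq_abs, Real.norm_eq_abs, abs_mul]
      have : |s| = 1 := by rcases hs with h | h <;> simp [h]
      rw [this, mul_one]
      linarith)
    x ⟨hx0, le_rfl⟩
  have e : (0 : ℝ × ℝ) + x • ((s, 0) : ℝ × ℝ) = (s * x, 0) := by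
    simp [mul_comm]
  simp only [e, sub_zero, Real.norm_eq_abs] at h
  refine h.trans ?_
  rw [gronwallBound_of_K_ne_0 hG.ne']
  simp only [zero_mul, zero_add]
  have e2 : G * δ / G = δ := by field_simp
  rw [e2, mul_comm]
  apply mul_le_mul_of_nonneg_right _ hδ
  have : Real.exp (G * x) ≤ Real.exp (2 * G) := Real.exp_le_exp.2 (by nlinarith)
  linarith

theorem gron {G δ : ℝ} (hG : 0 < G) (hf : Sm 1 (disc 2) f) (h0 : f 0 = 0)
    (hb : ∀ w ∈ disc 2, |dx f w| ≤ G * (|f w| + δ)) (hδ : 0 ≤ δ) {x : ℝ} (hx : |x| < 2) :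
    |f (x, 0)| ≤ Real.exp (2 * G) * δ := by
  rcases le_total 0 x with h | h
  · have := gron_right hG hf h0 hb hδ 1 (Or.inl rfl) h (by rwa [abs_of_nonneg h] at hx)
    rwa [one_mul] at this
  · have := gron_right hG hf h0 hb hδ (-1) (Or.inr rfl) (x := -x) (by linarith)
      (by rwa [abs_of_nonpos h] at hx)
    rwa [neg_one_mul, neg_neg] at this

theorem first_small {M ε e0 : ℝ} {T : Tri} (hT : Nrm M ε e0 T) (hz : z ∈ disc 2) :
    |dx T.b z| ≤ 4 * (M * ε) ∧ |dy T.a z| ≤ 4 * (M * ε) ∧ |dx T.h z| ≤ 4 * (M * ε) ∧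
      |dy T.h z| ≤ 4 * (M * ε) := by
  have k1 := mv4 (cd1 T.hb).1 (fun z hz => (ob2 hT.ob hz).1)
    (fun z hz => (ob2 hT.ob hz).2.2.1) hz
  have k2 := mv4 (cd1 T.ha).2 (fun z hz => (ob2 hT.oa hz).2.1)
    (fun z hz => (ob2 hT.oa hz).2.2.2) hz
  have k3 := mv4 (cd1 T.hh).1 (fun z hz => (ob2 hT.oh hz).1)
    (fun z hz => (ob2 hT.oh hz).2.2.1) hz
  have k4 := mv4 (cd1 T.hh).2 (fun z hz => (ob2 hT.oh hz).2.1)
    (fun z hz => (ob2 hT.oh hz).2.2.2) hz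
  rw [hT.bx, sub_zero] at k1
  rw [hT.ay, sub_zero] at k2
  rw [hT.hx, sub_zero] at k3
  rw [hT.hy, sub_zero] at k4
  exact ⟨k1, k2, k3, k4⟩

theorem lyy_lower {M ε e0 C0 j0 : ℝ} {T : Tri} (hM : 1 ≤ M) (hε : 0 < ε)
    (hε1 : ε < 1 / (1000 * M ^ 3)) (hT : Nrm M ε e0 T) (hB : Basic M ε C0 j0 T)
    (hz : z ∈ disc 2) : ε / (2 * M) ≤ lyy T z := by
  obtain ⟨s1, s2, s3⟩ := sizes hM hε hε1
  obtain ⟨bx, ay, hx, hy⟩ := first_small hT hz
  have hyyF : |dy (dy T.h) z - dy (dy T.h) 0| ≤ 4 * (M * ε ^ 2) :=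
    mv4 (cd1' T.hh).2.2.2 (fun z hz => ob3 hT.oh hz true false false)
      (fun z hz => ob3 hT.oh hz false false false) hz
  have hyy0 := hT.hyy
  have a1 := (ob2 hT.oa hz).2.2.2
  have b1 := (ob2 hT.ob hz).2.2.2
  have ax := abs_le_of_sub_one (hB.ax z hz)
  have by' := abs_le_of_sub_one (hB.by' z hz)
  have jl := hB.J0l z hz
  have hM0 : 0 < M := by linarith
  have e : ε / (2 * M) = ε / M / 2 := by field_simp
  rw [e]
  have hη0 : 0 < ε / M := by positivity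
  set E := M * ε with hE
  have hE0 : 0 < E := by positivity
  generalize ε / M = η at *
  have hyyL : 996 / 1000 * η ≤ dy (dy T.h) z := by
    have := (abs_le.1 hyyF).1
    linarith
  have n1b : |n1 T z| ≤ 42 / 10 * E := by
    have q1 := mul_le' bx hy
    have q2 := mul_le' hx by'
    have q3 : |n1 T z| ≤ 4 * E * (4 * E) + 4 * E * (102 / 100) := by
      show |dx T.b z * dy T.h z - dx T.h z * dy T.b z| ≤ _
      rw [abs_le] at *
      constructor <;> linarith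
    nlinarith
  have n2b : |n2 T z| ≤ 42 / 10 * E := by
    have q1 := mul_le' hx ay
    have q2 := mul_le' ax hy
    have q3 : |n2 T z| ≤ 4 * E * (4 * E) + 102 / 100 * (4 * E) := by
      show |dx T.h z * dy T.a z - dx T.a z * dy T.h z| ≤ _
      rw [abs_le] at *
      constructor <;> linarith
    nlinarith
  have n3b : 9 / 10 ≤ n3 T z := by
    have : n3 T z = br T.a T.b z := by simp only [n3, br]; ring
    rw [this]; exact jl
  have p1 := (abs_le.1 (mul_le' a1 n1b)).1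
  have p2 := (abs_le.1 (mul_le' b1 n2b)).1
  have p3 : 996 / 1000 * η * (9 / 10) ≤ dy (dy T.h) z * n3 T z :=
    mul_le_mul hyyL n3b (by norm_num) (by linarith)
  show η / 2 ≤ dy (dy T.a) z * n1 T z + dy (dy T.b) z * n2 T z + dy (dy T.h) z * n3 T z
  have p4 : E * (42 / 10 * E) = 42 / 10 * E ^ 2 := by ring
  rw [p4] at p1 p2
  linarith

theorem n_bd {M ε C0 j0 : ℝ} {T : Tri} (hB : Basic M ε C0 j0 T) :
    Bd (disc 2) 1 (8 * C0 * C0) (n1 T) ∧ Bd (disc 2) 1 (8 * C0 * C0) (n2 T) ∧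
      Bd (disc 2) 1 (8 * C0 * C0) (n3 T) := by
  have hU := isOpen_disc 2
  have sa : Sm 3 (disc 2) T.a := Sm.of_contDiff T.ha
  have sb : Sm 3 (disc 2) T.b := Sm.of_contDiff T.hb
  have sh : Sm 3 (disc 2) T.h := Sm.of_contDiff T.hh
  have e : 8 * C0 * C0 = 2 ^ 2 * C0 * C0 + 2 ^ 2 * C0 * C0 := by ring
  rw [e]
  refine ⟨?_, ?_, ?_⟩
  · exact (Bd_sub hU ((sb.dx hU).mul (sh.dy hU)) ((sh.dx hU).mul (sb.dy hU))
      (Bd_mul hU (sb.dx hU) (sh.dy hU) hB.bdb.dx hB.bdh.dy)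
      (Bd_mul hU (sh.dx hU) (sb.dy hU) hB.bdh.dx hB.bdb.dy)).of_le one_le_two
  · exact (Bd_sub hU ((sh.dx hU).mul (sa.dy hU)) ((sa.dx hU).mul (sh.dy hU))
      (Bd_mul hU (sh.dx hU) (sa.dy hU) hB.bdh.dx hB.bda.dy)
      (Bd_mul hU (sa.dx hU) (sh.dy hU) hB.bda.dx hB.bdh.dy)).of_le one_le_two
  · exact (Bd_sub hU ((sa.dx hU).mul (sb.dy hU)) ((sb.dx hU).mul (sa.dy hU))
      (Bd_mul hU (sa.dx hU) (sb.dy hU) hB.bda.dx hB.bdb.dy)
      (Bd_mul hU (sb.dx hU) (sa.dy hU) hB.bdb.dx hB.bda.dy)).of_le one_le_two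

theorem sm_n (T : Tri) : Sm 2 (disc 2) (n1 T) ∧ Sm 2 (disc 2) (n2 T) ∧ Sm 2 (disc 2) (n3 T) := by
  have hU := isOpen_disc 2
  have sa : Sm 3 (disc 2) T.a := Sm.of_contDiff T.ha
  have sb : Sm 3 (disc 2) T.b := Sm.of_contDiff T.hb
  have sh : Sm 3 (disc 2) T.h := Sm.of_contDiff T.hh
  exact ⟨((sb.dx hU).mul (sh.dy hU)).sub ((sh.dx hU).mul (sb.dy hU)),
    ((sh.dx hU).mul (sa.dy hU)).sub ((sa.dx hU).mul (sh.dy hU)),
    ((sa.dx hU).mul (sb.dy hU)).sub ((sb.dx hU).mul (sa.dy hU))⟩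

theorem three_bd {C D : ℝ} {f1 f2 f3 g1 g2 g3 : ℝ × ℝ → ℝ} (s1 : Sm 1 (disc 2) f1)
    (s2 : Sm 1 (disc 2) f2) (s3 : Sm 1 (disc 2) f3) (t1 : Sm 1 (disc 2) g1) (t2 : Sm 1 (disc 2) g2)
    (t3 : Sm 1 (disc 2) g3) (b1 : Bd (disc 2) 1 C f1) (b2 : Bd (disc 2) 1 C f2)
    (b3 : Bd (disc 2) 1 C f3) (c1 : Bd (disc 2) 1 D g1) (c2 : Bd (disc 2) 1 D g2)
    (c3 : Bd (disc 2) 1 D g3) :
    Bd (disc 2) 1 (6 * C * D) (fun z => f1 z * g1 z + f2 z * g2 z + f3 z * g3 z) ∧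
      Sm 1 (disc 2) (fun z => f1 z * g1 z + f2 z * g2 z + f3 z * g3 z) := by
  have hU := isOpen_disc 2
  refine ⟨?_, ((s1.mul t1).add (s2.mul t2)).add (s3.mul t3)⟩
  have e : 6 * C * D = 2 ^ 1 * C * D + 2 ^ 1 * C * D + 2 ^ 1 * C * D := by ring
  rw [e]
  exact Bd_add hU ((s1.mul t1).add (s2.mul t2)) (s3.mul t3)
    (Bd_add hU (s1.mul t1) (s2.mul t2) (Bd_mul hU s1 t1 b1 c1) (Bd_mul hU s2 t2 b2 c2))
    (Bd_mul hU s3 t3 b3 c3)

theorem l_bd {M ε C0 j0 : ℝ} {T : Tri} (hB : Basic M ε C0 j0 T) :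
    (Bd (disc 2) 1 (48 * C0 ^ 3) (lxx T) ∧ Sm 1 (disc 2) (lxx T)) ∧
    (Bd (disc 2) 1 (48 * C0 ^ 3) (lxy T) ∧ Sm 1 (disc 2) (lxy T)) ∧
    (Bd (disc 2) 1 (48 * C0 ^ 3) (lyy T) ∧ Sm 1 (disc 2) (lyy T)) := by
  have hU := isOpen_disc 2
  have sa : Sm 3 (disc 2) T.a := Sm.of_contDiff T.ha
  have sb : Sm 3 (disc 2) T.b := Sm.of_contDiff T.hb
  have sh : Sm 3 (disc 2) T.h := Sm.of_contDiff T.hh
  obtain ⟨u1, u2, u3⟩ := sm_n T
  have t1 := u1.of_le (m := 1) (by norm_num)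
  have t2 := u2.of_le (m := 1) (by norm_num)
  have t3 := u3.of_le (m := 1) (by norm_num)
  obtain ⟨c1, c2, c3⟩ := n_bd hB
  have e : 48 * C0 ^ 3 = 6 * C0 * (8 * C0 * C0) := by ring
  rw [e]
  exact ⟨three_bd ((sa.dx hU).dx hU) ((sb.dx hU).dx hU) ((sh.dx hU).dx hU) t1 t2 t3
      hB.bda.dx.dx hB.bdb.dx.dx hB.bdh.dx.dx c1 c2 c3,
    three_bd ((sa.dy hU).dx hU) ((sb.dy hU).dx hU) ((sh.dy hU).dx hU) t1 t2 t3
      hB.bda.dy.dx hB.bdb.dy.dx hB.bdh.dy.dx c1 c2 c3,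
    three_bd ((sa.dy hU).dy hU) ((sb.dy hU).dy hU) ((sh.dy hU).dy hU) t1 t2 t3
      hB.bda.dy.dy hB.bdb.dy.dy hB.bdh.dy.dy c1 c2 c3⟩

theorem second_forms {Cs M ε e0 δ b C0 j0 : ℝ} {ψ : ℝ × ℝ → ℝ} {T : Tri} (hM : 1 ≤ M)
    (hε : 0 < ε) (hε1 : ε < 1 / (1000 * M ^ 3)) (hCs : 0 < Cs) (hC0 : 0 < C0) (hδ : 0 < δ)
    (hδ1 : δ ≤ 1) (hI : Isl Cs δ b ψ) (hT : Nrm M ε e0 T) (hB : Basic M ε C0 j0 T)
    (hm : IsImm ψ T) (K η G1 G2 G : ℝ) (hK : K = 48 * C0 ^ 3) (hη : η = ε / (2 * M))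
    (hG1 : G1 = (2 * Cs + K) / η) (hG2 : G2 = (12 * Cs ^ 2 + 2 * Cs + K * G1 + 2 * K) / η)
    (hG : G = G2 + 6 * Cs * K) :
    ∀ z ∈ disc 2, |lxx T z| ≤ G1 * (|lxy T z| + δ) ∧
      |dx (lxy T) z| ≤ G * (|lxy T z| + δ) := by
  intro z hz
  have hU := isOpen_disc 2
  obtain ⟨⟨bx, sx⟩, ⟨bm, sm⟩, ⟨by', sy⟩⟩ := l_bd hB
  rw [← hK] at bx bm by'
  have hM0 : 0 < M := by linarith
  have hK0 : 0 < K := by rw [hK]; positivity
  have hη0 : 0 < η := by rw [hη]; positivity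
  have hly : η ≤ lyy T z := by rw [hη]; exact lyy_lower hM hε hε1 hT hB hz
  obtain ⟨D1, D2⟩ := DD_bd hCs hδ hδ1 hI z
  have hg : ∀ w ∈ disc 2, lxx T w * lyy T w - lxy T w * lxy T w = DD ψ w := fun w hw => by
    rw [← sq]; exact gauss T ψ hI.sm hm w (disc23 hw)
  have hgy := dy_congr hU hg hz
  have hgz := hg z hz
  have dxx := sx.diff hU hz
  have dxy := sm.diff hU hz
  have dyy := sy.diff hU hz
  have m1 : DifferentiableAt ℝ (fun w => lxx T w * lyy T w) z := dxx.mul dyy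
  have m2 : DifferentiableAt ℝ (fun w => lxy T w * lxy T w) z := dxy.mul dxy
  rw [dy_sub m1 m2, dy_mul dxx dyy, dy_mul dxy dxy] at hgy
  have cod := codazzi T ψ hI.sm hm z (disc23 hz)
  have px := hI.bd.dx.bound (mem_univ z)
  have py := hI.bd.dy.bound (mem_univ z)
  have c1 := bx.bound hz
  have c2 := bm.bound hz
  have c3 := by'.bound hz
  have c4 := by'.dy.bound hz
  have c5 := bm.dy.bound hz
  set m := |lxy T z| + δ with hm'
  have hL0 := abs_nonneg (lxy T z)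
  have hm0 : 0 < m := by positivity
  have hLm : |lxy T z| ≤ m := by linarith
  have hδm : δ ≤ m := by linarith
  -- bound for `lxx`
  have b1 : |lxx T z| ≤ G1 * m := by
    have e1 : |lxx T z| * lyy T z = |DD ψ z + lxy T z * lxy T z| := by
      rw [← hgz, sub_add_cancel, abs_mul, abs_of_pos (show 0 < lyy T z by linarith)]
    have e2 : |lxx T z| * η ≤ (2 * Cs + K) * m := by
      calc |lxx T z| * η ≤ |lxx T z| * lyy T z := mul_le_mul_of_nonneg_left hly (abs_nonneg _)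
        _ = |DD ψ z + lxy T z * lxy T z| := e1
        _ ≤ |DD ψ z| + |lxy T z * lxy T z| := abs_add_le _ _
        _ ≤ 2 * Cs * δ + K * m := by
          rw [abs_mul]
          have : |lxy T z| * |lxy T z| ≤ K * m := mul_le_mul c2 hLm hL0 hK0.le
          linarith
        _ ≤ (2 * Cs + K) * m := by nlinarith
    rw [hG1, div_mul_eq_mul_div, le_div_iff₀ hη0]
    exact e2
  have hG10 : 0 < G1 := by rw [hG1]; positivity
  have b2 : |dy (lxx T) z| ≤ G2 * m := by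
    have e1 : |dy (lxx T) z| * lyy T z =
        |dy (DD ψ) z - lxx T z * dy (lyy T) z + 2 * (lxy T z * dy (lxy T) z)| := by
      rw [← hgy, ← abs_of_pos (show 0 < lyy T z by linarith), ← abs_mul,
        abs_of_pos (show 0 < lyy T z by linarith)]
      congr 1; ring
    have f1 : |lxx T z * dy (lyy T) z| ≤ G1 * m * K := mul_le' b1 c4
    have f2 : |lxy T z * dy (lxy T) z| ≤ m * K := mul_le' hLm c5
    have e2 : |dy (lxx T) z| * η ≤ (12 * Cs ^ 2 + 2 * Cs + K * G1 + 2 * K) * m := by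
      calc |dy (lxx T) z| * η ≤ |dy (lxx T) z| * lyy T z :=
            mul_le_mul_of_nonneg_left hly (abs_nonneg _)
        _ = _ := e1
        _ ≤ (12 * Cs ^ 2 + 2 * Cs) * δ + G1 * m * K + 2 * (m * K) := by
          rw [abs_le] at D2 f1 f2 ⊢
          constructor <;> linarith
        _ ≤ (12 * Cs ^ 2 + 2 * Cs) * m + G1 * m * K + 2 * (m * K) := by
          have : (12 * Cs ^ 2 + 2 * Cs) * δ ≤ (12 * Cs ^ 2 + 2 * Cs) * m :=
            mul_le_mul_of_nonneg_left hδm (by positivity)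
          linarith
        _ = (12 * Cs ^ 2 + 2 * Cs + K * G1 + 2 * K) * m := by ring
    rw [hG2, div_mul_eq_mul_div, le_div_iff₀ hη0]
    exact e2
  refine ⟨b1, ?_⟩
  have e1 : dx (lxy T) z = dy (lxx T) z - (2 * (dy ψ z * lxx T z) - 2 * (dx ψ z * lxy T z)
      + (dy ψ z * lxx T z + dy ψ z * lyy T z)) := by linear_combination -cod
  have g1 := mul_le' py c1
  have g2 := mul_le' px c2
  have g3 := mul_le' py c3
  rw [e1, hG]
  have hp : 0 < Cs * K := by positivity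
  have g4 : Cs * K * δ ≤ Cs * K * m := mul_le_mul_of_nonneg_left hδm hp.le
  have g5 : Cs * δ * K = Cs * K * δ := by ring
  have g6 : (G2 + 6 * Cs * K) * m = G2 * m + 6 * (Cs * K * m) := by ring
  rw [g5] at g1 g2 g3
  rw [g6]
  clear_value m
  clear e1 cod c1 c2 c3 c4 c5 px py hgz hgy m1 m2 dxx dxy dyy hg D1 D2 hly by' sy bm sm bx sx
  rw [abs_le] at b2 g1 g2 g3 ⊢
  constructor <;> linarith

theorem axis_bounds (Cs M ε C0 : ℝ) (hM : 1 ≤ M) (hε : 0 < ε) (hε1 : ε < 1 / (1000 * M ^ 3))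
    (hCs : 0 < Cs) (hC0 : 0 < C0) : ∃ B : ℝ, 0 < B ∧ ∀ (δ b e0 j0 : ℝ) (ψ : ℝ × ℝ → ℝ) (T : Tri),
      0 < δ → δ ≤ 1 → Isl Cs δ b ψ → Nrm M ε e0 T → Basic M ε C0 j0 T → IsImm ψ T →
      ∀ x : ℝ, |x| < 2 → |dy T.a (x, 0)| ≤ B * δ ∧ |pf T (x, 0)| ≤ B * δ ∧
        |Pf T (x, 0)| ≤ B * δ := by
  have hM0 : 0 < M := by linarith
  obtain ⟨K, hK⟩ : ∃ K : ℝ, K = 48 * C0 ^ 3 := ⟨_, rfl⟩
  obtain ⟨η, hη⟩ : ∃ η : ℝ, η = ε / (2 * M) := ⟨_, rfl⟩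
  obtain ⟨G1, hG1⟩ : ∃ G1 : ℝ, G1 = (2 * Cs + K) / η := ⟨_, rfl⟩
  obtain ⟨G2, hG2⟩ : ∃ G2 : ℝ, G2 = (12 * Cs ^ 2 + 2 * Cs + K * G1 + 2 * K) / η := ⟨_, rfl⟩
  obtain ⟨G, hG⟩ : ∃ G : ℝ, G = G2 + 6 * Cs * K := ⟨_, rfl⟩
  obtain ⟨X, hX⟩ : ∃ X : ℝ, X = Real.exp (2 * G) := ⟨_, rfl⟩
  obtain ⟨W, hW⟩ : ∃ W : ℝ, W = Real.exp (4 * Cs) := ⟨_, rfl⟩
  have pK : 0 < K := by rw [hK]; positivity
  have pη : 0 < η := by rw [hη]; positivity
  have pG1 : 0 < G1 := by rw [hG1]; positivity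
  have pG2 : 0 < G2 := by rw [hG2]; positivity
  have pG : 0 < G := by rw [hG]; positivity
  have pX : 0 < X := by rw [hX]; positivity
  have pW : 0 < W := by rw [hW]; positivity
  obtain ⟨B2, hB2⟩ : ∃ B2 : ℝ, B2 = 2 * Cs * C0 + (G1 + 1) * (X + 1) * (8 * C0 * C0) * W :=
    ⟨_, rfl⟩
  have pB2 : 0 < B2 := by rw [hB2]; positivity
  refine ⟨3 * B2, by positivity, fun δ b e0 j0 ψ T hδ hδ1 hI hT hB hm x hx => ?_⟩
  have hU := isOpen_disc 2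
  have sf := second_forms hM hε hε1 hCs hC0 hδ hδ1 hI hT hB hm K η G1 G2 G hK hη hG1 hG2 hG
  obtain ⟨⟨bx, sx⟩, ⟨bm, sm⟩, ⟨by', sy⟩⟩ := l_bd hB
  have l0 : lxy T 0 = 0 := by
    simp only [lxy, n1, n2, n3, hT.hx, hT.hy, hT.hxy, hT.bx, hT.ay]
    ring
  -- bounds on the axis for the second derivatives
  have second : ∀ ξ : ℝ, |ξ| < 2 → |dx (dy T.a) (ξ, 0)| ≤ B2 * δ ∧
      |dx (dx T.h) (ξ, 0)| ≤ B2 * δ ∧ |dx (dy T.h) (ξ, 0)| ≤ B2 * δ := by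
    intro ξ hξ
    have hz := axis_mem hξ
    have h1 : |lxy T (ξ, 0)| ≤ X * δ := by
      rw [hX]
      exact gron pG sm l0 (fun w hw => (sf w hw).2) hδ.le hξ
    have h2 : |lxx T (ξ, 0)| ≤ (G1 + 1) * (X + 1) * δ := by
      have := (sf _ hz).1
      have e1 : G1 * (|lxy T (ξ, 0)| + δ) ≤ G1 * ((X + 1) * δ) :=
        mul_le_mul_of_nonneg_left (by linarith) pG1.le
      have e2 : 0 ≤ (X + 1) * δ := by positivity
      nlinarith
    have h1' : |lxy T (ξ, 0)| ≤ (G1 + 1) * (X + 1) * δ := by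
      have e2 : 0 ≤ (X + 1) * δ := by positivity
      nlinarith
    obtain ⟨N1, N2, N3⟩ := n_bd hB
    have k1 := N1.bound hz
    have k3 := N3.bound hz
    have hψ0 := hI.bd.bound (mem_univ ((ξ, 0) : ℝ × ℝ))
    have hψx := hI.bd.dx.bound (mem_univ ((ξ, 0) : ℝ × ℝ))
    have hψy := hI.bd.dy.bound (mem_univ ((ξ, 0) : ℝ × ℝ))
    have eW : |(Real.exp (4 * ψ (ξ, 0)))⁻¹| ≤ W := by
      rw [← Real.exp_neg, abs_of_pos (Real.exp_pos _), hW]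
      apply Real.exp_le_exp.2
      have := (abs_le.1 hψ0).1
      nlinarith
    have a1 := hB.bda.dx.bound hz
    have a2 := hB.bda.dy.bound hz
    have q1 := hB.bdh.dx.bound hz
    have q2 := hB.bdh.dy.bound hz
    obtain ⟨f1, f2, f3, f4⟩ := frame T ψ hI.sm hm _ (disc23 hz)
    have big : ∀ u v r s l n e : ℝ, |u| ≤ Cs * δ → |v| ≤ C0 → |r| ≤ Cs * δ → |s| ≤ C0 →
        |l| ≤ (G1 + 1) * (X + 1) * δ → |n| ≤ 8 * C0 * C0 → |e| ≤ W →
        |u * v| + |r * s| + |l * n * e| ≤ B2 * δ := by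
      intro u v r s l n e hu hv hr hs hl hn he
      have g1 := mul_le' hu hv
      have g2 := mul_le' hr hs
      have g3 := mul_le' (mul_le' hl hn) he
      rw [hB2]
      calc _ ≤ Cs * δ * C0 + Cs * δ * C0 + (G1 + 1) * (X + 1) * δ * (8 * C0 * C0) * W := by
            linarith
        _ = _ := by ring
    refine ⟨?_, ?_, ?_⟩
    · rw [f3, div_eq_mul_inv]
      refine ((abs_add_le _ _).trans (add_le_add (abs_add_le _ _) le_rfl)).trans ?_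
      exact big _ _ _ _ _ _ _ hψy a1 hψx a2 h1' k1 eW
    · rw [f2, div_eq_mul_inv]
      refine ((abs_add_le _ _).trans (add_le_add (abs_sub _ _) le_rfl)).trans ?_
      exact big _ _ _ _ _ _ _ hψx q1 hψy q2 h2 k3 eW
    · rw [f4, div_eq_mul_inv]
      refine ((abs_add_le _ _).trans (add_le_add (abs_add_le _ _) le_rfl)).trans ?_
      exact big _ _ _ _ _ _ _ hψy q1 hψx q2 h1' k3 eW
  -- first derivatives
  have first : ∀ {g : ℝ × ℝ → ℝ}, Sm 1 (disc 2) g → g 0 = 0 →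
      (∀ ξ : ℝ, |ξ| < 2 → |dx g (ξ, 0)| ≤ B2 * δ) → |g (x, 0)| ≤ 2 * B2 * δ := by
    intro g sg g0 hg
    obtain ⟨ξ, hξ, h⟩ := hmv sg hx
    rw [g0, sub_zero] at h
    rw [h, abs_mul]
    have h1 := hg ξ (hξ.trans_lt hx)
    have h2 : |dx g (ξ, 0)| * |x| ≤ B2 * δ * 2 :=
      mul_le_mul h1 hx.le (abs_nonneg _) (by positivity)
    linarith
  have sa : Sm 3 (disc 2) T.a := Sm.of_contDiff T.ha
  have sh : Sm 3 (disc 2) T.h := Sm.of_contDiff T.hh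
  have ay := first ((sa.dy hU).of_le (by norm_num)) hT.ay (fun ξ hξ => (second ξ hξ).1)
  have hx' := first ((sh.dx hU).of_le (by norm_num)) hT.hx (fun ξ hξ => (second ξ hξ).2.1)
  have hy' := first ((sh.dy hU).of_le (by norm_num)) hT.hy (fun ξ hξ => (second ξ hξ).2.2)
  have hz := axis_mem hx
  have J := hB.J0l _ hz
  have pδ : 0 < B2 * δ := by positivity
  have quot : ∀ u v r s J : ℝ, |u * v| ≤ 2 * B2 * δ * (102 / 100) →
      |r * s| ≤ 2 * B2 * δ * (1 / 50) → 9 / 10 ≤ J → |(u * v - r * s) / J| ≤ 3 * B2 * δ := by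
    intro u v r s J h1 h2 hJ
    rw [abs_div, abs_of_pos (show 0 < J by linarith), div_le_iff₀ (by linarith)]
    have h3 := (abs_sub (u * v) (r * s))
    have h4 : 3 * (B2 * δ) * (9 / 10) ≤ 3 * (B2 * δ) * J :=
      mul_le_mul_of_nonneg_left hJ (by linarith)
    linarith
  refine ⟨by linarith, ?_, ?_⟩
  · refine quot _ _ _ _ _ (mul_le' hx' (abs_le_of_sub_one (hB.by' _ hz)))
      (mul_le' hy' (hB.bx _ hz)) J
  · refine quot _ _ _ _ _ ?_ ?_ J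
    · rw [mul_comm (dx T.a (x, 0))]
      exact mul_le' hy' (abs_le_of_sub_one (hB.ax _ hz))
    · rw [mul_comm (dy T.a (x, 0))]
      exact mul_le' hx' (hB.ay _ hz)

theorem br_deriv_bd {E : ℝ} {g : ℝ × ℝ → ℝ} (hf : ContDiff ℝ 3 f) (hg : ContDiff ℝ 3 g)
    (f1 : |dx f z| ≤ 102 / 100) (f2 : |dy f z| ≤ 102 / 100) (g1 : |dx g z| ≤ 102 / 100)
    (g2 : |dy g z| ≤ 102 / 100)
    (hf2 : |dx (dx f) z| ≤ E ∧ |dx (dy f) z| ≤ E ∧ |dy (dx f) z| ≤ E ∧ |dy (dy f) z| ≤ E)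
    (hg2 : |dx (dx g) z| ≤ E ∧ |dx (dy g) z| ≤ E ∧ |dy (dx g) z| ≤ E ∧ |dy (dy g) z| ≤ E) :
    |dx (br f g) z| ≤ 408 / 100 * E ∧ |dy (br f g) z| ≤ 408 / 100 * E := by
  have d1 : DifferentiableAt ℝ (dx f) z := ((cd1 hf).1.differentiable (by norm_num)) z
  have d2 : DifferentiableAt ℝ (dy f) z := ((cd1 hf).2.differentiable (by norm_num)) z
  have d3 : DifferentiableAt ℝ (dx g) z := ((cd1 hg).1.differentiable (by norm_num)) z
  have d4 : DifferentiableAt ℝ (dy g) z := ((cd1 hg).2.differentiable (by norm_num)) z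
  rw [dx_br d1 d2 d3 d4, dy_br d1 d2 d3 d4]
  constructor
  · exact (four (mul_le' hf2.1 g2) (mul_le' f1 hg2.2.1) (mul_le' hf2.2.1 g1)
      (mul_le' f2 hg2.1)).trans (by linarith)
  · exact (four (mul_le' hf2.2.2.1 g2) (mul_le' f1 hg2.2.2.2) (mul_le' hf2.2.2.2 g1)
      (mul_le' f2 hg2.2.2.1)).trans (by linarith)

theorem pP_deriv {M ε e0 C0 j0 : ℝ} {T : Tri} (hM : 1 ≤ M) (hε : 0 < ε)
    (hT : Nrm M ε e0 T) (hB : Basic M ε C0 j0 T) (hz : z ∈ disc 2) :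
    (|dx (pf T) z| ≤ 6 * (M * ε) ∧ |dy (pf T) z| ≤ 6 * (M * ε)) ∧
    (|dx (Pf T) z| ≤ 6 * (M * ε) ∧ |dy (Pf T) z| ≤ 6 * (M * ε)) := by
  have hE : 0 ≤ M * ε := by positivity
  have hU := isOpen_disc 2
  have sa : Sm 3 (disc 2) T.a := Sm.of_contDiff T.ha
  have sb : Sm 3 (disc 2) T.b := Sm.of_contDiff T.hb
  have sh : Sm 3 (disc 2) T.h := Sm.of_contDiff T.hh
  have ax := abs_le_of_sub_one (hB.ax z hz)
  have by' := abs_le_of_sub_one (hB.by' z hz)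
  have ay := hB.ay z hz
  have bx := hB.bx z hz
  have hx := hB.hx z hz
  have hy := hB.hy z hz
  have w : ∀ {x : ℝ}, |x| ≤ 1 / 50 → |x| ≤ 102 / 100 := fun h => h.trans (by norm_num)
  have j1 := hB.J0l z hz
  have j2 := hB.J0u z hz
  have Dab := br_deriv_bd T.ha T.hb ax (w ay) (w bx) by' (ob2 hT.oa hz) (ob2 hT.ob hz)
  have Dah := br_deriv_bd T.ha T.hh ax (w ay) (w hx) (w hy) (ob2 hT.oa hz) (ob2 hT.oh hz)
  have Dhb := br_deriv_bd T.hh T.hb (w hx) (w hy) (w bx) by' (ob2 hT.oh hz) (ob2 hT.ob hz)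
  have Nah : |br T.a T.h z| ≤ 21 / 1000 := by
    have g1 := mul_le' ax hy
    have g2 := mul_le' ay hx
    show |dx T.a z * dy T.h z - dy T.a z * dx T.h z| ≤ _
    rw [abs_le] at g1 g2 ⊢
    constructor <;> linarith
  have Nhb : |br T.h T.b z| ≤ 21 / 1000 := by
    have g1 := mul_le' hx by'
    have g2 := mul_le' hy bx
    show |dx T.h z * dy T.b z - dy T.h z * dx T.b z| ≤ _
    rw [abs_le] at g1 g2 ⊢
    constructor <;> linarith
  have hJz : br T.a T.b z ≠ 0 := by positivity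
  have dab : DifferentiableAt ℝ (br T.a T.b) z := (Sm.br hU sa sb).diff hU hz
  have dah : DifferentiableAt ℝ (br T.a T.h) z := (Sm.br hU sa sh).diff hU hz
  have dhb : DifferentiableAt ℝ (br T.h T.b) z := (Sm.br hU sh sb).diff hU hz
  have eP : Pf T = fun w => br T.a T.h w / br T.a T.b w := rfl
  have ep : pf T = fun w => br T.h T.b w / br T.a T.b w := rfl
  rw [eP, ep, dx_div dhb dab hJz, dy_div dhb dab hJz, dx_div dah dab hJz, dy_div dah dab hJz]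
  exact ⟨⟨quot_bd hE Nhb j1 j2 Dhb.1 Dab.1, quot_bd hE Nhb j1 j2 Dhb.2 Dab.2⟩,
    ⟨quot_bd hE Nah j1 j2 Dah.1 Dab.1, quot_bd hE Nah j1 j2 Dah.2 Dab.2⟩⟩

/-- the bracket `{a, κ}` in the explicit region -/
theorem br_kf {Cs M ε δ b C0 j0 : ℝ} {ψ : ℝ × ℝ → ℝ} {T : Tri} (hI : Isl Cs δ b ψ)
    (hB : Basic M ε C0 j0 T) (hm : IsImm ψ T) (hz : z ∈ Wreg b) :
    br T.a (kf T) z = Real.exp (-2 * ψ z) * (1 + pf T z ^ 2 + Pf T z ^ 2) * δ *
      (4 * ((z.1 ^ 2 + z.2 ^ 2 - 1) * (pf T z * br T.a (pf T) z + Pf T z * br T.a (Pf T) z))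
        + (1 + pf T z ^ 2 + Pf T z ^ 2) * (2 * (dx T.a z * z.2 - dy T.a z * z.1))
        - 2 * ((1 + pf T z ^ 2 + Pf T z ^ 2) * ((z.1 ^ 2 + z.2 ^ 2 - 1) * br T.a ψ z))) := by
  have hW := isOpen_Wreg b
  have hU := isOpen_disc 2
  have hz2 := wreg_disc hz
  have dp : DifferentiableAt ℝ (pf T) z := hB.sp.diff hU hz2
  have dP : DifferentiableAt ℝ (Pf T) z := hB.reg.sP.diff hU hz2
  have dψ : DifferentiableAt ℝ ψ z := (hI.sm.differentiable (by simp)) z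
  have hk : ∀ w ∈ Wreg b, kf T w =
      ((1 + pf T w ^ 2 + Pf T w ^ 2) * (1 + pf T w ^ 2 + Pf T w ^ 2)) *
        ((fun t : ℝ => δ * (t - 1)) (w.1 ^ 2 + w.2 ^ 2) * Real.exp (-2 * ψ w)) := by
    intro w hw
    rw [kf_eq T ψ hI.sm hm (fun v hv => by have := hB.J0l v hv; linarith) w (wreg_disc hw),
      lap_out hI hw]
    ring
  have dp2 : DifferentiableAt ℝ (fun w => pf T w ^ 2) z := dp.pow 2
  have dP2 : DifferentiableAt ℝ (fun w => Pf T w ^ 2) z := dP.pow 2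
  have dq1 : DifferentiableAt ℝ (fun w => 1 + pf T w ^ 2) z :=
    (differentiableAt_const (1 : ℝ)).add dp2
  have dq : DifferentiableAt ℝ (fun w => 1 + pf T w ^ 2 + Pf T w ^ 2) z := dq1.add dP2
  have dqq : DifferentiableAt ℝ (fun w => (1 + pf T w ^ 2 + Pf T w ^ 2) *
      (1 + pf T w ^ 2 + Pf T w ^ 2)) z := dq.mul dq
  have dG : DifferentiableAt ℝ (fun w : ℝ × ℝ =>
      (fun t : ℝ => δ * (t - 1)) (w.1 ^ 2 + w.2 ^ 2)) z := by fun_prop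
  have d2 : DifferentiableAt ℝ (fun w => -2 * ψ w) z := dψ.const_mul (-2)
  have dX : DifferentiableAt ℝ (fun w => Real.exp (-2 * ψ w)) z := d2.exp
  have dGX : DifferentiableAt ℝ (fun w : ℝ × ℝ =>
      (fun t : ℝ => δ * (t - 1)) (w.1 ^ 2 + w.2 ^ 2) * Real.exp (-2 * ψ w)) z := dG.mul dX
  have hφ : ∀ t : ℝ, HasDerivAt (fun t : ℝ => δ * (t - 1)) δ t := by
    intro t
    simpa using ((hasDerivAt_id t).sub_const 1).const_mul δ
  have e1 : br T.a (fun w => 1 + pf T w ^ 2 + Pf T w ^ 2) z =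
      2 * (pf T z * br T.a (pf T) z + Pf T z * br T.a (Pf T) z) := by
    simp only [br]
    rw [dx_add dq1 dP2, dy_add dq1 dP2, dx_add (differentiableAt_const (1 : ℝ)) dp2,
      dy_add (differentiableAt_const (1 : ℝ)) dp2, dx_const, dy_const, dx_pow 2 dp, dy_pow 2 dp,
      dx_pow 2 dP, dy_pow 2 dP]
    push_cast
    ring
  have e2 : br T.a (fun w : ℝ × ℝ => (fun t : ℝ => δ * (t - 1)) (w.1 ^ 2 + w.2 ^ 2)) z =
      δ * (2 * (dx T.a z * z.2 - dy T.a z * z.1)) := by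
    simp only [br]
    rw [dx_comp (f := fun v : ℝ × ℝ => v.1 ^ 2 + v.2 ^ 2) (hφ _) (diff_R z),
      dy_comp (f := fun v : ℝ × ℝ => v.1 ^ 2 + v.2 ^ 2) (hφ _) (diff_R z), dx_R, dy_R]
    ring
  have e3 : br T.a (fun w => Real.exp (-2 * ψ w)) z =
      -2 * Real.exp (-2 * ψ z) * br T.a ψ z := by
    simp only [br]
    rw [dx_comp (φ := Real.exp) (Real.hasDerivAt_exp (-2 * ψ z)) d2,
      dy_comp (φ := Real.exp) (Real.hasDerivAt_exp (-2 * ψ z)) d2, dx_const_mul _ dψ,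
      dy_const_mul _ dψ]
    ring
  rw [br_congr hW (fun w _ => rfl) hk hz, br_mul_right dqq dGX, br_mul_right dq dq,
    br_mul_right dG dX, e1, e2, e3]
  ring

theorem key_Y {M ε e0 C0 j0 e t0 σ : ℝ} {T : Tri} (hM : 1 ≤ M)
    (hε : 0 < ε) (hε1 : ε < 1 / (1000 * M ^ 3)) (hT : Nrm M ε e0 T)
    (hB : Basic M ε C0 j0 T) (ht0 : 0 < t0)
    (hax : |Pf T (z.1, 0)| ≤ e) (small : 20 * e ≤ t0) (hσ : σ = 1 ∨ σ = -1)
    (hz2 : z ∈ disc 2) (hP : t0 ≤ σ * Pf T z) : t0 ≤ σ * z.2 := by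
  have hM0 : 0 < M := by linarith
  obtain ⟨s1, s2, s3⟩ := sizes hM hε hε1
  obtain ⟨w, hw, h⟩ := vmv (hB.reg.sP.of_le (by norm_num)) hz2
  have k1 := hB.Py w hw
  have k2 := (abs_le.1 (pP_deriv hM hε hT hB hw).2.2).2
  have k3 := (abs_le.1 (mul_le' (abs_sign hσ).le hax)).2
  have h2M : 0 < ε / (2 * M) := by positivity
  set E := M * ε with hE
  have k4 : σ * Pf T z = σ * Pf T (z.1, 0) + dy (Pf T) w * (σ * z.2) := by
    linear_combination σ * h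
  generalize σ * z.2 = Y at *
  have k5 : 19 / 20 * t0 ≤ dy (Pf T) w * Y := by linarith
  have k6 : 0 < dy (Pf T) w := by linarith
  have k7 : 0 < Y := by
    by_contra hn
    have : dy (Pf T) w * Y ≤ 0 := mul_nonpos_of_nonneg_of_nonpos k6.le (by linarith)
    linarith
  have k8 : dy (Pf T) w * Y ≤ 6 * E * Y := mul_le_mul_of_nonneg_right k2 k7.le
  have k9 : E * Y ≤ 1 / 1000 * Y := mul_le_mul_of_nonneg_right s1 k7.le
  linarith

theorem key_off {g : ℝ × ℝ → ℝ} {D e Y : ℝ} (sg : Sm 1 (disc 2) g) (g0 : |g (z.1, 0)| ≤ e)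
    (hg : ∀ w ∈ disc 2, |dy g w| ≤ D) (hz2 : z ∈ disc 2) (hY : |z.2| = Y) :
    |g z| ≤ e + D * Y := by
  obtain ⟨w, hw, h⟩ := vmv sg hz2
  have h1 := mul_le' (hg w hw) hY.le
  have h2 : g z = g (z.1, 0) + dy g w * z.2 := by linarith
  rw [h2]
  exact (abs_add_le _ _).trans (add_le_add g0 h1)

theorem key_br {M ε C0 j0 D : ℝ} {T : Tri} {g : ℝ × ℝ → ℝ} (hB : Basic M ε C0 j0 T)
    (hz2 : z ∈ disc 2) (p1 : |dx g z| ≤ D) (p2 : |dy g z| ≤ D) :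
    |br T.a g z| ≤ 104 / 100 * D := by
  have g1 := mul_le' (abs_le_of_sub_one (hB.ax z hz2)) p2
  have g2 := mul_le' (hB.ay z hz2) p1
  show |dx T.a z * dy g z - dy T.a z * dx g z| ≤ _
  rw [abs_le] at g1 g2 ⊢
  constructor <;> linarith

theorem key_sign {Cs M ε e0 δ b C0 j0 e t0 σ : ℝ} {ψ : ℝ × ℝ → ℝ} {T : Tri} (hM : 1 ≤ M)
    (hε : 0 < ε) (hε1 : ε < 1 / (1000 * M ^ 3)) (hCs : 0 < Cs) (hδ : 0 < δ) (hj : 0 < j0)
    (hb : 0 < b) (hbt : b < t0) (hI : Isl Cs δ b ψ) (hT : Nrm M ε e0 T)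
    (hB : Basic M ε C0 j0 T) (hm : IsImm ψ T) (he : 0 ≤ e)
    (hax : ∀ x : ℝ, |x| < 2 → |dy T.a (x, 0)| ≤ e ∧ |pf T (x, 0)| ≤ e ∧ |Pf T (x, 0)| ≤ e)
    (small : 20 * e + 20 * (Cs * δ) ≤ t0) (hσ : σ = 1 ∨ σ = -1)
    (hz : z ∈ disc (3 / 2)) (hP : t0 ≤ σ * Pf T z) :
    δ * t0 ≤ σ * No T.a (Pf T) (kf T) z := by
  have hM0 : 0 < M := by linarith
  obtain ⟨s1, s2, s3⟩ := sizes hM hε hε1
  have hz2 : z ∈ disc 2 := disc_mono (by norm_num) (by norm_num) hz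
  have hzm : z.1 ^ 2 + z.2 ^ 2 < 9 / 4 := by
    have := mem_disc.1 hz; linarith
  have sq1 := sq_nonneg z.1
  have sq2 := sq_nonneg z.2
  have hx1 : |z.1| ≤ 3 / 2 := abs_le_of_sq_le_sq (by linarith) (by norm_num)
  obtain ⟨x1, x2, x3⟩ := hax z.1 (by linarith)
  have hc0 : 0 < Cs * δ := by positivity
  have ht0 : 0 < t0 := by linarith
  have hYt := key_Y hM hε hε1 hT hB ht0 x3 (by linarith) hσ hz2 hP
  obtain ⟨Y, hY⟩ : ∃ Y : ℝ, σ * z.2 = Y := ⟨_, rfl⟩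
  rw [hY] at hYt
  have hY0 : 0 < Y := by linarith
  have hYa : |z.2| = Y := by
    rw [← abs_of_pos hY0, ← hY, abs_mul, abs_sign hσ, one_mul]
  have hYle : Y ≤ 3 / 2 := by
    rw [← hYa]
    exact abs_le_of_sq_le_sq (by linarith) (by norm_num)
  have hzW : z ∈ Wreg b := by
    refine ⟨?_, hzm⟩
    have h1 : b ^ 2 < Y ^ 2 := pow_lt_pow_left₀ (by linarith) hb.le two_ne_zero
    have e2 : Y ^ 2 = z.2 ^ 2 := by rw [← hYa, sq_abs]
    linarith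
  have hU := isOpen_disc 2
  have sa : Sm 3 (disc 2) T.a := Sm.of_contDiff T.ha
  have ay := key_off ((sa.dy hU).of_le (by norm_num)) x1 (fun w hw => (ob2 hT.oa hw).2.2.2) hz2 hYa
  have pz := key_off (hB.sp.of_le (by norm_num)) x2 (fun w hw => (pP_deriv hM hε hT hB hw).1.2) hz2 hYa
  have Pz := key_off (hB.reg.sP.of_le (by norm_num)) x3 (fun w hw => (pP_deriv hM hε hT hB hw).2.2) hz2 hYa
  obtain ⟨⟨p1, p2⟩, ⟨P1, P2⟩⟩ := pP_deriv hM hε hT hB hz2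
  have A1 := key_br hB hz2 p1 p2
  have B1 := key_br hB hz2 P1 P2
  have Ψ1 := key_br hB hz2 (hI.bd.dx.bound (mem_univ z)) (hI.bd.dy.bound (mem_univ z))
  have hE0 : 0 < M * ε := by positivity
  obtain ⟨q1, q2⟩ := key_q hY0 hYle s1 (by linarith) pz Pz
  have hR : |z.1 ^ 2 + z.2 ^ 2 - 1| ≤ 5 / 4 := by
    rw [abs_le]
    constructor <;> linarith
  have hax0 : 98 / 100 ≤ dx T.a z := by
    have := (abs_le.1 (hB.ax z hz2)).1
    linarith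
  have key := bracket (x := z.1) (y := z.2) (c := Cs * δ) hσ hY hY0 hE0.le s1 he hc0.le hR pz Pz
    (A1.trans (by linarith)) (B1.trans (by linarith)) q1 q2
    hax0 ay hx1 (Ψ1.trans (by linarith)) (by linarith)
  have J1 : br T.a (Pf T) z ≤ 1 := by
    have := (abs_le.1 B1).2
    linarith
  exact key_final hδ ht0 hYt key (Real.one_le_exp (by linarith [hI.le0 z])) q1
    (br_kf hI hB hm hzW) (hj.trans_le (hB.reg.J z hz2)) J1

end AlignAux3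

section

open AlignAux3 BasicAux3
open P229.BasicAux (mem_disc disc_mono)
open P229.AlignAux (lap_out)

theorem align (Cs M : ℝ) (hCs : 0 < Cs) (hM : 1 ≤ M) : ∃ ε0 : ℝ, 0 < ε0 ∧ ∀ ε, 0 < ε → ε < ε0 →
    ∀ C0 j0 : ℝ, 0 < C0 → 0 < j0 → ∃ δ0 : ℝ, 0 < δ0 ∧ ∀ δ, 0 < δ → δ < δ0 →
    ∃ n0 b0 : ℝ, 0 < n0 ∧ 0 < b0 ∧ ∀ (b : ℝ) (ψ : ℝ × ℝ → ℝ) (T : Tri), 0 < b → b < b0 →
      Isl Cs δ b ψ → Nrm M ε (Real.exp (-δ)) T → Basic M ε C0 j0 T → IsImm ψ T →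
      (∀ x : ℝ, |x| < 3 / 2 → |Pf T (x, 0)| ≤ Real.sqrt (δ / 2) / 3000) ∧
      (∀ z ∈ disc (3 / 5), kf T z ≤ -(3 / 5) * δ) ∧
      (∀ z ∈ disc (3 / 2), z ∉ disc (11 / 10) → δ / 5 ≤ kf T z) ∧
      (∀ z ∈ disc (3 / 2), Real.sqrt (δ / 2) / 150 ≤ Pf T z → n0 ≤ No T.a (Pf T) (kf T) z) ∧
      (∀ z ∈ disc (3 / 2), Pf T z ≤ -(Real.sqrt (δ / 2) / 150) →
        No T.a (Pf T) (kf T) z ≤ -n0) := by
  have hM0 : 0 < M := by linarith
  refine ⟨1 / (1000 * M ^ 3), by positivity, fun ε hε hε1 C0 j0 hC0 hj0 => ?_⟩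
  obtain ⟨B, hB0, hax⟩ := axis_bounds Cs M ε C0 hM hε hε1 hCs hC0
  have hC8 : 0 < 20 * B + 20 * Cs := by positivity
  refine ⟨min 1 (1 / (2 * (150 * (20 * B + 20 * Cs)) ^ 2)), by positivity, fun δ hδ hδ0 => ?_⟩
  have hδ1 : δ ≤ 1 := (hδ0.trans_le (min_le_left _ _)).le
  have hδ2 : δ ≤ 1 / (2 * (150 * (20 * B + 20 * Cs)) ^ 2) := (hδ0.trans_le (min_le_right _ _)).le
  have hs : 150 * (20 * B + 20 * Cs) * δ ≤ Real.sqrt (δ / 2) := by
    apply Real.le_sqrt_of_sq_le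
    rw [le_div_iff₀ (by positivity)] at hδ2
    have : (150 * (20 * B + 20 * Cs) * δ) ^ 2 =
        (δ * (2 * (150 * (20 * B + 20 * Cs)) ^ 2)) * (δ / 2) := by ring
    rw [this]
    nlinarith
  obtain ⟨t0, ht⟩ : ∃ t0 : ℝ, Real.sqrt (δ / 2) / 150 = t0 := ⟨_, rfl⟩
  have ht0 : 0 < t0 := by
    rw [← ht]
    have : 0 < Real.sqrt (δ / 2) := Real.sqrt_pos.2 (by positivity)
    positivity
  have hsm : 20 * (B * δ) + 20 * (Cs * δ) ≤ t0 := by rw [← ht]; linarith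
  rw [ht]
  refine ⟨δ * t0, min (1 / 10) t0, by positivity, by positivity, fun b ψ T hb hb0 hI hT hB hm =>
    ?_⟩
  have hb1 : b < 1 / 10 := hb0.trans_le (min_le_left _ _)
  have hbt : b < t0 := hb0.trans_le (min_le_right _ _)
  have hax' := hax δ b _ j0 ψ T hδ hδ1 hI hT hB hm
  have hBd : 0 < B * δ := by positivity
  have hcd : 0 < Cs * δ := by positivity
  have hJ : ∀ z ∈ disc 2, 0 < br T.a T.b z := fun z hz => by
    have := hB.J0l z hz; linarith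
  have hk := kf_eq T ψ hI.sm hm hJ
  have hX : ∀ z, 1 ≤ Real.exp (-2 * ψ z) := fun z => Real.one_le_exp (by linarith [hI.le0 z])
  have hq : ∀ z, 1 ≤ (1 + pf T z ^ 2 + Pf T z ^ 2) ^ 2 := fun z =>
    one_le_pow₀ (by nlinarith [sq_nonneg (pf T z), sq_nonneg (Pf T z)])
  have hk2 : ∀ z ∈ disc 2, ∃ c : ℝ, 1 ≤ c ∧ kf T z = c * (-(dx (dx ψ) z + dy (dy ψ) z)) :=
    fun z hz => ⟨(1 + pf T z ^ 2 + Pf T z ^ 2) ^ 2 * Real.exp (-2 * ψ z),
      one_le_mul_of_one_le_of_one_le (hq z) (hX z), by rw [hk z hz]; ring⟩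
  refine ⟨?_, ?_, ?_, ?_, ?_⟩
  · intro x hx
    have h1 := (hax' x (by linarith)).2.2
    have h2 : Real.sqrt (δ / 2) / 3000 = t0 / 20 := by rw [← ht]; ring
    rw [h2]
    linarith
  · intro z hz
    have hzm := mem_disc.1 hz
    obtain ⟨c, hc, h⟩ := hk2 z (disc_mono (by norm_num) (by norm_num) hz)
    have hL : -(dx (dx ψ) z + dy (dy ψ) z) ≤ -(3 / 5) * δ := by
      rcases le_or_gt (z.1 ^ 2 + z.2 ^ 2) (b ^ 2) with h1 | h1
      · have h2 := (abs_le.1 (hI.inn z h1)).1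
        have h3 : b ^ 2 ≤ 1 / 100 := by nlinarith
        nlinarith
      · rw [lap_out hI ⟨h1, by linarith⟩]
        nlinarith
    rw [h]
    nlinarith
  · intro z hz hz'
    have hzm := mem_disc.1 hz
    have hzm' : (11 / 10 : ℝ) ^ 2 ≤ z.1 ^ 2 + z.2 ^ 2 := not_lt.1 (fun h => hz' (mem_disc.2 h))
    obtain ⟨c, hc, h⟩ := hk2 z (disc_mono (by norm_num) (by norm_num) hz)
    have hL : δ / 5 ≤ -(dx (dx ψ) z + dy (dy ψ) z) := by
      have h3 : b ^ 2 ≤ 1 / 100 := by nlinarith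
      rw [lap_out hI ⟨by linarith, by linarith⟩]
      nlinarith
    rw [h]
    nlinarith
  · intro z hz hP
    have := key_sign (σ := 1) hM hε hε1 hCs hδ hj0 hb hbt hI hT hB hm hBd.le hax' hsm
      (Or.inl rfl) hz (by linarith)
    linarith
  · intro z hz hP
    have := key_sign (σ := -1) hM hε hε1 hCs hδ hj0 hb hbt hI hT hB hm hBd.le hax' hsm
      (Or.inr rfl) hz (by linarith)
    linarith

end

end Vale.Agent.P229.C3
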