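import Vale.Agent.P229.Cacc
import Vale.Agent.P229.C3.Surf

/-!
# P229 module A, `C^3` version: Caccioppoli inequality
-/

namespace Vale.Agent.P229.C3

open MeasureTheory Set
open scoped ContDiff

namespace CaccAux3

open P229.CaccAux

variable {u P f g : ℝ × ℝ → ℝ} {l n l' n' : ℝ} {z : ℝ × ℝ}

theorem integrable_br {F g : ℝ × ℝ → ℝ} {U : Set (ℝ × ℝ)} (hU : IsOpen U) (hF : ContDiff ℝ 1 F)
    (hc : HasCompactSupport F) (hs : tsupport F ⊆ U) (hg : Sm 1 U g) :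
    Integrable (br F g) := by
  have hgx : ContDiffOn ℝ 0 (dx g) U := hg.dx (n := 0) hU
  have hgy : ContDiffOn ℝ 0 (dy g) U := hg.dy (n := 0) hU
  have s1 : tsupport (dx F) ⊆ U := by
    refine (closure_minimal ?_ (isClosed_tsupport F)).trans hs
    intro z hz
    by_contra hcon
    exact hz (dx_eq_zero_of_notMem hcon)
  have s2 : tsupport (dy F) ⊆ U := by
    refine (closure_minimal ?_ (isClosed_tsupport F)).trans hs
    intro z hz
    by_contra hcon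
    exact hz (dy_eq_zero_of_notMem hcon)
  have c1 : ContDiff ℝ 0 (fun z => dx F z * dy g z) :=
    contDiff_mul_of_tsupport (n := 0) hU (contDiff_zero.2 (continuous_dx hF)) s1 hgy
  have c2 : ContDiff ℝ 0 (fun z => dy F z * dx g z) :=
    contDiff_mul_of_tsupport (n := 0) hU (contDiff_zero.2 (continuous_dy hF)) s2 hgx
  have i1 : Integrable (fun z => dx F z * dy g z) :=
    (contDiff_zero.1 c1).integrable_of_hasCompactSupport ((hasCompactSupport_dx hc).mul_right)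
  have i2 : Integrable (fun z => dy F z * dx g z) :=
    (contDiff_zero.1 c2).integrable_of_hasCompactSupport ((hasCompactSupport_dy hc).mul_right)
  exact i1.sub i2

theorem isOpen_Om {P : ℝ × ℝ → ℝ} (hP : Sm 2 (disc 2) P) {t R : ℝ} (hR : |R| ≤ 2) :
    IsOpen (Om P t R) := by
  have hsub : disc R ⊆ disc 2 := by
    intro z hz
    have hz' : z.1 ^ 2 + z.2 ^ 2 < R ^ 2 := hz
    show z.1 ^ 2 + z.2 ^ 2 < 2 ^ 2
    have : R ^ 2 ≤ 2 ^ 2 := by rw [← sq_abs R]; exact pow_le_pow_left₀ (abs_nonneg _) hR 2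
    linarith
  have h := ((Sm.continuousOn hP).mono hsub).isOpen_inter_preimage (isOpen_disc R)
    (isOpen_Ioi (a := t))
  exact h

theorem identity {u P κ v θ θ2 : ℝ × ℝ → ℝ} {C0 j0 : ℝ} (hj : 0 < j0) (hr : Reg C0 j0 u P κ)
    (hv : ContDiff ℝ 3 v) (hθ : ContDiff ℝ ∞ θ) (hθ2 : ContDiff ℝ ∞ θ2) (t K : ℝ)
    {z : ℝ × ℝ} (hz : z ∈ disc 2) (θv t2 p k vv a b lθ nθ lt nt nk s : ℝ)
    (e1 : θ z = θv) (e2 : θ2 z = t2) (e3 : max (P z - t) 0 = p) (e4 : κ z = k) (e5 : v z = vv)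
    (e6 : No u P v z = a) (e7 : Lo u P v z = b) (e8 : Lo u P θ z = lθ) (e9 : No u P θ z = nθ)
    (e10 : Lo u P θ2 z = lt) (e11 : No u P θ2 z = nt) (e12 : No u P κ z = nk)
    (e13 : Op u P κ v z = s) :
    br (F1 u P v θ θ2 t K) P z + br u (F2 u P κ v θ θ2 t K) z = br u P z *
      (θv ^ 2 * (4 * p ^ 3 * b ^ 2 + 1 / 2 * p ^ 4 * nk * a ^ 2 -
        (6 * p * k + 3 * p ^ 2 * nk) * vv ^ 2) +
      (-(2 * θv * lθ * (b * (p ^ 4 * a - 2 * p ^ 3 * vv))) -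
        2 * θv * nθ * (-(1 / 2) * p ^ 4 * b ^ 2 + 1 / 2 * p ^ 4 * k * a ^ 2 -
          2 * p ^ 3 * k * vv * a + 3 * p ^ 2 * k * vv ^ 2)) +
      K * (t2 ^ 2 * p ^ 3 * b ^ 2 + t2 ^ 2 * p ^ 3 * k * a ^ 2 +
        vv * b * (2 * t2 * lt * p ^ 3) + k * vv * a * (2 * t2 * nt * p ^ 3 + 3 * t2 ^ 2 * p ^ 2)) +
      s * (K * (t2 ^ 2 * p ^ 3 * vv) - θv ^ 2 * (p ^ 4 * a - 2 * p ^ 3 * vv))) := by
  have hU := isOpen_disc 2
  have h0 : ∀ z ∈ disc 2, br u P z ≠ 0 := fun z hz => (lt_of_lt_of_le hj (hr.J z hz)).ne'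
  have h0z := h0 z hz
  have smv : Sm 3 (disc 2) v := Sm.of_contDiff hv
  have su2 := hr.su.of_le (m := 2) (by norm_num)
  have smv2 := smv.of_le (m := 2) (by norm_num)
  have sB : Sm 1 (disc 2) (Lo u P v) := Sm.Lo hU su2 hr.sP smv2 h0
  have sA : Sm 1 (disc 2) (No u P v) := Sm.No hU su2 hr.sP smv2 h0
  have hB : HL u P (Lo u P v) (Lo u P (Lo u P v) z) (No u P (Lo u P v) z) z := HL.of (sB.diff hU hz)
  have hA : HL u P (No u P v) (Lo u P (No u P v) z) (No u P (No u P v) z) z := HL.of (sA.diff hU hz)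
  have hvv : HL u P v b a z := ⟨smv.diff hU hz, e7, e6⟩
  have hk : HL u P κ (Lo u P κ z) nk z := ⟨hr.sk.diff hU hz, rfl, e12⟩
  have hθ' : HL u P θ lθ nθ z := ⟨(hθ.differentiable (by simp)) z, e8, e9⟩
  have hθ2' : HL u P θ2 lt nt z := ⟨(hθ2.differentiable (by simp)) z, e10, e11⟩
  have hPd : DifferentiableAt ℝ P z := hr.sP.diff hU hz
  have hPt : HL u P (fun w => P w - t) 0 1 z := by
    refine ⟨hPd.sub_const t, ?_, ?_⟩
    · have h := Lo_sub (u := u) (P := P) (f := P) (g := fun _ => t) hPd (differentiableAt_const t)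
      rw [h, Lo_P]
      have : Lo u P (fun _ => t) z = 0 := by
        simp only [Lo, br, dx_const, dy_const]; ring
      rw [this]; ring
    · have h := No_sub (u := u) (P := P) (f := P) (g := fun _ => t) hPd (differentiableAt_const t)
      rw [h, No_P h0z]
      have : No u P (fun _ => t) z = 0 := by
        simp only [No, br, dx_const, dy_const]; ring
      rw [this]; ring
  have hp4 : HL u P (fun w => (max (P w - t) 0) ^ (2 + 2)) _ _ z :=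
    HL.comp (φ := fun x => (max x 0) ^ (2 + 2)) (hasDerivAt_pos_pow 2 _) hPt
  have hp3 : HL u P (fun w => (max (P w - t) 0) ^ (1 + 2)) _ _ z :=
    HL.comp (φ := fun x => (max x 0) ^ (1 + 2)) (hasDerivAt_pos_pow 1 _) hPt
  have hp2 : HL u P (fun w => (max (P w - t) 0) ^ (0 + 2)) _ _ z :=
    HL.comp (φ := fun x => (max x 0) ^ (0 + 2)) (hasDerivAt_pos_pow 0 _) hPt
  have hF1 : HL u P (F1 u P v θ θ2 t K) _ _ z :=
    ((hθ'.mul hθ').mul (hB.mul ((hp4.mul hA).sub ((hp3.mul hvv).const_mul 2))).neg).add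
      ((hθ2'.mul hθ2').mul ((hp3.mul (hvv.mul hB)).const_mul K))
  have hF2 : HL u P (F2 u P κ v θ θ2 t K) _ _ z :=
    ((hθ'.mul hθ').mul ((((hp4.mul (hB.mul hB)).const_mul (-(1 / 2))).add
      ((hp4.mul (hk.mul (hA.mul hA))).const_mul (1 / 2))).sub
      ((hp3.mul (hk.mul (hvv.mul hA))).const_mul 2) |>.add
      ((hp2.mul (hk.mul (hvv.mul hvv))).const_mul 3)).neg).add
      ((hθ2'.mul hθ2').mul ((hp3.mul (hk.mul (hvv.mul hA))).const_mul K))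
  have hcomm : Lo u P (No u P v) z = No u P (Lo u P v) z := C3.Lo_No_comm hU su2 hr.sP smv2 h0 hz
  have hs : s = Lo u P (Lo u P v) z + (nk * a + k * No u P (No u P v) z) := by
    rw [← e13]
    unfold Op
    rw [No_mul (hr.sk.diff hU hz) (sA.diff hU hz), e12, e6, e4]
  rw [br_eq_mul_Lo (f := F1 u P v θ θ2 t K) h0z, br_eq_mul_No (f := F2 u P κ v θ θ2 t K) h0z,
    hF1.l, hF2.n, ← mul_add, hcomm, hs]
  congr 1
  rw [e1, e2, e3, e4, e5, e6, e7]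
  push_cast
  ring

theorem smooth_pp {P : ℝ × ℝ → ℝ} (hP : Sm 2 (disc 2) P) (t : ℝ) (k : ℕ) :
    ContDiffOn ℝ 1 (fun w => (max (P w - t) 0) ^ (k + 2)) (disc 2) := by
  have h1 : ContDiffOn ℝ 1 (fun w => P w - t) (disc 2) :=
    (hP.of_le (m := 1) (by norm_num)).sub contDiffOn_const
  exact (contDiff_pos_pow k).comp_contDiffOn h1

theorem smooth_F1 {u P κ v θ θ2 : ℝ × ℝ → ℝ} {C0 j0 g R G : ℝ} (hj : 0 < j0)
    (hr : Reg C0 j0 u P κ) (hv : ContDiff ℝ 3 v) (hc : Cuts g R G θ θ2) (hR0 : 0 ≤ R)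
    (hR : R ≤ 7 / 5) (t K : ℝ) :
    ContDiff ℝ 1 (F1 u P v θ θ2 t K) ∧
      (∀ z : ℝ × ℝ, R ^ 2 ≤ z.1 ^ 2 + z.2 ^ 2 → F1 u P v θ θ2 t K z = 0) := by
  have hU := isOpen_disc 2
  have h0 : ∀ z ∈ disc 2, br u P z ≠ 0 := fun z hz => (lt_of_lt_of_le hj (hr.J z hz)).ne'
  have smv : Sm 3 (disc 2) v := Sm.of_contDiff hv
  have su2 := hr.su.of_le (m := 2) (by norm_num)
  have smv2 := smv.of_le (m := 2) (by norm_num)
  have sB : ContDiffOn ℝ 1 (Lo u P v) (disc 2) := Sm.Lo hU su2 hr.sP smv2 h0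
  have sA : ContDiffOn ℝ 1 (No u P v) (disc 2) := Sm.No hU su2 hr.sP smv2 h0
  have sv : ContDiffOn ℝ 1 v (disc 2) := smv.of_le (m := 1) (by norm_num)
  have sθ : ContDiff ℝ 1 (fun w => θ w * θ w) := (hc.sm.mul hc.sm).of_le (by norm_cast)
  have sθ2 : ContDiff ℝ 1 (fun w => θ2 w * θ2 w) := (hc.sm2.mul hc.sm2).of_le (by norm_cast)
  have hsub : {z : ℝ × ℝ | z.1 ^ 2 + z.2 ^ 2 ≤ R ^ 2} ⊆ disc 2 := by
    intro z hz
    have hz' : z.1 ^ 2 + z.2 ^ 2 ≤ R ^ 2 := hz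
    show z.1 ^ 2 + z.2 ^ 2 < 2 ^ 2
    nlinarith
  have t1 : tsupport (fun w => θ w * θ w) ⊆ disc 2 :=
    (tsupport_sub (fun z hz => by rw [hc.out z hz, zero_mul])).trans hsub
  have t2 : tsupport (fun w => θ2 w * θ2 w) ⊆ disc 2 :=
    (tsupport_sub (fun z hz => by rw [hc.out2 z hz, zero_mul])).trans hsub
  refine ⟨?_, fun z hz => ?_⟩
  · refine ContDiff.add (contDiff_mul_of_tsupport (n := 1) hU sθ t1 ?_)
      (contDiff_mul_of_tsupport (n := 1) hU sθ2 t2 ?_)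
    · exact (sB.mul (((smooth_pp hr.sP t 2).mul sA).sub
        (contDiffOn_const.mul ((smooth_pp hr.sP t 1).mul sv)))).neg
    · exact contDiffOn_const.mul ((smooth_pp hr.sP t 1).mul (sv.mul sB))
  · unfold F1
    rw [hc.out z hz, hc.out2 z hz]; ring

theorem smooth_F2 {u P κ v θ θ2 : ℝ × ℝ → ℝ} {C0 j0 g R G : ℝ} (hj : 0 < j0)
    (hr : Reg C0 j0 u P κ) (hv : ContDiff ℝ 3 v) (hc : Cuts g R G θ θ2) (hR0 : 0 ≤ R)
    (hR : R ≤ 7 / 5) (t K : ℝ) :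
    ContDiff ℝ 1 (F2 u P κ v θ θ2 t K) ∧
      (∀ z : ℝ × ℝ, R ^ 2 ≤ z.1 ^ 2 + z.2 ^ 2 → F2 u P κ v θ θ2 t K z = 0) := by
  have hU := isOpen_disc 2
  have h0 : ∀ z ∈ disc 2, br u P z ≠ 0 := fun z hz => (lt_of_lt_of_le hj (hr.J z hz)).ne'
  have smv : Sm 3 (disc 2) v := Sm.of_contDiff hv
  have su2 := hr.su.of_le (m := 2) (by norm_num)
  have smv2 := smv.of_le (m := 2) (by norm_num)
  have sB : ContDiffOn ℝ 1 (Lo u P v) (disc 2) := Sm.Lo hU su2 hr.sP smv2 h0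
  have sA : ContDiffOn ℝ 1 (No u P v) (disc 2) := Sm.No hU su2 hr.sP smv2 h0
  have sv : ContDiffOn ℝ 1 v (disc 2) := smv.of_le (m := 1) (by norm_num)
  have sk : ContDiffOn ℝ 1 κ (disc 2) := hr.sk
  have sθ : ContDiff ℝ 1 (fun w => θ w * θ w) := (hc.sm.mul hc.sm).of_le (by norm_cast)
  have sθ2 : ContDiff ℝ 1 (fun w => θ2 w * θ2 w) := (hc.sm2.mul hc.sm2).of_le (by norm_cast)
  have hsub : {z : ℝ × ℝ | z.1 ^ 2 + z.2 ^ 2 ≤ R ^ 2} ⊆ disc 2 := by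
    intro z hz
    have hz' : z.1 ^ 2 + z.2 ^ 2 ≤ R ^ 2 := hz
    show z.1 ^ 2 + z.2 ^ 2 < 2 ^ 2
    nlinarith
  have t1 : tsupport (fun w => θ w * θ w) ⊆ disc 2 :=
    (tsupport_sub (fun z hz => by rw [hc.out z hz, zero_mul])).trans hsub
  have t2 : tsupport (fun w => θ2 w * θ2 w) ⊆ disc 2 :=
    (tsupport_sub (fun z hz => by rw [hc.out2 z hz, zero_mul])).trans hsub
  refine ⟨?_, fun z hz => ?_⟩
  · refine ContDiff.add (contDiff_mul_of_tsupport (n := 1) hU sθ t1 ?_)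
      (contDiff_mul_of_tsupport (n := 1) hU sθ2 t2 ?_)
    · exact ((((contDiffOn_const.mul ((smooth_pp hr.sP t 2).mul (sB.mul sB))).add
        (contDiffOn_const.mul ((smooth_pp hr.sP t 2).mul (sk.mul (sA.mul sA))))).sub
        (contDiffOn_const.mul ((smooth_pp hr.sP t 1).mul (sk.mul (sv.mul sA))))).add
        (contDiffOn_const.mul ((smooth_pp hr.sP t 0).mul (sk.mul (sv.mul sv))))).neg
    · exact contDiffOn_const.mul ((smooth_pp hr.sP t 1).mul (sk.mul (sv.mul sA)))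
  · unfold F2
    rw [hc.out z hz, hc.out2 z hz]; ring

theorem pw {u P κ v θ θ2 : ℝ × ℝ → ℝ} {C0 j0 k1 n0 g R G t M k' : ℝ} (hC : 0 < C0) (hj : 0 < j0)
    (hk1 : 0 < k1) (hn0 : 0 < n0) (hg : 0 < g) (hG : 0 ≤ G)
    (hMdef : M = 1 + 2 * C0 + 2 * G * C0 / j0 + 2 * C0 * C0 / j0) (hk'def : k' = min 1 k1)
    (hr : Reg C0 j0 u P κ) (hv : ContDiff ℝ 3 v) (ht : |t| ≤ C0) (hR1 : 6 / 5 + g ≤ R)
    (hc : Cuts g R G θ θ2)
    (hk : ∀ z ∈ disc (3 / 2), z ∉ disc (11 / 10) → k1 ≤ κ z)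
    (hn : ∀ z ∈ disc (3 / 2), t < P z → n0 ≤ No u P κ z)
    (hs : ∀ z ∈ disc (3 / 2), t < P z → Op u P κ v z = 0) {z : ℝ × ℝ} (hz : z ∈ disc (3 / 2)) :
    (z ∈ Om P (t + g) (R - g) → j0 * min (4 * g ^ 3) (1 / 2 * n0 * g ^ 4) / (4 * C0 ^ 2) *
        (dx v z ^ 2 + dy v z ^ 2) - 2 * C0 ^ 2 * (9 * M ^ 3 + 10 * M ^ 5 + 180 * M ^ 9 / k') *
        v z ^ 2 ≤ br (F1 u P v θ θ2 t (12 * M ^ 3 / k')) P z +
          br u (F2 u P κ v θ θ2 t (12 * M ^ 3 / k')) z) ∧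
    (-(2 * C0 ^ 2 * (9 * M ^ 3 + 10 * M ^ 5 + 180 * M ^ 9 / k') *
        v z ^ 2) ≤ br (F1 u P v θ θ2 t (12 * M ^ 3 / k')) P z +
          br u (F2 u P κ v θ θ2 t (12 * M ^ 3 / k')) z) ∧
    (z ∉ Om P t R → br (F1 u P v θ θ2 t (12 * M ^ 3 / k')) P z +
          br u (F2 u P κ v θ θ2 t (12 * M ^ 3 / k')) z = 0) := by
  have hz' : z.1 ^ 2 + z.2 ^ 2 < (3 / 2) ^ 2 := hz
  have hz2 : z ∈ disc 2 := by
    show z.1 ^ 2 + z.2 ^ 2 < 2 ^ 2
    linarith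
  have hJ := hr.J z hz2
  obtain ⟨-, hux, huy⟩ := hr.bu z hz2
  obtain ⟨hPb, hPx, hPy⟩ := hr.bP z hz2
  obtain ⟨hκb, hκx, hκy⟩ := hr.bk z hz2
  obtain ⟨⟨g1, g2⟩, g3, g4⟩ := hc.gb z hz2
  have i1 : 0 ≤ 2 * G * C0 / j0 := by positivity
  have i2 : 0 ≤ 2 * C0 * C0 / j0 := by positivity
  have hM1 : 1 ≤ M := by rw [hMdef]; linarith
  have hM0 : 0 < M := by linarith
  have hMG : 2 * G * C0 / j0 ≤ M := by rw [hMdef]; linarith
  have hMC : 2 * C0 * C0 / j0 ≤ M := by rw [hMdef]; linarith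
  have hM2 : 2 * C0 ≤ M := by rw [hMdef]; linarith
  have hk'0 : 0 < k' := by rw [hk'def]; exact lt_min one_pos hk1
  have hk'1 : k' ≤ 1 := by rw [hk'def]; exact min_le_left _ _
  have hk'2 : k' ≤ k1 := by rw [hk'def]; exact min_le_right _ _
  have hJ0 : 0 < br u P z := lt_of_lt_of_le hj hJ
  have hJ2 : br u P z ≤ 2 * C0 ^ 2 := br_le hC.le hux huy hPx hPy
  have hid := identity hj hr hv hc.sm hc.sm2 t (12 * M ^ 3 / k') hz2 _ _ _ _ _ _ _ _ _ _ _ _ _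
    rfl rfl rfl rfl rfl rfl rfl rfl rfl rfl rfl rfl rfl
  obtain ⟨p, hp⟩ : ∃ p, p = max (P z - t) 0 := ⟨_, rfl⟩
  rw [← hp] at hid
  have hp0 : 0 ≤ p := by rw [hp]; exact le_max_right _ _
  have hpM : p ≤ M := by
    rw [hp]
    refine max_le ?_ hM0.le
    have h1 := le_abs_self (P z)
    have h2 := neg_abs_le t
    linarith
  have hpt : 0 < p → t < P z := by
    intro h
    rw [hp] at h
    rcases lt_max_iff.1 h with h | h
    · linarith
    · exact absurd h (lt_irrefl _)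
  have al := alg M k' n0 (θ z) (θ2 z) p (κ z) (v z) (No u P v z) (Lo u P v z) (Lo u P θ z)
    (No u P θ z) (Lo u P θ2 z) (No u P θ2 z) (No u P κ z) (Op u P κ v z) hM1 hk'0 hk'1 (hc.nn z)
    (hc.le z) (hc.nn2 z) (hc.le2 z) hp0 hpM (by linarith) ((abs_No_le hj hJ hux huy hκx hκy).trans hMC)
    ((abs_Lo_le hj hJ hPx hPy g1 g2).trans hMG) ((abs_No_le hj hJ hux huy g1 g2).trans hMG)
    ((abs_Lo_le hj hJ hPx hPy g3 g4).trans hMG) ((abs_No_le hj hJ hux huy g3 g4).trans hMG)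
    (fun h => hk'2.trans (hk z hz (hc.far z h)))
    (fun h => hc.grad z (by
      by_contra hcon
      push Not at hcon
      have h1 : Lo u P θ z = 0 := by
        show (dx θ z * dy P z - dy θ z * dx P z) / br u P z = 0
        rw [hcon.1, hcon.2]; simp
      have h2 : No u P θ z = 0 := by
        show (dx u z * dy θ z - dy u z * dx θ z) / br u P z = 0
        rw [hcon.1, hcon.2]; simp
      rcases h with h | h
      · exact h h1
      · exact h h2))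
    (fun h => hn z hz (hpt h)) (fun h => hs z hz (hpt h))
  obtain ⟨a, ha⟩ : ∃ a, a = No u P v z := ⟨_, rfl⟩
  obtain ⟨b, hb⟩ : ∃ b, b = Lo u P v z := ⟨_, rfl⟩
  rw [← ha, ← hb] at al hid
  obtain ⟨C', hC'⟩ : ∃ C', C' = 9 * M ^ 3 + 10 * M ^ 5 + 180 * M ^ 9 / k' := ⟨_, rfl⟩
  have hC'0 : 0 ≤ C' := by rw [hC']; positivity
  rw [← hC'] at al ⊢
  have hvz : 0 ≤ v z ^ 2 := sq_nonneg _
  rw [hid]
  have hJC : br u P z * (C' * v z ^ 2) ≤ 2 * C0 ^ 2 * (C' * v z ^ 2) :=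
    mul_le_mul_of_nonneg_right hJ2 (by positivity)
  have al2 := mul_le_mul_of_nonneg_left al hJ0.le
  refine ⟨fun hS => ?_, ?_, fun hS => ?_⟩
  · refine le_trans ?_ al2
    have hθ1 : θ z = 1 := hc.one z hS.1
    have hpg : g ≤ p := by
      rw [hp]
      have : t + g < P z := hS.2
      exact le_max_of_le_left (by linarith)
    have hD := grad_le (v := v) hJ0.ne' hux huy hPx hPy
    rw [← ha, ← hb] at hD
    rw [hθ1]
    exact final_inner hj hJ hJ2 hC hC'0 hg hn0 rfl hpg hD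
  · refine le_trans ?_ al2
    have h1 : 0 ≤ θ z ^ 2 * (4 * p ^ 3 * b ^ 2 + 1 / 2 * n0 * p ^ 4 * a ^ 2) := by positivity
    have h2 := mul_nonneg hJ0.le h1
    have h5 : br u P z * (θ z ^ 2 * (4 * p ^ 3 * b ^ 2 + 1 / 2 * n0 * p ^ 4 * a ^ 2) -
        C' * v z ^ 2) = br u P z * (θ z ^ 2 * (4 * p ^ 3 * b ^ 2 + 1 / 2 * n0 * p ^ 4 * a ^ 2)) -
          br u P z * (C' * v z ^ 2) := by ring
    rw [h5]
    linarith
  · by_cases hR : R ^ 2 ≤ z.1 ^ 2 + z.2 ^ 2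
    · rw [hc.out z hR, hc.out2 z hR]; ring
    · have hp' : p = 0 := by
        rw [hp]
        refine max_eq_right ?_
        by_contra h
        exact hS ⟨not_le.1 hR, by linarith⟩
      rw [hp']; ring

end CaccAux3

section

open CaccAux3
open P229.CaccAux (exists_cuts compact_of tsupport_sub integrableOn_Om F1 F2)

theorem caccioppoli (C0 j0 k1 n0 g : ℝ) (hC : 0 < C0) (hj : 0 < j0) (hk : 0 < k1) (hn : 0 < n0)
    (hg : 0 < g) : ∃ A : ℝ, 0 < A ∧ ∀ (u P κ v : ℝ × ℝ → ℝ) (t R : ℝ),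
      Reg C0 j0 u P κ → ContDiff ℝ 3 v → |t| ≤ C0 → 6 / 5 + g ≤ R → R ≤ 7 / 5 →
      (∀ z ∈ disc (3 / 2), z ∉ disc (11 / 10) → k1 ≤ κ z) →
      (∀ z ∈ disc (3 / 2), t < P z → n0 ≤ No u P κ z) →
      (∀ z ∈ disc (3 / 2), t < P z → Op u P κ v z = 0) →
      ∫ z in Om P (t + g) (R - g), (dx v z ^ 2 + dy v z ^ 2) ≤ A * ∫ z in Om P t R, v z ^ 2 := by
  obtain ⟨G, hG0, hcuts⟩ := exists_cuts g hg
  obtain ⟨M, hMdef⟩ : ∃ M, M = 1 + 2 * C0 + 2 * G * C0 / j0 + 2 * C0 * C0 / j0 := ⟨_, rfl⟩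
  obtain ⟨k', hk'def⟩ : ∃ k', k' = min 1 k1 := ⟨_, rfl⟩
  have hM0 : 0 < M := by rw [hMdef]; positivity
  have hk'0 : 0 < k' := by rw [hk'def]; exact lt_min one_pos hk
  obtain ⟨C', hC'⟩ : ∃ C', C' = 9 * M ^ 3 + 10 * M ^ 5 + 180 * M ^ 9 / k' := ⟨_, rfl⟩
  have hC'0 : 0 < C' := by rw [hC']; positivity
  obtain ⟨c1, hc1⟩ : ∃ c1, c1 = min (4 * g ^ 3) (1 / 2 * n0 * g ^ 4) := ⟨_, rfl⟩
  have hc10 : 0 < c1 := by rw [hc1]; exact lt_min (by positivity) (by positivity)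
  refine ⟨2 * C0 ^ 2 * C' / (j0 * c1 / (4 * C0 ^ 2)), by positivity, ?_⟩
  intro u P κ v t R hr hv ht hR1 hR2 hk1 hn1 hs1
  obtain ⟨θ, θ2, hc⟩ := hcuts R hR1 hR2
  have hR0 : 0 ≤ R := by linarith
  obtain ⟨sF1, oF1⟩ := smooth_F1 hj hr hv hc hR0 hR2 t (12 * M ^ 3 / k')
  obtain ⟨sF2, oF2⟩ := smooth_F2 hj hr hv hc hR0 hR2 t (12 * M ^ 3 / k')
  have hU := isOpen_disc 2
  have hsub : {z : ℝ × ℝ | z.1 ^ 2 + z.2 ^ 2 ≤ R ^ 2} ⊆ disc 2 := by
    intro z hz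
    have hz' : z.1 ^ 2 + z.2 ^ 2 ≤ R ^ 2 := hz
    show z.1 ^ 2 + z.2 ^ 2 < 2 ^ 2
    nlinarith
  have i1 := integrable_br hU sF1 (compact_of oF1) ((tsupport_sub oF1).trans hsub) (hr.sP.of_le (by norm_num))
  have i2 := integrable_br hU sF2 (compact_of oF2) ((tsupport_sub oF2).trans hsub) (hr.su.of_le (by norm_num))
  have z1 := C3.integral_br_eq_zero hU sF1 (compact_of oF1) ((tsupport_sub oF1).trans hsub) hr.sP
  have z2 := C3.integral_br_eq_zero hU sF2 (compact_of oF2) ((tsupport_sub oF2).trans hsub) (hr.su.of_le (by norm_num))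
  have hanti : ∀ z, br u (F2 u P κ v θ θ2 t (12 * M ^ 3 / k')) z =
      - br (F2 u P κ v θ θ2 t (12 * M ^ 3 / k')) u z := fun z => br_antisymm
  set I : ℝ × ℝ → ℝ := fun z => br (F1 u P v θ θ2 t (12 * M ^ 3 / k')) P z +
    br u (F2 u P κ v θ θ2 t (12 * M ^ 3 / k')) z with hI
  have hIeq : I = fun z => br (F1 u P v θ θ2 t (12 * M ^ 3 / k')) P z -
      br (F2 u P κ v θ θ2 t (12 * M ^ 3 / k')) u z := by
    funext z
    simp only [hI, hanti z]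
    ring
  have hIint : Integrable I := by rw [hIeq]; exact i1.sub i2
  have hI0 : ∫ z, I z = 0 := by
    rw [hIeq, integral_sub i1 i2, z1, z2, sub_zero]
  -- the two indicator functions
  have mS1 : MeasurableSet (Om P (t + g) (R - g)) :=
    (isOpen_Om hr.sP (by rw [abs_of_nonneg (by linarith)]; linarith)).measurableSet
  have mS0 : MeasurableSet (Om P t R) :=
    (isOpen_Om hr.sP (by rw [abs_of_nonneg hR0]; linarith)).measurableSet
  have cv : Continuous v := hv.continuous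
  have cdx : Continuous (dx v) := continuous_dx (hv.of_le (by norm_num))
  have cdy : Continuous (dy v) := continuous_dy (hv.of_le (by norm_num))
  have cq : Continuous (fun z => dx v z ^ 2 + dy v z ^ 2) := (cdx.pow 2).add (cdy.pow 2)
  have iq : Integrable ((Om P (t + g) (R - g)).indicator (fun z => dx v z ^ 2 + dy v z ^ 2)) :=
    (integrable_indicator_iff mS1).2 (integrableOn_Om cq)
  have ir : Integrable ((Om P t R).indicator (fun z => v z ^ 2)) :=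
    (integrable_indicator_iff mS0).2 (integrableOn_Om (cv.pow 2))
  have hsubS : Om P (t + g) (R - g) ⊆ Om P t R := by
    rintro z ⟨h1, h2⟩
    have h1' : z.1 ^ 2 + z.2 ^ 2 < (R - g) ^ 2 := h1
    refine ⟨?_, by linarith⟩
    show z.1 ^ 2 + z.2 ^ 2 < R ^ 2
    have : (R - g) ^ 2 ≤ R ^ 2 := pow_le_pow_left₀ (by linarith) (by linarith) 2
    linarith
  have hsubD : Om P t R ⊆ disc (3 / 2) := by
    rintro z ⟨h1, h2⟩
    have h1' : z.1 ^ 2 + z.2 ^ 2 < R ^ 2 := h1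
    show z.1 ^ 2 + z.2 ^ 2 < (3 / 2) ^ 2
    nlinarith
  have key : ∀ z, (j0 * c1 / (4 * C0 ^ 2)) *
      (Om P (t + g) (R - g)).indicator (fun z => dx v z ^ 2 + dy v z ^ 2) z -
      (2 * C0 ^ 2 * C') * (Om P t R).indicator (fun z => v z ^ 2) z ≤ I z := by
    intro z
    by_cases hz : z ∈ disc (3 / 2)
    · obtain ⟨a1, a2, a3⟩ := pw hC hj hk hn hg hG0 hMdef hk'def hr hv ht hR1 hc hk1 hn1 hs1 hz
      rw [← hC'] at a1 a2
      rw [← hc1] at a1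
      by_cases hS0 : z ∈ Om P t R
      · rw [Set.indicator_of_mem hS0]
        by_cases hS1 : z ∈ Om P (t + g) (R - g)
        · rw [Set.indicator_of_mem hS1]
          exact a1 hS1
        · rw [Set.indicator_of_notMem hS1]
          have : (j0 * c1 / (4 * C0 ^ 2)) * 0 - (2 * C0 ^ 2 * C') * v z ^ 2 =
              -(2 * C0 ^ 2 * C' * v z ^ 2) := by ring
          rw [this]
          exact a2
      · rw [Set.indicator_of_notMem hS0, Set.indicator_of_notMem (fun h => hS0 (hsubS h))]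
        rw [mul_zero, mul_zero, sub_zero]
        exact (a3 hS0).ge
    · have hS0 : z ∉ Om P t R := fun h => hz (hsubD h)
      rw [Set.indicator_of_notMem hS0, Set.indicator_of_notMem (fun h => hS0 (hsubS h))]
      rw [mul_zero, mul_zero, sub_zero]
      have hzR : ¬ z.1 ^ 2 + z.2 ^ 2 ≤ R ^ 2 := by
        intro h
        apply hz
        show z.1 ^ 2 + z.2 ^ 2 < (3 / 2) ^ 2
        nlinarith
      have n1 : z ∉ tsupport (F1 u P v θ θ2 t (12 * M ^ 3 / k')) :=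
        fun h => hzR (tsupport_sub oF1 h)
      have n2 : z ∉ tsupport (F2 u P κ v θ θ2 t (12 * M ^ 3 / k')) :=
        fun h => hzR (tsupport_sub oF2 h)
      have : I z = 0 := by
        simp only [hI, br, dx_eq_zero_of_notMem n1, dy_eq_zero_of_notMem n1,
          dx_eq_zero_of_notMem n2, dy_eq_zero_of_notMem n2]
        ring
      rw [this]
  have j1 := iq.const_mul (j0 * c1 / (4 * C0 ^ 2))
  have j2 := ir.const_mul (2 * C0 ^ 2 * C')
  have hint : Integrable (fun z => (j0 * c1 / (4 * C0 ^ 2)) *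
      (Om P (t + g) (R - g)).indicator (fun z => dx v z ^ 2 + dy v z ^ 2) z -
      (2 * C0 ^ 2 * C') * (Om P t R).indicator (fun z => v z ^ 2) z) := j1.sub j2
  have hmono := integral_mono hint hIint key
  rw [hI0, integral_sub j1 j2, integral_const_mul, integral_const_mul, integral_indicator mS1,
    integral_indicator mS0] at hmono
  have hpos : 0 < j0 * c1 / (4 * C0 ^ 2) := by positivity
  rw [div_mul_eq_mul_div, le_div_iff₀ hpos]
  linarith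

end

end Vale.Agent.P229.C3
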