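import Vale.Agent.P229.C3.Surf
import Vale.Agent.P229.Chord

/-!
# P229 [O], `C³` version
-/

namespace Vale.Agent.P229.C3

open Set
open scoped ContDiff

namespace C3ChordAux

open ChordAux

/-- one component: if all second derivatives vanish on the circle, then the gradient is constant
there and the difference of the values at antipodal points is that of the affine function. -/
theorem comp_const {U : Set (ℝ × ℝ)} (hU : IsOpen U) {F : ℝ × ℝ → ℝ} (hF : Sm 3 U F)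
    {p : ℝ × ℝ} {R : ℝ} (hsub : cdisc p R ⊆ U)
    (hvan : ∀ x : ℝ × ℝ, (x.1 - p.1) ^ 2 + (x.2 - p.2) ^ 2 = R ^ 2 →
      dx (dx F) x = 0 ∧ dx (dy F) x = 0 ∧ dy (dy F) x = 0) :
    F (p.1 + R, p.2) - F (p.1 - R, p.2) = 2 * R * dx F (p.1 + R, p.2) := by
  have hmemU : ∀ t, ((cx p R t, cy p R t) : ℝ × ℝ) ∈ U := fun t => hsub (circ_eq p R t).le
  -- the gradient is constant
  have hgx : ∀ t, HasDerivAt (fun t => dx F (cx p R t, cy p R t)) 0 t := by
    intro t
    have h := hasDerivAt_comp ((hF.dx hU).diff hU (hmemU t)) (hasDerivAt_cx p R t)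
      (hasDerivAt_cy p R t)
    obtain ⟨h1, h2, h3⟩ := hvan _ (circ_eq p R t)
    rw [← (hF.of_le (by norm_num : 2 ≤ 3)).dx_dy_comm hU (hmemU t), h1, h2] at h
    simpa using h
  have hgy : ∀ t, HasDerivAt (fun t => dy F (cx p R t, cy p R t)) 0 t := by
    intro t
    have h := hasDerivAt_comp ((hF.dy hU).diff hU (hmemU t)) (hasDerivAt_cx p R t)
      (hasDerivAt_cy p R t)
    obtain ⟨h1, h2, h3⟩ := hvan _ (circ_eq p R t)
    rw [h2, h3] at h
    simpa using h
  have hcx : ∀ t, dx F (cx p R t, cy p R t) = dx F (cx p R 0, cy p R 0) := fun t =>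
    is_const_of_deriv_eq_zero (fun s => (hgx s).differentiableAt) (fun s => (hgx s).deriv) t 0
  have hcy : ∀ t, dy F (cx p R t, cy p R t) = dy F (cx p R 0, cy p R 0) := fun t =>
    is_const_of_deriv_eq_zero (fun s => (hgy s).differentiableAt) (fun s => (hgy s).deriv) t 0
  set A := dx F (cx p R 0, cy p R 0) with hA
  set B := dy F (cx p R 0, cy p R 0) with hB
  have hd : ∀ t, HasDerivAt (fun t => F (cx p R t, cy p R t) - (A * cx p R t + B * cy p R t)) 0 t := by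
    intro t
    have h := hasDerivAt_comp (hF.diff hU (hmemU t)) (hasDerivAt_cx p R t) (hasDerivAt_cy p R t)
    rw [hcx t, hcy t] at h
    have h2 := ((hasDerivAt_cx p R t).const_mul A).add ((hasDerivAt_cy p R t).const_mul B)
    exact (h.sub h2).congr_deriv (by ring)
  have hc := is_const_of_deriv_eq_zero (fun s => (hd s).differentiableAt)
    (fun s => (hd s).deriv) 0 Real.pi
  have e0 : cx p R 0 = p.1 + R := by simp [cx]
  have e1 : cy p R 0 = p.2 := by simp [cy]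
  have e2 : cx p R Real.pi = p.1 - R := by simp [cx]; ring
  have e3 : cy p R Real.pi = p.2 := by simp [cy]
  simp only [e0, e1, e2, e3] at hc hA
  rw [← hA]
  linarith

end C3ChordAux

open ChordAux C3ChordAux in
theorem chord (U : Set (ℝ × ℝ)) (hU : IsOpen U) (Ψ F1 F2 F3 : ℝ × ℝ → ℝ)
    (hΨ : ContDiff ℝ ∞ Ψ) (h1 : Sm 3 U F1) (h2 : Sm 3 U F2) (h3 : Sm 3 U F3) (hI : Imm3 U Ψ F1 F2 F3)
    (p : ℝ × ℝ) (R : ℝ) (hR : 0 < R) (hsub : cdisc p R ⊆ U)
    (hcirc : ∀ z : ℝ × ℝ, (z.1 - p.1) ^ 2 + (z.2 - p.2) ^ 2 = R ^ 2 → Ψ z = 0)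
    (hle : ∀ z ∈ cdisc p R, Ψ z ≤ 0) (hneg : Ψ p < 0) :
    ∃ x : ℝ × ℝ, (x.1 - p.1) ^ 2 + (x.2 - p.2) ^ 2 = R ^ 2 ∧
      ∃ F ∈ ({F1, F2, F3} : Set (ℝ × ℝ → ℝ)),
        dx (dx F) x ≠ 0 ∨ dx (dy F) x ≠ 0 ∨ dy (dy F) x ≠ 0 := by
  by_contra hcon
  push Not at hcon
  have hv1 := comp_const hU h1 hsub (fun x hx => hcon x hx F1 (by simp))
  have hv2 := comp_const hU h2 hsub (fun x hx => hcon x hx F2 (by simp))
  have hv3 := comp_const hU h3 hsub (fun x hx => hcon x hx F3 (by simp))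
  have hq : (((p.1 + R, p.2) : ℝ × ℝ).1 - p.1) ^ 2 + (((p.1 + R, p.2) : ℝ × ℝ).2 - p.2) ^ 2 = R ^ 2 := by
    simp
  have hqU : ((p.1 + R, p.2) : ℝ × ℝ) ∈ U := hsub (le_of_eq hq)
  have hunit := (hI _ hqU).1
  rw [hcirc _ hq] at hunit
  simp only [mul_zero, Real.exp_zero] at hunit
  set A1 := dx F1 (p.1 + R, p.2)
  set A2 := dx F2 (p.1 + R, p.2)
  set A3 := dx F3 (p.1 + R, p.2)
  -- points of the chord
  have hmem : ∀ s ∈ Icc (-R) R, ((p.1 + s, p.2) : ℝ × ℝ) ∈ cdisc p R := by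
    intro s hs
    simp only [cdisc, mem_ofPred_eq, add_sub_cancel_left, sub_self]
    nlinarith [hs.1, hs.2]
  have hds : ∀ s ∈ Icc (-R) R, HasDerivAt (fun s => s - (A1 * F1 (p.1 + s, p.2)
      + A2 * F2 (p.1 + s, p.2) + A3 * F3 (p.1 + s, p.2)))
      (1 - (A1 * dx F1 (p.1 + s, p.2) + A2 * dx F2 (p.1 + s, p.2) + A3 * dx F3 (p.1 + s, p.2))) s := by
    intro s hs
    have hU' := hsub (hmem s hs)
    have e1 : HasDerivAt (fun s => p.1 + s) 1 s := (hasDerivAt_id s).const_add p.1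
    have e2 : HasDerivAt (fun _ : ℝ => p.2) 0 s := hasDerivAt_const s p.2
    have g1 := (hasDerivAt_comp (h1.diff hU hU') e1 e2).const_mul A1
    have g2 := (hasDerivAt_comp (h2.diff hU hU') e1 e2).const_mul A2
    have g3 := (hasDerivAt_comp (h3.diff hU hU') e1 e2).const_mul A3
    exact ((hasDerivAt_id s).sub ((g1.add g2).add g3)).congr_deriv (by ring)
  have hder : ∀ s ∈ Icc (-R) R, 1 - Real.exp (Ψ (p.1 + s, p.2)) ≤
      1 - (A1 * dx F1 (p.1 + s, p.2) + A2 * dx F2 (p.1 + s, p.2) + A3 * dx F3 (p.1 + s, p.2)) := by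
    intro s hs
    have h4 := (hI _ (hsub (hmem s hs))).1
    have h5 : Real.exp (2 * Ψ (p.1 + s, p.2)) = Real.exp (Ψ (p.1 + s, p.2)) ^ 2 := by
      rw [← Real.exp_nat_mul]; norm_num
    rw [h5] at h4
    have h6 := Real.exp_pos (Ψ (p.1 + s, p.2))
    set E := Real.exp (Ψ (p.1 + s, p.2))
    set X := dx F1 (p.1 + s, p.2)
    set Y := dx F2 (p.1 + s, p.2)
    set Z := dx F3 (p.1 + s, p.2)
    have h7 : A1 * X + A2 * Y + A3 * Z ≤ E := by
      have h8 : (A1 * X + A2 * Y + A3 * Z) ^ 2 ≤ E ^ 2 := by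
        nlinarith [sq_nonneg (A1 * Y - A2 * X), sq_nonneg (A1 * Z - A3 * X), sq_nonneg (A2 * Z - A3 * Y)]
      exact le_of_sq_le_sq h8 h6.le
    linarith
  have hmono : MonotoneOn (fun s => s - (A1 * F1 (p.1 + s, p.2)
      + A2 * F2 (p.1 + s, p.2) + A3 * F3 (p.1 + s, p.2))) (Icc (-R) R) := by
    apply monotoneOn_of_deriv_nonneg (convex_Icc _ _)
    · exact fun s hs => (hds s hs).continuousAt.continuousWithinAt
    · intro s hs
      exact (hds s (interior_subset hs)).differentiableAt.differentiableWithinAt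
    · intro s hs
      rw [(hds s (interior_subset hs)).deriv]
      have h4 := hder s (interior_subset hs)
      have h5 : Real.exp (Ψ (p.1 + s, p.2)) ≤ 1 :=
        Real.exp_le_one_iff.mpr (hle _ (hmem s (interior_subset hs)))
      linarith
  -- equal end values
  have hends : (R - (A1 * F1 (p.1 + R, p.2) + A2 * F2 (p.1 + R, p.2) + A3 * F3 (p.1 + R, p.2)))
      = (-R - (A1 * F1 (p.1 + -R, p.2) + A2 * F2 (p.1 + -R, p.2) + A3 * F3 (p.1 + -R, p.2))) := by
    rw [← sub_eq_add_neg]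
    have : A1 * (2 * R * A1) + A2 * (2 * R * A2) + A3 * (2 * R * A3) = 2 * R := by
      linear_combination (2 * R) * hunit
    rw [← hv1, ← hv2, ← hv3] at this
    linarith
  -- so the function is constant on the chord, contradicting the derivative at `0`
  have hconst : ∀ s ∈ Icc (-R) R, (fun s => s - (A1 * F1 (p.1 + s, p.2)
      + A2 * F2 (p.1 + s, p.2) + A3 * F3 (p.1 + s, p.2))) s =
      (R - (A1 * F1 (p.1 + R, p.2) + A2 * F2 (p.1 + R, p.2) + A3 * F3 (p.1 + R, p.2))) := by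
    intro s hs
    have ha := hmono hs (right_mem_Icc.mpr (by linarith)) hs.2
    have hb := hmono (left_mem_Icc.mpr (by linarith)) hs hs.1
    simp only at ha hb ⊢
    linarith
  have h0 : (0 : ℝ) ∈ Icc (-R) R := ⟨by linarith, hR.le⟩
  have hz := hds 0 h0
  have hev : (fun s => s - (A1 * F1 (p.1 + s, p.2)
      + A2 * F2 (p.1 + s, p.2) + A3 * F3 (p.1 + s, p.2))) =ᶠ[nhds 0] fun _ =>
      (R - (A1 * F1 (p.1 + R, p.2) + A2 * F2 (p.1 + R, p.2) + A3 * F3 (p.1 + R, p.2))) :=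
    Filter.eventually_of_mem (Icc_mem_nhds (by linarith) hR) hconst
  have hz' := hz.deriv
  rw [hev.deriv_eq, deriv_const] at hz'
  have h4 := hder 0 h0
  rw [← hz'] at h4
  have h5 : Real.exp (Ψ (p.1 + 0, p.2)) < 1 := by
    rw [Real.exp_lt_one_iff, add_zero]
    exact hneg
  linarith

end Vale.Agent.P229.C3
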