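import Vale.Agent.P229.Classes
import Vale.Agent.P229.C3.Surf
import Vale.Agent.P229.C3.BdAlg

/-!
# P229 [D]: finitely many classes of normalized triples (`C³` version)
-/

namespace Vale.Agent.P229.C3

open Set
open scoped ContDiff

namespace ClassesAux

open P229.ClassesAux (sig_exists disc_sub pigeon)

/-- signature for `Bd`-closeness -/
lemma sigBd (k : ℕ) (C η : ℝ) (hC : 0 ≤ C) (hη : 0 < η) :
    ∃ K : ℕ, ∀ {ι : Type} (S : Finset ι) (F : ι → ℝ × ℝ → ℝ),
      (∀ i ∈ S, ContDiff ℝ (k + 1 : ℕ) (F i)) → (∀ i ∈ S, Bd (disc 3) (k + 1) C (F i)) →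
      ∃ s : ι → Fin K, ∀ i ∈ S, ∀ j ∈ S, s i = s j →
        Bd (disc 2) k η (fun z => F i z - F j z) := by
  obtain ⟨K1, h1⟩ := sig_exists C η hC hη
  have hbase : ∀ {ι : Type} (S : Finset ι) (F : ι → ℝ × ℝ → ℝ) (k : ℕ),
      (∀ i ∈ S, ContDiff ℝ (k + 1 : ℕ) (F i)) → (∀ i ∈ S, Bd (disc 3) (k + 1) C (F i)) →
      ∃ s : ι → Fin K1, ∀ i ∈ S, ∀ j ∈ S, s i = s j → ∀ z ∈ disc 2, |F i z - F j z| ≤ η := by
    intro ι S F k hc hb
    apply h1 S F
    · intro i hi z hz
      exact (hb i hi).bound hz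
    · intro i hi z hz w hw
      exact abs_sub_le_disc ((Sm.of_contDiff (hc i hi)).of_le (by omega)) (fun z hz => (hb i hi).dx.bound hz)
        (fun z hz => (hb i hi).dy.bound hz) z hz w hw
  induction k with
  | zero =>
    refine ⟨K1, ?_⟩
    intro ι S F hc hb
    obtain ⟨s, hs⟩ := hbase S F 0 hc hb
    exact ⟨s, fun i hi j hj hij => hs i hi j hj hij⟩
  | succ k ih =>
    obtain ⟨K2, h2⟩ := ih
    refine ⟨K1 * (K2 * K2), ?_⟩
    intro ι S F hc hb
    obtain ⟨s, hs⟩ := hbase S F (k + 1) hc hb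
    obtain ⟨sx, hsx⟩ := h2 S (fun i => dx (F i)) (fun i hi => contDiff_dx (hc i hi))
      (fun i hi => (hb i hi).dx)
    obtain ⟨sy, hsy⟩ := h2 S (fun i => dy (F i)) (fun i hi => contDiff_dy (hc i hi))
      (fun i hi => (hb i hi).dy)
    refine ⟨fun i => finProdFinEquiv (s i, finProdFinEquiv (sx i, sy i)), ?_⟩
    intro i hi j hj hij
    have e1 := finProdFinEquiv.injective hij
    have e2 : s i = s j := congrArg Prod.fst e1
    have e3 := finProdFinEquiv.injective (congrArg Prod.snd e1)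
    have e4 : sx i = sx j := congrArg Prod.fst e3
    have e5 : sy i = sy j := congrArg Prod.snd e3
    refine ⟨hs i hi j hj e2, ?_, ?_⟩
    · refine Bd.congr (isOpen_disc 2) (fun z _ => ?_) (hsx i hi j hj e4)
      exact (dx_sub ((hc i hi).differentiable (by simp) z)
        ((hc j hj).differentiable (by simp) z)).symm
    · refine Bd.congr (isOpen_disc 2) (fun z _ => ?_) (hsy i hi j hj e5)
      exact (dy_sub ((hc i hi).differentiable (by simp) z)
        ((hc j hj).differentiable (by simp) z)).symm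

/-- uniform `C³` bounds from data at `0` and bounds on orders 2, 3 -/
lemma bd_of_OB {M ε : ℝ} (hM : 1 ≤ M) (hε : 0 < ε) (hε1 : ε ≤ 1) {f : ℝ × ℝ → ℝ}
    (hf : ContDiff ℝ 3 f) (h0 : f 0 = 0) (hx : |dx f 0| ≤ 1) (hy : |dy f 0| ≤ 1)
    (hO : OB M ε f) : Bd (disc 3) 3 (42 * M) f := by
  obtain ⟨o2, o3⟩ := hO
  have hz0 : (0 : ℝ × ℝ) ∈ disc 3 := by simp [disc]
  have e2 : M * ε ≤ M := by nlinarith
  have e3 : M * ε ^ 2 ≤ M := by
    have : ε ^ 2 ≤ 1 := pow_le_one₀ hε.le hε1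
    nlinarith
  have dxb : ∀ z ∈ disc 3, |dx f z| ≤ 7 * M := by
    intro z hz
    have h := abs_sub_le_disc (R := 3) (C := M) (D := M) ((Sm.of_contDiff (contDiff_dx (n := 2) hf)).of_le (by norm_num))
      (fun z hz => (o2 [true, true] rfl z hz).trans e2)
      (fun z hz => (o2 [false, true] rfl z hz).trans e2) z hz 0 hz0
    simp only [Prod.fst_zero, Prod.snd_zero, sub_zero] at h
    obtain ⟨z1, z2⟩ := disc_sub hz
    have : |dx f z| ≤ |dx f z - dx f 0| + |dx f 0| := by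
      have := abs_add_le (dx f z - dx f 0) (dx f 0)
      simpa using this
    nlinarith
  have dyb : ∀ z ∈ disc 3, |dy f z| ≤ 7 * M := by
    intro z hz
    have h := abs_sub_le_disc (R := 3) (C := M) (D := M) ((Sm.of_contDiff (contDiff_dy (n := 2) hf)).of_le (by norm_num))
      (fun z hz => (o2 [true, false] rfl z hz).trans e2)
      (fun z hz => (o2 [false, false] rfl z hz).trans e2) z hz 0 hz0
    simp only [Prod.fst_zero, Prod.snd_zero, sub_zero] at h
    obtain ⟨z1, z2⟩ := disc_sub hz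
    have : |dy f z| ≤ |dy f z - dy f 0| + |dy f 0| := by
      have := abs_add_le (dy f z - dy f 0) (dy f 0)
      simpa using this
    nlinarith
  have fb : ∀ z ∈ disc 3, |f z| ≤ 42 * M := by
    intro z hz
    have h := abs_sub_le_disc (R := 3) (C := 7 * M) (D := 7 * M)
      ((Sm.of_contDiff (n := 3) hf).of_le (by norm_num))
      dxb dyb z hz 0 hz0
    simp only [Prod.fst_zero, Prod.snd_zero, sub_zero, h0] at h
    obtain ⟨z1, z2⟩ := disc_sub hz
    nlinarith
  rw [Bd_iff_Dw]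
  intro w hw z hz
  match w, hw with
  | [], _ => exact fb z hz
  | [true], _ => exact (dxb z hz).trans (by linarith)
  | [false], _ => exact (dyb z hz).trans (by linarith)
  | [a, b], _ => exact (o2 [a, b] rfl z hz).trans (by linarith)
  | [a, b, c], _ => exact (o3 [a, b, c] rfl z hz).trans (by linarith)
  | (a :: b :: c :: d :: l), hw => exact absurd hw (by simp only [List.length_cons]; omega)

end ClassesAux

open ClassesAux in
open P229.ClassesAux (pigeon) in
theorem classes (M ε η : ℝ) (hM : 1 ≤ M) (hε : 0 < ε) (hε1 : ε ≤ 1) (hη : 0 < η) :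
    ∃ K0 : ℕ, ∀ {ι : Type} (S : Finset ι) (T : ι → Tri) (e0 : ℝ), |e0| ≤ 1 →
      (∀ i ∈ S, Nrm M ε e0 (T i)) →
      ∃ S' ⊆ S, S.card ≤ K0 * S'.card ∧ ∀ i ∈ S', ∀ j ∈ S', Close2 η (T i) (T j) := by
  obtain ⟨K, hK⟩ := sigBd 2 (42 * M) η (by linarith) hη
  refine ⟨K * (K * K), ?_⟩
  intro ι S T e0 he0 hN
  have z1 : |(0 : ℝ)| ≤ 1 := by simp
  obtain ⟨sa, ha⟩ := hK S (fun i => (T i).a) (fun i _ => (T i).ha) (fun i hi =>
    bd_of_OB hM hε hε1 (T i).ha (hN i hi).a0 (by rw [(hN i hi).ax]; exact he0)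
      (by rw [(hN i hi).ay]; exact z1) (hN i hi).oa)
  obtain ⟨sb, hb⟩ := hK S (fun i => (T i).b) (fun i _ => (T i).hb) (fun i hi =>
    bd_of_OB hM hε hε1 (T i).hb (hN i hi).b0 (by rw [(hN i hi).bx]; exact z1)
      (by rw [(hN i hi).by']; exact he0) (hN i hi).ob)
  obtain ⟨sh, hh⟩ := hK S (fun i => (T i).h) (fun i _ => (T i).hh) (fun i hi =>
    bd_of_OB hM hε hε1 (T i).hh (hN i hi).h0 (by rw [(hN i hi).hx]; exact z1)
      (by rw [(hN i hi).hy]; exact z1) (hN i hi).oh)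
  obtain ⟨S', hS', hcard, hsame⟩ := pigeon S (K * (K * K))
    (fun i => finProdFinEquiv (sa i, finProdFinEquiv (sb i, sh i)))
  refine ⟨S', hS', hcard, ?_⟩
  intro i hi j hj
  have e1 := finProdFinEquiv.injective (hsame i hi j hj)
  have e2 : sa i = sa j := congrArg Prod.fst e1
  have e3 := finProdFinEquiv.injective (congrArg Prod.snd e1)
  have e4 : sb i = sb j := congrArg Prod.fst e3
  have e5 : sh i = sh j := congrArg Prod.snd e3
  exact ⟨ha i (hS' hi) j (hS' hj) e2, hb i (hS' hi) j (hS' hj) e4, hh i (hS' hi) j (hS' hj) e5⟩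

end Vale.Agent.P229.C3
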