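import Vale.Agent.P229.C3.BdAlg
import Vale.Agent.P229.C3.Gauss

/-! P229, `C³` version, module F: closeness of the derived quantities for `C²`-close triples. -/

namespace Vale.Agent.P229.C3

open MeasureTheory Set
open scoped ContDiff

namespace CloseAux3

variable {P : Type*} {U : P → Set (ℝ × ℝ)} {η : P → ℝ} {k m : ℕ}
  {f g f' g' s t : P → ℝ × ℝ → ℝ}

/-- uniformly bounded families -/
def FB (U : P → Set (ℝ × ℝ)) (k : ℕ) (f : P → ℝ × ℝ → ℝ) : Prop :=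
  ∃ C : ℝ, 0 ≤ C ∧ ∀ p, Sm k (U p) (f p) ∧ Bd (U p) k C (f p)

/-- uniformly small families -/
def FS (U : P → Set (ℝ × ℝ)) (η : P → ℝ) (k : ℕ) (f : P → ℝ × ℝ → ℝ) : Prop :=
  ∃ C : ℝ, 0 ≤ C ∧ ∀ p, Sm k (U p) (f p) ∧ Bd (U p) k (C * η p) (f p)

theorem FB.congr (hU : ∀ p, IsOpen (U p)) (h : ∀ p, ∀ z ∈ U p, f p z = g p z) (hf : FB U k f) :
    FB U k g := by
  obtain ⟨C, hC, hf⟩ := hf
  exact ⟨C, hC, fun p => ⟨(hf p).1.congr fun z hz => (h p z hz).symm,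
    Bd.congr (hU p) (h p) (hf p).2⟩⟩

theorem FS.congr (hU : ∀ p, IsOpen (U p)) (h : ∀ p, ∀ z ∈ U p, f p z = g p z)
    (hf : FS U η k f) : FS U η k g := by
  obtain ⟨C, hC, hf⟩ := hf
  exact ⟨C, hC, fun p => ⟨(hf p).1.congr fun z hz => (h p z hz).symm,
    Bd.congr (hU p) (h p) (hf p).2⟩⟩

theorem FB.of_le (hf : FB U k f) (h : m ≤ k) : FB U m f := by
  obtain ⟨C, hC, hf⟩ := hf
  exact ⟨C, hC, fun p => ⟨(hf p).1.of_le h, (hf p).2.of_le h⟩⟩

theorem FS.of_le (hf : FS U η k f) (h : m ≤ k) : FS U η m f := by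
  obtain ⟨C, hC, hf⟩ := hf
  exact ⟨C, hC, fun p => ⟨(hf p).1.of_le h, (hf p).2.of_le h⟩⟩

theorem FB.const (c : ℝ) : FB U k (fun _ _ => c) :=
  ⟨|c|, abs_nonneg c, fun _ => ⟨Sm.const c, Bd.const le_rfl⟩⟩

theorem FS.zero : FS U η k (fun _ _ => 0) :=
  ⟨0, le_rfl, fun p => ⟨Sm.const 0, Bd.const (by rw [abs_zero, zero_mul])⟩⟩

theorem FB.add (hU : ∀ p, IsOpen (U p)) (hf : FB U k f) (hg : FB U k g) :
    FB U k (fun p z => f p z + g p z) := by
  obtain ⟨C, hC, hf⟩ := hf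
  obtain ⟨D, hD, hg⟩ := hg
  exact ⟨C + D, add_nonneg hC hD, fun p => ⟨(hf p).1.add (hg p).1,
    Bd_add (hU p) (hf p).1 (hg p).1 (hf p).2 (hg p).2⟩⟩

theorem FB.sub (hU : ∀ p, IsOpen (U p)) (hf : FB U k f) (hg : FB U k g) :
    FB U k (fun p z => f p z - g p z) := by
  obtain ⟨C, hC, hf⟩ := hf
  obtain ⟨D, hD, hg⟩ := hg
  exact ⟨C + D, add_nonneg hC hD, fun p => ⟨(hf p).1.sub (hg p).1,
    Bd_sub (hU p) (hf p).1 (hg p).1 (hf p).2 (hg p).2⟩⟩

theorem FB.mul (hU : ∀ p, IsOpen (U p)) (hf : FB U k f) (hg : FB U k g) :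
    FB U k (fun p z => f p z * g p z) := by
  obtain ⟨C, hC, hf⟩ := hf
  obtain ⟨D, hD, hg⟩ := hg
  exact ⟨2 ^ k * C * D, by positivity, fun p => ⟨(hf p).1.mul (hg p).1,
    Bd_mul (hU p) (hf p).1 (hg p).1 (hf p).2 (hg p).2⟩⟩

theorem FB.dx (hU : ∀ p, IsOpen (U p)) (hf : FB U (k + 1) f) :
    FB U k (fun p => P229.dx (f p)) := by
  obtain ⟨C, hC, hf⟩ := hf
  exact ⟨C, hC, fun p => ⟨(hf p).1.dx (hU p), (hf p).2.dx⟩⟩

theorem FB.dy (hU : ∀ p, IsOpen (U p)) (hf : FB U (k + 1) f) :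
    FB U k (fun p => P229.dy (f p)) := by
  obtain ⟨C, hC, hf⟩ := hf
  exact ⟨C, hC, fun p => ⟨(hf p).1.dy (hU p), (hf p).2.dy⟩⟩

theorem FB.br (hU : ∀ p, IsOpen (U p)) (hf : FB U (k + 1) f) (hg : FB U (k + 1) g) :
    FB U k (fun p => P229.br (f p) (g p)) :=
  ((hf.dx hU).mul hU (hg.dy hU)).sub hU ((hf.dy hU).mul hU (hg.dx hU))

theorem FB.recip (hU : ∀ p, IsOpen (U p)) {c : ℝ} (hc : 0 < c) (hg : FB U k g)
    (h0 : ∀ p, ∀ z ∈ U p, c ≤ g p z) : FB U k (fun p z => 1 / g p z) := by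
  obtain ⟨C, hC, hg⟩ := hg
  obtain ⟨D, hD, h⟩ := BdAux3.recip k C c hc
  exact ⟨D, hD.le, fun p => ⟨(Sm.const 1).div (hg p).1
    (fun z hz => (hc.trans_le (h0 p z hz)).ne'), h (U p) (g p) (hU p) (hg p).1 (hg p).2 (h0 p)⟩⟩

theorem FB.div (hU : ∀ p, IsOpen (U p)) {c : ℝ} (hc : 0 < c) (hf : FB U k f) (hg : FB U k g)
    (h0 : ∀ p, ∀ z ∈ U p, c ≤ g p z) : FB U k (fun p z => f p z / g p z) := by
  refine (hf.mul hU (hg.recip hU hc h0)).congr hU fun p z _ => ?_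
  ring

theorem FS.add (hU : ∀ p, IsOpen (U p)) (hf : FS U η k f) (hg : FS U η k g) :
    FS U η k (fun p z => f p z + g p z) := by
  obtain ⟨C, hC, hf⟩ := hf
  obtain ⟨D, hD, hg⟩ := hg
  refine ⟨C + D, add_nonneg hC hD, fun p => ⟨(hf p).1.add (hg p).1, ?_⟩⟩
  rw [add_mul]
  exact Bd_add (hU p) (hf p).1 (hg p).1 (hf p).2 (hg p).2

theorem FS.sub (hU : ∀ p, IsOpen (U p)) (hf : FS U η k f) (hg : FS U η k g) :
    FS U η k (fun p z => f p z - g p z) := by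
  obtain ⟨C, hC, hf⟩ := hf
  obtain ⟨D, hD, hg⟩ := hg
  refine ⟨C + D, add_nonneg hC hD, fun p => ⟨(hf p).1.sub (hg p).1, ?_⟩⟩
  rw [add_mul]
  exact Bd_sub (hU p) (hf p).1 (hg p).1 (hf p).2 (hg p).2

theorem FS.mul (hU : ∀ p, IsOpen (U p)) (hf : FS U η k f) (hg : FB U k g) :
    FS U η k (fun p z => f p z * g p z) := by
  obtain ⟨C, hC, hf⟩ := hf
  obtain ⟨D, hD, hg⟩ := hg
  refine ⟨2 ^ k * C * D, by positivity, fun p => ⟨(hf p).1.mul (hg p).1, ?_⟩⟩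
  have h := Bd_mul (hU p) (hf p).1 (hg p).1 (hf p).2 (hg p).2
  have e : 2 ^ k * (C * η p) * D = 2 ^ k * C * D * η p := by ring
  rw [e] at h
  exact h

/-- product of two families that are small in `C⁰` and bounded in `C¹` -/
theorem FS.mul_small (hU : ∀ p, IsOpen (U p)) (hη : ∀ p, 0 ≤ η p) (hs : FS U η 0 s)
    (ht : FS U η 0 t) (hs1 : FB U 1 s) (ht1 : FB U 1 t) :
    FS U η 1 (fun p z => s p z * t p z) := by
  obtain ⟨A, hA, hs⟩ := hs
  obtain ⟨B, hB, ht⟩ := ht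
  obtain ⟨C, hC, hs1⟩ := hs1
  obtain ⟨D, hD, ht1⟩ := ht1
  refine ⟨A * D + C * B, by positivity, fun p => ⟨(hs1 p).1.mul (ht1 p).1, ?_⟩⟩
  have bs : ∀ z ∈ U p, |s p z| ≤ A * η p := (hs p).2
  have bt : ∀ z ∈ U p, |t p z| ≤ B * η p := (ht p).2
  have bs1 := (hs1 p).2
  have bt1 := (ht1 p).2
  have hη' := hη p
  refine ⟨fun z hz => ?_, fun z hz => ?_, fun z hz => ?_⟩
  · have h1 := bs z hz
    have h2 : |t p z| ≤ D := bt1.1 z hz
    rw [abs_mul]
    have h3 : |s p z| * |t p z| ≤ (A * η p) * D := mul_le_mul h1 h2 (abs_nonneg _) (by positivity)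
    have h4 : 0 ≤ C * B * η p := by positivity
    linarith
  · rw [dx_mul (Sm.diff (n := 0) (hU p) (hs1 p).1 hz) (Sm.diff (n := 0) (hU p) (ht1 p).1 hz)]
    refine (abs_add_le _ _).trans ?_
    rw [abs_mul, abs_mul]
    have h1 : |dx (s p) z| * |t p z| ≤ C * (B * η p) :=
      mul_le_mul (bs1.2.1 z hz) (bt z hz) (abs_nonneg _) hC
    have h2 : |s p z| * |dx (t p) z| ≤ (A * η p) * D :=
      mul_le_mul (bs z hz) (bt1.2.1 z hz) (abs_nonneg _) (by positivity)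
    linarith
  · rw [dy_mul (Sm.diff (n := 0) (hU p) (hs1 p).1 hz) (Sm.diff (n := 0) (hU p) (ht1 p).1 hz)]
    refine (abs_add_le _ _).trans ?_
    rw [abs_mul, abs_mul]
    have h1 : |dy (s p) z| * |t p z| ≤ C * (B * η p) :=
      mul_le_mul (bs1.2.2 z hz) (bt z hz) (abs_nonneg _) hC
    have h2 : |s p z| * |dy (t p) z| ≤ (A * η p) * D :=
      mul_le_mul (bs z hz) (bt1.2.2 z hz) (abs_nonneg _) (by positivity)
    linarith

/-- close families -/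
def FC (U : P → Set (ℝ × ℝ)) (η : P → ℝ) (k : ℕ) (f g : P → ℝ × ℝ → ℝ) : Prop :=
  FS U η k (fun p z => f p z - g p z)

theorem FC.refl (hU : ∀ p, IsOpen (U p)) : FC U η k f f :=
  FS.zero.congr hU fun p z _ => by ring

theorem FC.of_le (h : FC U η k f g) (hm : m ≤ k) : FC U η m f g := FS.of_le h hm

theorem FC.dx (hU : ∀ p, IsOpen (U p)) (hf : FB U (k + 1) f) (hg : FB U (k + 1) g)
    (h : FC U η (k + 1) f g) : FC U η k (fun p => P229.dx (f p)) (fun p => P229.dx (g p)) := by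
  obtain ⟨C, hC, h⟩ := h
  obtain ⟨_, _, hf⟩ := hf
  obtain ⟨_, _, hg⟩ := hg
  refine FS.congr (f := fun p => P229.dx (fun z => f p z - g p z)) hU (fun p z hz => ?_)
    ⟨C, hC, fun p => ⟨(h p).1.dx (hU p), (h p).2.dx⟩⟩
  exact dx_sub ((hf p).1.diff (hU p) hz) ((hg p).1.diff (hU p) hz)

theorem FC.dy (hU : ∀ p, IsOpen (U p)) (hf : FB U (k + 1) f) (hg : FB U (k + 1) g)
    (h : FC U η (k + 1) f g) : FC U η k (fun p => P229.dy (f p)) (fun p => P229.dy (g p)) := by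
  obtain ⟨C, hC, h⟩ := h
  obtain ⟨_, _, hf⟩ := hf
  obtain ⟨_, _, hg⟩ := hg
  refine FS.congr (f := fun p => P229.dy (fun z => f p z - g p z)) hU (fun p z hz => ?_)
    ⟨C, hC, fun p => ⟨(h p).1.dy (hU p), (h p).2.dy⟩⟩
  exact dy_sub ((hf p).1.diff (hU p) hz) ((hg p).1.diff (hU p) hz)

theorem FC.add (hU : ∀ p, IsOpen (U p)) (h : FC U η k f f') (h' : FC U η k g g') :
    FC U η k (fun p z => f p z + g p z) (fun p z => f' p z + g' p z) :=
  (FS.add hU h h').congr hU fun p z _ => by ring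

theorem FC.sub (hU : ∀ p, IsOpen (U p)) (h : FC U η k f f') (h' : FC U η k g g') :
    FC U η k (fun p z => f p z - g p z) (fun p z => f' p z - g' p z) :=
  (FS.sub hU h h').congr hU fun p z _ => by ring

theorem FC.mul (hU : ∀ p, IsOpen (U p)) (hg : FB U k g) (hf' : FB U k f') (h : FC U η k f f')
    (h' : FC U η k g g') : FC U η k (fun p z => f p z * g p z) (fun p z => f' p z * g' p z) :=
  (FS.add hU (FS.mul hU h hg) (FS.mul hU h' hf')).congr hU fun p z _ => by ring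

theorem FC.div (hU : ∀ p, IsOpen (U p)) {c : ℝ} (hc : 0 < c) (hf' : FB U k f') (hg : FB U k g)
    (hg' : FB U k g') (h0 : ∀ p, ∀ z ∈ U p, c ≤ g p z) (h0' : ∀ p, ∀ z ∈ U p, c ≤ g' p z)
    (h : FC U η k f f') (h' : FC U η k g g') :
    FC U η k (fun p z => f p z / g p z) (fun p z => f' p z / g' p z) := by
  have r := hg.recip hU hc h0
  have r' := hg'.recip hU hc h0'
  refine (FS.sub hU (FS.mul hU h r) (FS.mul hU h' (hf'.mul hU (r.mul hU r')))).congr hU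
    fun p z hz => ?_
  have n1 : g p z ≠ 0 := (hc.trans_le (h0 p z hz)).ne'
  have n2 : g' p z ≠ 0 := (hc.trans_le (h0' p z hz)).ne'
  field_simp
  ring

theorem FC.br (hU : ∀ p, IsOpen (U p)) (hf : FB U (k + 1) f) (hf' : FB U (k + 1) f')
    (hg : FB U (k + 1) g) (hg' : FB U (k + 1) g') (h : FC U η (k + 1) f f')
    (h' : FC U η (k + 1) g g') :
    FC U η k (fun p => P229.br (f p) (g p)) (fun p => P229.br (f' p) (g' p)) :=
  FC.sub hU
    (FC.mul hU (hg.dy hU) (hf'.dx hU) (FC.dx hU hf hf' h) (FC.dy hU hg hg' h'))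
    (FC.mul hU (hg.dx hU) (hf'.dy hU) (FC.dy hU hf hf' h) (FC.dx hU hg hg' h'))

/-! ### families of triples -/

section Triples

variable {M ε C0 j0 : ℝ} {τ τ' σ σ' : P → Tri}

theorem FBa' (hC : 0 < C0) (hsub : ∀ p, U p ⊆ disc 2) (hB : ∀ p, Basic M ε C0 j0 (τ p)) :
    FB U 3 (fun p => (τ p).a) :=
  ⟨C0, hC.le, fun p => ⟨(τ p).ha.contDiffOn, (hB p).bda.mono (hsub p) le_rfl⟩⟩

theorem FBb' (hC : 0 < C0) (hsub : ∀ p, U p ⊆ disc 2) (hB : ∀ p, Basic M ε C0 j0 (τ p)) :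
    FB U 3 (fun p => (τ p).b) :=
  ⟨C0, hC.le, fun p => ⟨(τ p).hb.contDiffOn, (hB p).bdb.mono (hsub p) le_rfl⟩⟩

theorem FBh' (hC : 0 < C0) (hsub : ∀ p, U p ⊆ disc 2) (hB : ∀ p, Basic M ε C0 j0 (τ p)) :
    FB U 3 (fun p => (τ p).h) :=
  ⟨C0, hC.le, fun p => ⟨(τ p).hh.contDiffOn, (hB p).bdh.mono (hsub p) le_rfl⟩⟩

theorem FBp' (hC : 0 < C0) (hsub : ∀ p, U p ⊆ disc 2) (hB : ∀ p, Basic M ε C0 j0 (τ p)) :
    FB U 2 (fun p => pf (τ p)) :=
  ⟨C0, hC.le, fun p => ⟨(hB p).sp.mono (hsub p), (hB p).bdp.mono (hsub p) le_rfl⟩⟩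

theorem FBP' (hC : 0 < C0) (hsub : ∀ p, U p ⊆ disc 2) (hB : ∀ p, Basic M ε C0 j0 (τ p)) :
    FB U 2 (fun p => Pf (τ p)) :=
  ⟨C0, hC.le, fun p => ⟨(hB p).reg.sP.mono (hsub p), (hB p).bdP.mono (hsub p) le_rfl⟩⟩

theorem FBk' (hC : 0 < C0) (hsub : ∀ p, U p ⊆ disc 2) (hB : ∀ p, Basic M ε C0 j0 (τ p)) :
    FB U 1 (fun p => kf (τ p)) :=
  ⟨C0, hC.le, fun p => ⟨(hB p).reg.sk.mono (hsub p), (hB p).bdk.mono (hsub p) le_rfl⟩⟩

/-- closeness of two families of triples -/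
structure TC (U : P → Set (ℝ × ℝ)) (η : P → ℝ) (τ τ' : P → Tri) : Prop where
  a : FC U η 2 (fun p => (τ p).a) (fun p => (τ' p).a)
  b : FC U η 2 (fun p => (τ p).b) (fun p => (τ' p).b)
  h : FC U η 2 (fun p => (τ p).h) (fun p => (τ' p).h)

/-- boundedness of a family of triples -/
structure TB (U : P → Set (ℝ × ℝ)) (τ : P → Tri) : Prop where
  a : FB U 3 (fun p => (τ p).a)
  b : FB U 3 (fun p => (τ p).b)
  h : FB U 3 (fun p => (τ p).h)
  J : ∀ p, ∀ z ∈ U p, 9 / 10 ≤ br (τ p).a (τ p).b z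

theorem TB.of (hC : 0 < C0) (hsub : ∀ p, U p ⊆ disc 2) (hB : ∀ p, Basic M ε C0 j0 (τ p)) :
    TB U τ :=
  ⟨FBa' hC hsub hB, FBb' hC hsub hB, FBh' hC hsub hB, fun p z hz => (hB p).J0l z (hsub p hz)⟩

theorem FBJ' (hU : ∀ p, IsOpen (U p)) (h : TB U τ) : FB U 2 (fun p => br (τ p).a (τ p).b) :=
  FB.br hU h.a h.b

theorem FCJ' (hU : ∀ p, IsOpen (U p)) (h : TB U τ) (h' : TB U τ') (hc : TC U η τ τ') :
    FC U η 1 (fun p => br (τ p).a (τ p).b) (fun p => br (τ' p).a (τ' p).b) :=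
  FC.br hU (h.a.of_le (by norm_num)) (h'.a.of_le (by norm_num)) (h.b.of_le (by norm_num))
    (h'.b.of_le (by norm_num)) hc.a hc.b

theorem FCP' (hU : ∀ p, IsOpen (U p)) (h : TB U τ) (h' : TB U τ') (hc : TC U η τ τ') :
    FC U η 1 (fun p => Pf (τ p)) (fun p => Pf (τ' p)) :=
  FC.div hU (show (0 : ℝ) < 9 / 10 by norm_num)
    ((FB.br hU h'.a h'.h).of_le (by norm_num))
    ((FBJ' hU h).of_le (by norm_num)) ((FBJ' hU h').of_le (by norm_num)) h.J h'.J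
    (FC.br hU (h.a.of_le (by norm_num)) (h'.a.of_le (by norm_num)) (h.h.of_le (by norm_num))
      (h'.h.of_le (by norm_num)) hc.a hc.h) (FCJ' hU h h' hc)

theorem FCp' (hU : ∀ p, IsOpen (U p)) (h : TB U τ) (h' : TB U τ') (hc : TC U η τ τ') :
    FC U η 1 (fun p => pf (τ p)) (fun p => pf (τ' p)) :=
  FC.div hU (show (0 : ℝ) < 9 / 10 by norm_num)
    ((FB.br hU h'.h h'.b).of_le (by norm_num))
    ((FBJ' hU h).of_le (by norm_num)) ((FBJ' hU h').of_le (by norm_num)) h.J h'.J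
    (FC.br hU (h.h.of_le (by norm_num)) (h'.h.of_le (by norm_num)) (h.b.of_le (by norm_num))
      (h'.b.of_le (by norm_num)) hc.h hc.b) (FCJ' hU h h' hc)

theorem FCk' (hU : ∀ p, IsOpen (U p)) (h : TB U τ) (h' : TB U τ') (hc : TC U η τ τ')
    (hp : FB U 2 (fun p => pf (τ p))) (hp' : FB U 2 (fun p => pf (τ' p)))
    (hP : FB U 2 (fun p => Pf (τ p))) (hP' : FB U 2 (fun p => Pf (τ' p))) :
    FC U η 0 (fun p => kf (τ p)) (fun p => kf (τ' p)) :=
  FC.div hU (show (0 : ℝ) < 9 / 10 by norm_num)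
    ((FB.br hU hp' hP').of_le (by norm_num))
    ((FBJ' hU h).of_le (by norm_num)) ((FBJ' hU h').of_le (by norm_num)) h.J h'.J
    (FC.br hU (hp.of_le (by norm_num)) (hp'.of_le (by norm_num)) (hP.of_le (by norm_num))
      (hP'.of_le (by norm_num)) (FCp' hU h h' hc) (FCP' hU h h' hc))
    ((FCJ' hU h h' hc).of_le (by norm_num))

end Triples

end CloseAux3

open CloseAux3

/-- parameters of `close_facts` -/
structure CloseDat (M ε C0 j0 : ℝ) where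
  T : Tri
  T' : Tri
  η : ℝ
  hη : 0 ≤ η
  hB : Basic M ε C0 j0 T
  hB' : Basic M ε C0 j0 T'
  hc : Close2 η T T'

theorem close_facts (M ε C0 j0 : ℝ) (hM : 1 ≤ M) (hε : 0 < ε) (hC : 0 < C0) (hj : 0 < j0) :
    ∃ C : ℝ, 0 < C ∧ ∀ (T T' : Tri) (η : ℝ), 0 ≤ η → Basic M ε C0 j0 T → Basic M ε C0 j0 T' →
      Close2 η T T' → ∀ z ∈ disc 2, |Pf T z - Pf T' z| ≤ C * η ∧ |kf T z - kf T' z| ≤ C * η := by
  have hU : ∀ _ : CloseDat M ε C0 j0, IsOpen (disc 2) := fun _ => isOpen_disc 2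
  have hsub : ∀ _ : CloseDat M ε C0 j0, disc 2 ⊆ disc 2 := fun _ => subset_rfl
  have hB : ∀ p : CloseDat M ε C0 j0, Basic M ε C0 j0 p.T := fun p => p.hB
  have hB' : ∀ p : CloseDat M ε C0 j0, Basic M ε C0 j0 p.T' := fun p => p.hB'
  have b := TB.of hC hsub hB
  have b' := TB.of hC hsub hB'
  have hc : TC (fun _ : CloseDat M ε C0 j0 => disc 2) (fun p => p.η) (fun p => p.T)
      (fun p => p.T') := by
    refine ⟨⟨1, zero_le_one, fun p => ⟨?_, ?_⟩⟩, ⟨1, zero_le_one, fun p => ⟨?_, ?_⟩⟩,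
      ⟨1, zero_le_one, fun p => ⟨?_, ?_⟩⟩⟩
    · exact ((p.T.ha.sub p.T'.ha).contDiffOn).of_le (by norm_cast)
    · rw [one_mul]; exact p.hc.1
    · exact ((p.T.hb.sub p.T'.hb).contDiffOn).of_le (by norm_cast)
    · rw [one_mul]; exact p.hc.2.1
    · exact ((p.T.hh.sub p.T'.hh).contDiffOn).of_le (by norm_cast)
    · rw [one_mul]; exact p.hc.2.2
  obtain ⟨D1, hD1, h1⟩ := FCP' hU b b' hc
  obtain ⟨D2, hD2, h2⟩ := FCk' hU b b' hc (FBp' hC hsub hB) (FBp' hC hsub hB')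
    (FBP' hC hsub hB) (FBP' hC hsub hB')
  refine ⟨D1 + D2 + 1, by positivity, fun T T' η hη hB hB' hc z hz => ?_⟩
  have k1 := (h1 ⟨T, T', η, hη, hB, hB', hc⟩).2.bound hz
  have k2 := (h2 ⟨T, T', η, hη, hB, hB', hc⟩).2.bound hz
  have m1 : 0 ≤ D1 * η := mul_nonneg hD1 hη
  have m2 : 0 ≤ D2 * η := mul_nonneg hD2 hη
  refine ⟨k1.trans ?_, k2.trans ?_⟩ <;> simp only <;> linarith

namespace CloseAux3

variable {P : Type*} {U : P → Set (ℝ × ℝ)} {η : P → ℝ} {τ τ' σ σ' : P → Tri}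

/-- second fundamental form of `T` with respect to the normal of `S` -/
noncomputable def lX (T S : Tri) : ℝ × ℝ → ℝ := fun z =>
  dx (dx T.a) z * n1 S z + dx (dx T.b) z * n2 S z + dx (dx T.h) z * n3 S z
noncomputable def lM (T S : Tri) : ℝ × ℝ → ℝ := fun z =>
  dx (dy T.a) z * n1 S z + dx (dy T.b) z * n2 S z + dx (dy T.h) z * n3 S z
noncomputable def lY (T S : Tri) : ℝ × ℝ → ℝ := fun z =>
  dy (dy T.a) z * n1 S z + dy (dy T.b) z * n2 S z + dy (dy T.h) z * n3 S z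

/-- determinant -/
noncomputable def Q (T S : Tri) : ℝ × ℝ → ℝ := fun z =>
  lX T S z * lY T S z - lM T S z * lM T S z

theorem FBn1 (hU : ∀ p, IsOpen (U p)) (h : TB U τ) : FB U 2 (fun p => n1 (τ p)) :=
  ((h.b.dx hU).mul hU (h.h.dy hU)).sub hU ((h.h.dx hU).mul hU (h.b.dy hU))
theorem FBn2 (hU : ∀ p, IsOpen (U p)) (h : TB U τ) : FB U 2 (fun p => n2 (τ p)) :=
  ((h.h.dx hU).mul hU (h.a.dy hU)).sub hU ((h.a.dx hU).mul hU (h.h.dy hU))
theorem FBn3 (hU : ∀ p, IsOpen (U p)) (h : TB U τ) : FB U 2 (fun p => n3 (τ p)) :=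
  ((h.a.dx hU).mul hU (h.b.dy hU)).sub hU ((h.b.dx hU).mul hU (h.a.dy hU))

/-- closeness of all first derivatives -/
structure TD (U : P → Set (ℝ × ℝ)) (η : P → ℝ) (k : ℕ) (f g : P → ℝ × ℝ → ℝ) : Prop where
  bx : FB U k (fun p => dx (f p))
  by' : FB U k (fun p => dy (f p))
  bx' : FB U k (fun p => dx (g p))
  by'' : FB U k (fun p => dy (g p))
  x : FC U η k (fun p => dx (f p)) (fun p => dx (g p))
  y : FC U η k (fun p => dy (f p)) (fun p => dy (g p))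

theorem TD.of {k : ℕ} {f g : P → ℝ × ℝ → ℝ} (hU : ∀ p, IsOpen (U p)) (hf : FB U (k + 1) f)
    (hg : FB U (k + 1) g) (h : FC U η (k + 1) f g) : TD U η k f g :=
  ⟨hf.dx hU, hf.dy hU, hg.dx hU, hg.dy hU, FC.dx hU hf hg h, FC.dy hU hf hg h⟩

theorem FCn1 (hU : ∀ p, IsOpen (U p)) (h : TB U σ) (h' : TB U σ') (hc : TC U η σ σ') :
    FC U η 1 (fun p => n1 (σ p)) (fun p => n1 (σ' p)) := by
  have b := TD.of hU (h.b.of_le (m := 2) (by norm_num)) (h'.b.of_le (by norm_num)) hc.b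
  have c := TD.of hU (h.h.of_le (m := 2) (by norm_num)) (h'.h.of_le (by norm_num)) hc.h
  exact FC.sub hU (FC.mul hU c.by' b.bx' b.x c.y) (FC.mul hU b.by' c.bx' c.x b.y)

theorem FCn2 (hU : ∀ p, IsOpen (U p)) (h : TB U σ) (h' : TB U σ') (hc : TC U η σ σ') :
    FC U η 1 (fun p => n2 (σ p)) (fun p => n2 (σ' p)) := by
  have b := TD.of hU (h.a.of_le (m := 2) (by norm_num)) (h'.a.of_le (by norm_num)) hc.a
  have c := TD.of hU (h.h.of_le (m := 2) (by norm_num)) (h'.h.of_le (by norm_num)) hc.h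
  exact FC.sub hU (FC.mul hU b.by' c.bx' c.x b.y) (FC.mul hU c.by' b.bx' b.x c.y)

theorem FCn3 (hU : ∀ p, IsOpen (U p)) (h : TB U σ) (h' : TB U σ') (hc : TC U η σ σ') :
    FC U η 1 (fun p => n3 (σ p)) (fun p => n3 (σ' p)) := by
  have b := TD.of hU (h.a.of_le (m := 2) (by norm_num)) (h'.a.of_le (by norm_num)) hc.a
  have c := TD.of hU (h.b.of_le (m := 2) (by norm_num)) (h'.b.of_le (by norm_num)) hc.b
  exact FC.sub hU (FC.mul hU c.by' b.bx' b.x c.y) (FC.mul hU b.by' c.bx' c.x b.y)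

theorem FBlX (hU : ∀ p, IsOpen (U p)) (h : TB U τ) (h' : TB U σ) :
    FB U 1 (fun p => lX (τ p) (σ p)) :=
  (((((h.a.dx hU).dx hU).mul hU ((FBn1 hU h').of_le (by norm_num))).add hU
    (((h.b.dx hU).dx hU).mul hU ((FBn2 hU h').of_le (by norm_num)))).add hU
    (((h.h.dx hU).dx hU).mul hU ((FBn3 hU h').of_le (by norm_num))))
theorem FBlM (hU : ∀ p, IsOpen (U p)) (h : TB U τ) (h' : TB U σ) :
    FB U 1 (fun p => lM (τ p) (σ p)) :=
  (((((h.a.dy hU).dx hU).mul hU ((FBn1 hU h').of_le (by norm_num))).add hU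
    (((h.b.dy hU).dx hU).mul hU ((FBn2 hU h').of_le (by norm_num)))).add hU
    (((h.h.dy hU).dx hU).mul hU ((FBn3 hU h').of_le (by norm_num))))
theorem FBlY (hU : ∀ p, IsOpen (U p)) (h : TB U τ) (h' : TB U σ) :
    FB U 1 (fun p => lY (τ p) (σ p)) :=
  (((((h.a.dy hU).dy hU).mul hU ((FBn1 hU h').of_le (by norm_num))).add hU
    (((h.b.dy hU).dy hU).mul hU ((FBn2 hU h').of_le (by norm_num)))).add hU
    (((h.h.dy hU).dy hU).mul hU ((FBn3 hU h').of_le (by norm_num))))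

theorem FBQ (hU : ∀ p, IsOpen (U p)) (h : TB U τ) (h' : TB U σ) :
    FB U 1 (fun p => Q (τ p) (σ p)) :=
  ((FBlX hU h h').mul hU (FBlY hU h h')).sub hU ((FBlM hU h h').mul hU (FBlM hU h h'))

/-- changing the normal: `C¹`-closeness -/
theorem FC_lin {A B H N1 N2 N3 N1' N2' N3' : P → ℝ × ℝ → ℝ} (hU : ∀ p, IsOpen (U p))
    (hA : FB U 1 A) (hB : FB U 1 B) (hH : FB U 1 H) (h1 : FB U 1 N1) (h2 : FB U 1 N2)
    (h3 : FB U 1 N3) (c1 : FC U η 1 N1 N1') (c2 : FC U η 1 N2 N2') (c3 : FC U η 1 N3 N3') :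
    FC U η 1 (fun p z => A p z * N1 p z + B p z * N2 p z + H p z * N3 p z)
      (fun p z => A p z * N1' p z + B p z * N2' p z + H p z * N3' p z) :=
  FC.add hU (FC.add hU (FC.mul hU h1 hA (FC.refl hU) c1) (FC.mul hU h2 hB (FC.refl hU) c2))
    (FC.mul hU h3 hH (FC.refl hU) c3)

theorem FCQ (hU : ∀ p, IsOpen (U p)) (h : TB U τ) (h1 : TB U σ) (h2 : TB U σ')
    (hc : TC U η σ σ') : FC U η 1 (fun p => Q (τ p) (σ p)) (fun p => Q (τ p) (σ' p)) := by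
  have c1 := FCn1 hU h1 h2 hc
  have c2 := FCn2 hU h1 h2 hc
  have c3 := FCn3 hU h1 h2 hc
  have b1 := (FBn1 hU h1).of_le (m := 1) (by norm_num)
  have b2 := (FBn2 hU h1).of_le (m := 1) (by norm_num)
  have b3 := (FBn3 hU h1).of_le (m := 1) (by norm_num)
  have cX : FC U η 1 (fun p => lX (τ p) (σ p)) (fun p => lX (τ p) (σ' p)) :=
    FC_lin hU ((h.a.dx hU).dx hU) ((h.b.dx hU).dx hU) ((h.h.dx hU).dx hU) b1 b2 b3 c1 c2 c3
  have cM : FC U η 1 (fun p => lM (τ p) (σ p)) (fun p => lM (τ p) (σ' p)) :=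
    FC_lin hU ((h.a.dy hU).dx hU) ((h.b.dy hU).dx hU) ((h.h.dy hU).dx hU) b1 b2 b3 c1 c2 c3
  have cY : FC U η 1 (fun p => lY (τ p) (σ p)) (fun p => lY (τ p) (σ' p)) :=
    FC_lin hU ((h.a.dy hU).dy hU) ((h.b.dy hU).dy hU) ((h.h.dy hU).dy hU) b1 b2 b3 c1 c2 c3
  exact FC.sub hU (FC.mul hU (FBlY hU h h1) (FBlX hU h h2) cX cY)
    (FC.mul hU (FBlM hU h h1) (FBlM hU h h2) cM cM)

/-- changing the surface: `C⁰`-closeness -/
theorem FC_lin0 {A B H A' B' H' N1 N2 N3 : P → ℝ × ℝ → ℝ} (hU : ∀ p, IsOpen (U p))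
    (hA : FB U 0 A') (hB : FB U 0 B') (hH : FB U 0 H') (h1 : FB U 0 N1) (h2 : FB U 0 N2)
    (h3 : FB U 0 N3) (c1 : FC U η 0 A A') (c2 : FC U η 0 B B') (c3 : FC U η 0 H H') :
    FC U η 0 (fun p z => A p z * N1 p z + B p z * N2 p z + H p z * N3 p z)
      (fun p z => A' p z * N1 p z + B' p z * N2 p z + H' p z * N3 p z) :=
  FC.add hU (FC.add hU (FC.mul hU h1 hA c1 (FC.refl hU)) (FC.mul hU h2 hB c2 (FC.refl hU)))
    (FC.mul hU h3 hH c3 (FC.refl hU))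

/-- closeness of second derivatives -/
theorem FC_second {f g : P → ℝ × ℝ → ℝ} (hU : ∀ p, IsOpen (U p)) (hf : FB U 3 f) (hg : FB U 3 g)
    (h : FC U η 2 f g) :
    FC U η 0 (fun p => dx (dx (f p))) (fun p => dx (dx (g p))) ∧
    FC U η 0 (fun p => dx (dy (f p))) (fun p => dx (dy (g p))) ∧
    FC U η 0 (fun p => dy (dy (f p))) (fun p => dy (dy (g p))) := by
  have d := TD.of hU (hf.of_le (m := 2) (by norm_num)) (hg.of_le (by norm_num)) h
  exact ⟨FC.dx hU d.bx d.bx' d.x, FC.dx hU d.by' d.by'' d.y, FC.dy hU d.by' d.by'' d.y⟩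

/-- `Q` of the difference is `C¹`-small -/
theorem FSdiff (hU : ∀ p, IsOpen (U p)) (hη : ∀ p, 0 ≤ η p) (h : TB U τ) (h' : TB U τ')
    (h1 : TB U σ) (hc : TC U η τ τ') :
    FS U η 1 (fun p z => (lX (τ p) (σ p) z - lX (τ' p) (σ p) z) *
      (lY (τ p) (σ p) z - lY (τ' p) (σ p) z) - (lM (τ p) (σ p) z - lM (τ' p) (σ p) z) *
      (lM (τ p) (σ p) z - lM (τ' p) (σ p) z)) := by
  have b1 := (FBn1 hU h1).of_le (m := 0) (by norm_num)
  have b2 := (FBn2 hU h1).of_le (m := 0) (by norm_num)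
  have b3 := (FBn3 hU h1).of_le (m := 0) (by norm_num)
  obtain ⟨ax, am, ay⟩ := FC_second hU h.a h'.a hc.a
  obtain ⟨bx, bm, by'⟩ := FC_second hU h.b h'.b hc.b
  obtain ⟨hx, hm, hy⟩ := FC_second hU h.h h'.h hc.h
  have cX : FC U η 0 (fun p => lX (τ p) (σ p)) (fun p => lX (τ' p) (σ p)) :=
    FC_lin0 hU (((h'.a.dx hU).dx hU).of_le (by norm_num)) (((h'.b.dx hU).dx hU).of_le (by norm_num))
      (((h'.h.dx hU).dx hU).of_le (by norm_num)) b1 b2 b3 ax bx hx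
  have cM : FC U η 0 (fun p => lM (τ p) (σ p)) (fun p => lM (τ' p) (σ p)) :=
    FC_lin0 hU (((h'.a.dy hU).dx hU).of_le (by norm_num)) (((h'.b.dy hU).dx hU).of_le (by norm_num))
      (((h'.h.dy hU).dx hU).of_le (by norm_num)) b1 b2 b3 am bm hm
  have cY : FC U η 0 (fun p => lY (τ p) (σ p)) (fun p => lY (τ' p) (σ p)) :=
    FC_lin0 hU (((h'.a.dy hU).dy hU).of_le (by norm_num)) (((h'.b.dy hU).dy hU).of_le (by norm_num))
      (((h'.h.dy hU).dy hU).of_le (by norm_num)) b1 b2 b3 ay by' hy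
  have dX := (FBlX hU h h1).sub hU (FBlX hU h' h1)
  have dM := (FBlM hU h h1).sub hU (FBlM hU h' h1)
  have dY := (FBlY hU h h1).sub hU (FBlY hU h' h1)
  exact FS.sub hU (FS.mul_small hU hη cX cY dX dY) (FS.mul_small hU hη cM cM dM dM)

/-! ### the mean -/

theorem dd {f : ℝ × ℝ → ℝ} (hf : ContDiff ℝ 3 f) (z : ℝ × ℝ) : DifferentiableAt ℝ f z :=
  (hf.differentiable (by simp)) z

theorem dx_mean {f g : ℝ × ℝ → ℝ} (hf : Differentiable ℝ f) (hg : Differentiable ℝ g) :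
    dx (fun z => (f z + g z) / 2) = fun z => (dx f z + dx g z) / 2 := by
  funext z
  have e : (fun z => (f z + g z) / 2) = fun z => (1 / 2) * (f z + g z) := by
    funext w; ring
  have h1 : DifferentiableAt ℝ (fun z => f z + g z) z := (hf z).add (hg z)
  rw [e, dx_const_mul _ h1, dx_add (hf z) (hg z)]
  ring

theorem dy_mean {f g : ℝ × ℝ → ℝ} (hf : Differentiable ℝ f) (hg : Differentiable ℝ g) :
    dy (fun z => (f z + g z) / 2) = fun z => (dy f z + dy g z) / 2 := by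
  funext z
  have e : (fun z => (f z + g z) / 2) = fun z => (1 / 2) * (f z + g z) := by
    funext w; ring
  have h1 : DifferentiableAt ℝ (fun z => f z + g z) z := (hf z).add (hg z)
  rw [e, dy_const_mul _ h1, dy_add (hf z) (hg z)]
  ring

theorem second_mean {f g : ℝ × ℝ → ℝ} (hf : ContDiff ℝ 3 f) (hg : ContDiff ℝ 3 g) (z : ℝ × ℝ) :
    dx (dx (fun z => (f z + g z) / 2)) z = (dx (dx f) z + dx (dx g) z) / 2 ∧
    dx (dy (fun z => (f z + g z) / 2)) z = (dx (dy f) z + dx (dy g) z) / 2 ∧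
    dy (dy (fun z => (f z + g z) / 2)) z = (dy (dy f) z + dy (dy g) z) / 2 := by
  have d1 : Differentiable ℝ f := hf.differentiable (by simp)
  have d2 : Differentiable ℝ g := hg.differentiable (by simp)
  have d3 := GaussAux3.d2 (GaussAux3.c3x hf)
  have d4 := GaussAux3.d2 (GaussAux3.c3x hg)
  have d5 := GaussAux3.d2 (GaussAux3.c3y hf)
  have d6 := GaussAux3.d2 (GaussAux3.c3y hg)
  rw [dx_mean d1 d2, dy_mean d1 d2, dx_mean d3 d4, dx_mean d5 d6, dy_mean d5 d6]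
  exact ⟨rfl, rfl, rfl⟩

/-- the parallelogram identity -/
theorem Q_mean (T T' : Tri) (z : ℝ × ℝ) :
    Q (T.mean T') (T.mean T') z = (1 / 2) * Q T (T.mean T') z + (1 / 2) * Q T' (T.mean T') z -
      (1 / 4) * ((lX T (T.mean T') z - lX T' (T.mean T') z) *
        (lY T (T.mean T') z - lY T' (T.mean T') z) - (lM T (T.mean T') z - lM T' (T.mean T') z) *
        (lM T (T.mean T') z - lM T' (T.mean T') z)) := by
  obtain ⟨a1, a2, a3⟩ := second_mean T.ha T'.ha z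
  obtain ⟨b1, b2, b3⟩ := second_mean T.hb T'.hb z
  obtain ⟨h1, h2, h3⟩ := second_mean T.hh T'.hh z
  have eX : lX (T.mean T') (T.mean T') z = (lX T (T.mean T') z + lX T' (T.mean T') z) / 2 := by
    have : lX (T.mean T') (T.mean T') z =
      dx (dx (fun z => (T.a z + T'.a z) / 2)) z * n1 (T.mean T') z +
      dx (dx (fun z => (T.b z + T'.b z) / 2)) z * n2 (T.mean T') z +
      dx (dx (fun z => (T.h z + T'.h z) / 2)) z * n3 (T.mean T') z := rfl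
    rw [this, a1, b1, h1]
    simp only [lX]
    ring
  have eM : lM (T.mean T') (T.mean T') z = (lM T (T.mean T') z + lM T' (T.mean T') z) / 2 := by
    have : lM (T.mean T') (T.mean T') z =
      dx (dy (fun z => (T.a z + T'.a z) / 2)) z * n1 (T.mean T') z +
      dx (dy (fun z => (T.b z + T'.b z) / 2)) z * n2 (T.mean T') z +
      dx (dy (fun z => (T.h z + T'.h z) / 2)) z * n3 (T.mean T') z := rfl
    rw [this, a2, b2, h2]
    simp only [lM]
    ring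
  have eY : lY (T.mean T') (T.mean T') z = (lY T (T.mean T') z + lY T' (T.mean T') z) / 2 := by
    have : lY (T.mean T') (T.mean T') z =
      dy (dy (fun z => (T.a z + T'.a z) / 2)) z * n1 (T.mean T') z +
      dy (dy (fun z => (T.b z + T'.b z) / 2)) z * n2 (T.mean T') z +
      dy (dy (fun z => (T.h z + T'.h z) / 2)) z * n3 (T.mean T') z := rfl
    rw [this, a3, b3, h3]
    simp only [lY]
    ring
  simp only [Q, eX, eM, eY]
  ring

/-- `κ J⁴ = l_xx l_yy - l_xy²` for every triple -/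
theorem kf_Q (T : Tri) (hJ : ∀ z ∈ disc 2, br T.a T.b z ≠ 0) :
    ∀ z ∈ disc 2, kf T z = Q T T z / br T.a T.b z ^ 4 := by
  intro z hz
  have hO := isOpen_disc 2
  have sa : Sm 3 (disc 2) T.a := T.ha.contDiffOn
  have sb : Sm 3 (disc 2) T.b := T.hb.contDiffOn
  have sh : Sm 3 (disc 2) T.h := T.hh.contDiffOn
  have sp : Sm 2 (disc 2) (pf T) := Sm.Lo hO sa sb sh hJ
  have sP : Sm 2 (disc 2) (Pf T) := Sm.No hO sa sb sh hJ
  have q1 : ∀ w ∈ disc 2, dx T.h w = pf T w * dx T.a w + Pf T w * dx T.b w :=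
    fun w hw => dx_eq_Lo_No (hJ w hw)
  have q2 : ∀ w ∈ disc 2, dy T.h w = pf T w * dy T.a w + Pf T w * dy T.b w :=
    fun w hw => dy_eq_Lo_No (hJ w hw)
  have dp := sp.diff hO hz
  have dP := sP.diff hO hz
  have dax := GaussAux3.d2 (GaussAux3.c3x T.ha) z
  have dbx := GaussAux3.d2 (GaussAux3.c3x T.hb) z
  have day := GaussAux3.d2 (GaussAux3.c3y T.ha) z
  have dby := GaussAux3.d2 (GaussAux3.c3y T.hb) z
  have m1 : DifferentiableAt ℝ (fun w => pf T w * dx T.a w) z := dp.mul dax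
  have m2 : DifferentiableAt ℝ (fun w => Pf T w * dx T.b w) z := dP.mul dbx
  have m3 : DifferentiableAt ℝ (fun w => pf T w * dy T.a w) z := dp.mul day
  have m4 : DifferentiableAt ℝ (fun w => Pf T w * dy T.b w) z := dP.mul dby
  have s1 := dx_congr hO q1 hz
  have s2 := dx_congr hO q2 hz
  have s3 := dy_congr hO q1 hz
  have s4 := dy_congr hO q2 hz
  rw [dx_add m1 m2, dx_mul dp dax, dx_mul dP dbx] at s1
  rw [dx_add m3 m4, dx_mul dp day, dx_mul dP dby] at s2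
  rw [dy_add m1 m2, dy_mul dp dax, dy_mul dP dbx, GaussAux3.comm3 T.ha, GaussAux3.comm3 T.hb,
    GaussAux3.comm3 T.hh] at s3
  rw [dy_add m3 m4, dy_mul dp day, dy_mul dP dby] at s4
  have hJz := hJ z hz
  have t1 := q1 z hz
  have t2 := q2 z hz
  have ebr : br (pf T) (Pf T) z = dx (pf T) z * dy (Pf T) z - dy (pf T) z * dx (Pf T) z := rfl
  have eJ : br T.a T.b z = dx T.a z * dy T.b z - dy T.a z * dx T.b z := rfl
  simp only [kf, Q, lX, lY, lM, n1, n2, n3]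
  rw [ebr]
  generalize br T.a T.b z = J at *
  generalize dx (dx T.a) z = A1 at *
  generalize dx (dx T.b) z = A2 at *
  generalize dx (dx T.h) z = A3 at *
  generalize dx (dy T.a) z = B1 at *
  generalize dx (dy T.b) z = B2 at *
  generalize dx (dy T.h) z = B3 at *
  generalize dy (dy T.a) z = C1 at *
  generalize dy (dy T.b) z = C2 at *
  generalize dy (dy T.h) z = C3 at *
  generalize dx (pf T) z = px at *
  generalize dy (pf T) z = py at *
  generalize dx (Pf T) z = Px at *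
  generalize dy (Pf T) z = Py at *
  generalize pf T z = p at *
  generalize Pf T z = P at *
  generalize dx T.a z = X1 at *
  generalize dx T.b z = X2 at *
  generalize dx T.h z = X3 at *
  generalize dy T.a z = Y1 at *
  generalize dy T.b z = Y2 at *
  generalize dy T.h z = Y3 at *
  clear dp dP dax dbx day dby m1 m2 m3 m4 sa sb sh sp sP q1 q2 hJ
  have n1e : X2 * Y3 - X3 * Y2 = -(J * p) := by rw [t1, t2, eJ]; ring
  have n2e : X3 * Y1 - X1 * Y3 = -(J * P) := by rw [t1, t2, eJ]; ring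
  have n3e : X1 * Y2 - X2 * Y1 = J := by rw [eJ]; ring
  rw [n1e, n2e, n3e]
  have l1 : A1 * -(J * p) + A2 * -(J * P) + A3 * J = J * (px * X1 + Px * X2) := by
    rw [s1]; ring
  have l2 : B1 * -(J * p) + B2 * -(J * P) + B3 * J = J * (px * Y1 + Px * Y2) := by
    rw [s2]; ring
  have l2' : B1 * -(J * p) + B2 * -(J * P) + B3 * J = J * (py * X1 + Py * X2) := by
    rw [s3]; ring
  have l3 : C1 * -(J * p) + C2 * -(J * P) + C3 * J = J * (py * Y1 + Py * Y2) := by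
    rw [s4]; ring
  have hg2 : (A1 * -(J * p) + A2 * -(J * P) + A3 * J) * (C1 * -(J * p) + C2 * -(J * P) + C3 * J) -
      (B1 * -(J * p) + B2 * -(J * P) + B3 * J) * (B1 * -(J * p) + B2 * -(J * P) + B3 * J)
      = J ^ 3 * (px * Py - py * Px) := by
    nth_rewrite 1 [l2]
    rw [l2', l1, l3]
    rw [show J ^ 3 = J ^ 2 * J by ring]
    nth_rewrite 6 [eJ]
    ring
  rw [hg2]
  field_simp

/-- closeness of `κ` in `C¹` from closeness of `Q` in `C¹` -/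
theorem FC_k1 (hU : ∀ p, IsOpen (U p)) (hsub : ∀ p, U p ⊆ disc 2) (h : TB U τ) (h' : TB U τ')
    (hJ : ∀ p, ∀ z ∈ disc 2, 9 / 10 ≤ br (τ p).a (τ p).b z)
    (hJ' : ∀ p, ∀ z ∈ disc 2, 9 / 10 ≤ br (τ' p).a (τ' p).b z) (hc : TC U η τ τ')
    (hQ : FC U η 1 (fun p => Q (τ p) (τ p)) (fun p => Q (τ' p) (τ' p))) :
    FC U η 1 (fun p => kf (τ p)) (fun p => kf (τ' p)) := by
  have j := (FBJ' hU h).of_le (m := 1) (by norm_num)
  have j' := (FBJ' hU h').of_le (m := 1) (by norm_num)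
  have c := FCJ' hU h h' hc
  have j2 := j.mul hU j
  have j2' := j'.mul hU j'
  have c2 := FC.mul hU j j' c c
  have j4 := j2.mul hU j2
  have j4' := j2'.mul hU j2'
  have c4 := FC.mul hU j2 j2' c2 c2
  have lo : ∀ {x : ℝ}, 9 / 10 ≤ x → (1 : ℝ) / 2 ≤ x * x * (x * x) := by
    intro x hx
    have h1 : (81 : ℝ) / 100 ≤ x * x := by nlinarith
    nlinarith
  have key := FC.div hU (show (0 : ℝ) < 1 / 2 by norm_num) (FBQ hU h' h') j4 j4'
    (fun p z hz => lo (h.J p z hz)) (fun p z hz => lo (h'.J p z hz)) hQ c4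
  refine FS.congr hU (fun p z hz => ?_) key
  have n1 : ∀ z ∈ disc 2, br (τ p).a (τ p).b z ≠ 0 := fun z hz => by
    have := hJ p z hz
    intro h0; rw [h0] at this; norm_num at this
  have n2 : ∀ z ∈ disc 2, br (τ' p).a (τ' p).b z ≠ 0 := fun z hz => by
    have := hJ' p z hz
    intro h0; rw [h0] at this; norm_num at this
  beta_reduce
  rw [kf_Q (τ p) n1 z (hsub p hz), kf_Q (τ' p) n2 z (hsub p hz)]
  have e1 : ∀ x : ℝ, x * x * (x * x) = x ^ 4 := fun x => by ring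
  simp only [e1]

end CloseAux3

/-- parameters of `close_mean` -/
structure MeanDat (M ε C0 j0 : ℝ) where
  T : Tri
  T' : Tri
  ψ : ℝ × ℝ → ℝ
  ψ' : ℝ × ℝ → ℝ
  η : ℝ
  b : ℝ
  hη : 0 ≤ η
  hψ : ContDiff ℝ ∞ ψ
  hψ' : ContDiff ℝ ∞ ψ'
  hI : IsImm ψ T
  hI' : IsImm ψ' T'
  hB : Basic M ε C0 j0 T
  hB' : Basic M ε C0 j0 T'
  hBm : Basic M ε C0 j0 (T.mean T')
  hc : Close2 η T T'
  ho : ∀ z, z ∉ disc b → Real.exp (2 * ψ z) - Real.exp (2 * ψ' z) = 0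

/-- closeness of `N κ` for the mean of a `C²`-close pair of immersions (uses
`κ J₀⁴ = l_xx l_yy - l_xy²`, which equals `-e^{6ψ} Δψ` for both surfaces) -/
theorem close_mean (M ε C0 j0 : ℝ) (hM : 1 ≤ M) (hε : 0 < ε) (hC : 0 < C0) (hj : 0 < j0) :
    ∃ C : ℝ, 0 < C ∧ ∀ (T T' : Tri) (ψ ψ' : ℝ × ℝ → ℝ) (η b : ℝ), 0 ≤ η → η ≤ 1 → 0 ≤ b →
      ContDiff ℝ ∞ ψ → ContDiff ℝ ∞ ψ' → IsImm ψ T → IsImm ψ' T' →
      Basic M ε C0 j0 T → Basic M ε C0 j0 T' → Basic M ε C0 j0 (T.mean T') → Close2 η T T' →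
      (∀ z, z ∉ disc b → Real.exp (2 * ψ z) - Real.exp (2 * ψ' z) = 0) →
      ∀ z ∈ disc 2, b ^ 2 < z.1 ^ 2 + z.2 ^ 2 →
        |No (T.mean T').a (Pf (T.mean T')) (kf (T.mean T')) z - No T.a (Pf T) (kf T) z| ≤ C * η := by
  obtain ⟨U, hUdef⟩ : ∃ U : MeanDat M ε C0 j0 → Set (ℝ × ℝ),
      U = fun p => {z | z ∈ disc 2 ∧ p.b ^ 2 < z.1 ^ 2 + z.2 ^ 2} := ⟨_, rfl⟩
  have hcont : Continuous (fun z : ℝ × ℝ => z.1 ^ 2 + z.2 ^ 2) := by fun_prop
  have hU : ∀ p, IsOpen (U p) := fun p => by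
    rw [hUdef]
    exact (isOpen_disc 2).inter (isOpen_lt continuous_const hcont)
  have hsub : ∀ p, U p ⊆ disc 2 := fun p => by rw [hUdef]; exact fun z hz => hz.1
  obtain ⟨η, hηdef⟩ : ∃ η : MeanDat M ε C0 j0 → ℝ, η = fun p => p.η := ⟨_, rfl⟩
  have hη : ∀ p, 0 ≤ η p := fun p => by rw [hηdef]; exact p.hη
  have hB : ∀ p : MeanDat M ε C0 j0, Basic M ε C0 j0 p.T := fun p => p.hB
  have hB' : ∀ p : MeanDat M ε C0 j0, Basic M ε C0 j0 p.T' := fun p => p.hB'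
  have hBm : ∀ p : MeanDat M ε C0 j0, Basic M ε C0 j0 (p.T.mean p.T') := fun p => p.hBm
  have b := TB.of hC hsub hB
  have b' := TB.of hC hsub hB'
  have bm := TB.of hC hsub hBm
  have hc : TC U η (fun p : MeanDat M ε C0 j0 => p.T) (fun p => p.T') := by
    refine ⟨⟨1, zero_le_one, fun p => ⟨?_, ?_⟩⟩, ⟨1, zero_le_one, fun p => ⟨?_, ?_⟩⟩,
      ⟨1, zero_le_one, fun p => ⟨?_, ?_⟩⟩⟩
    · exact ((p.T.ha.sub p.T'.ha).contDiffOn).of_le (by norm_cast)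
    · rw [one_mul, hηdef]; exact p.hc.1.mono (hsub p) le_rfl
    · exact ((p.T.hb.sub p.T'.hb).contDiffOn).of_le (by norm_cast)
    · rw [one_mul, hηdef]; exact p.hc.2.1.mono (hsub p) le_rfl
    · exact ((p.T.hh.sub p.T'.hh).contDiffOn).of_le (by norm_cast)
    · rw [one_mul, hηdef]; exact p.hc.2.2.mono (hsub p) le_rfl
  have hcm : TC U η (fun p : MeanDat M ε C0 j0 => p.T.mean p.T') (fun p => p.T) := by
    refine ⟨?_, ?_, ?_⟩
    · refine (FS.mul hU hc.a (FB.const (-1 / 2))).congr hU fun p z _ => ?_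
      simp only [Tri.mean]; ring
    · refine (FS.mul hU hc.b (FB.const (-1 / 2))).congr hU fun p z _ => ?_
      simp only [Tri.mean]; ring
    · refine (FS.mul hU hc.h (FB.const (-1 / 2))).congr hU fun p z _ => ?_
      simp only [Tri.mean]; ring
  have hcm' : TC U η (fun p : MeanDat M ε C0 j0 => p.T.mean p.T') (fun p => p.T') := by
    refine ⟨?_, ?_, ?_⟩
    · refine (FS.mul hU hc.a (FB.const (1 / 2))).congr hU fun p z _ => ?_
      simp only [Tri.mean]; ring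
    · refine (FS.mul hU hc.b (FB.const (1 / 2))).congr hU fun p z _ => ?_
      simp only [Tri.mean]; ring
    · refine (FS.mul hU hc.h (FB.const (1 / 2))).congr hU fun p z _ => ?_
      simp only [Tri.mean]; ring
  -- the two determinants agree outside the small disc
  have hagree : ∀ p : MeanDat M ε C0 j0, ∀ z ∈ U p, Q p.T' p.T' z = Q p.T p.T z := by
    intro p z hz
    rw [hUdef] at hz
    have hV : IsOpen {z : ℝ × ℝ | p.b ^ 2 < z.1 ^ 2 + z.2 ^ 2} :=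
      isOpen_lt continuous_const (by fun_prop)
    have hψ : ∀ w ∈ {z : ℝ × ℝ | p.b ^ 2 < z.1 ^ 2 + z.2 ^ 2}, p.ψ' w = p.ψ w := by
      intro w hw
      have hw' : p.b ^ 2 < w.1 ^ 2 + w.2 ^ 2 := hw
      have h1 := p.ho w (by
        unfold disc
        simp only [Set.mem_ofPred_eq, not_lt]
        exact hw'.le)
      have h2 : Real.exp (2 * p.ψ' w) = Real.exp (2 * p.ψ w) := by linarith
      have h3 := Real.exp_injective h2
      linarith
    have hz3 : z ∈ disc 3 := by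
      have h1 := hz.1
      unfold disc at *
      simp only [Set.mem_ofPred_eq] at *
      linarith
    have g1 := gauss p.T p.ψ p.hψ p.hI z hz3
    have g2 := gauss p.T' p.ψ' p.hψ' p.hI' z hz3
    rw [hψ z hz.2, dx_congr hV (fun w hw => dx_congr hV hψ hw) hz.2,
      dy_congr hV (fun w hw => dy_congr hV hψ hw) hz.2, ← g1] at g2
    have e : ∀ T : Tri, Q T T z = lxx T z * lyy T z - lxy T z ^ 2 := by
      intro T
      simp only [Q, lX, lY, lM, lxx, lyy, lxy]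
      ring
    rw [e, e, g2]
  have hQ : FC U η 1 (fun p : MeanDat M ε C0 j0 => Q (p.T.mean p.T') (p.T.mean p.T'))
      (fun p => Q p.T p.T) := by
    have q1 := FCQ hU b bm b hcm
    have q2 := FCQ hU b' bm b' hcm'
    have q3 := FSdiff hU hη b b' bm hc
    have z0 : FS U η 1 (fun p : MeanDat M ε C0 j0 => fun z => Q p.T' p.T' z - Q p.T p.T z) := by
      refine FS.zero.congr hU fun p z hz => ?_
      rw [hagree p z hz]; ring
    refine (FS.sub hU (FS.add hU (FS.add hU (FS.mul hU q1 (FB.const (1 / 2)))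
      (FS.mul hU q2 (FB.const (1 / 2)))) (FS.mul hU z0 (FB.const (1 / 2))))
      (FS.mul hU q3 (FB.const (1 / 4)))).congr hU fun p z _ => ?_
    beta_reduce
    rw [Q_mean]
    ring
  have hk := FC_k1 hU hsub bm b (fun p z hz => (hBm p).J0l z hz) (fun p z hz => (hB p).J0l z hz)
    hcm hQ
  have hP := FCP' hU bm b hcm
  have ha := hcm.a.of_le (m := 1) (by norm_num)
  have a1 := bm.a.of_le (m := 1) (by norm_num)
  have a2 := b.a.of_le (m := 1) (by norm_num)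
  have P1 := (FBP' hC hsub hBm).of_le (m := 1) (by norm_num)
  have P2 := (FBP' hC hsub hB).of_le (m := 1) (by norm_num)
  have k1 := FBk' hC hsub hBm
  have k2 := FBk' hC hsub hB
  have key := FC.div hU hj (FB.br hU a2 k2) (FB.br hU a1 P1) (FB.br hU a2 P2)
    (fun p z hz => (hBm p).reg.J z (hsub p hz)) (fun p z hz => (hB p).reg.J z (hsub p hz))
    (FC.br hU a1 a2 k1 k2 ha hk) (FC.br hU a1 a2 P1 P2 ha hP)
  obtain ⟨D, hD, h⟩ := key
  refine ⟨D + 1, by positivity, ?_⟩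
  intro T T' ψ ψ' η' b0 hη' hη1 hb hψ hψ' hI hI' hB1 hB2 hB3 hc1 ho z hz hzb
  have h1 := (h ⟨T, T', ψ, ψ', η', b0, hη', hψ, hψ', hI, hI', hB1, hB2, hB3, hc1, ho⟩).2.bound
    (z := z) (by rw [hUdef]; exact ⟨hz, hzb⟩)
  rw [hηdef] at h1
  refine h1.trans ?_
  simp only
  linarith

end Vale.Agent.P229.C3
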