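import Vale.Agent.P229.C3.Surf
import Vale.Agent.P229.C3.BdAlg
import Vale.Agent.P229.Contra

/-! P229, module K: the contradiction at the bump, `C³` version. -/

namespace Vale.Agent.P229.C3

open MeasureTheory Set
open scoped ContDiff

namespace ContraAux3

open ContraAux hiding contDiff_sf Lo_G No_G diff_G Lo_wf No_wf diff_LoΘ diff_NoΘ LoLo_wf LoNo_wf NoNo_wf
  Lo_No_bd Bf Qf seconds_in Mo_in Q_in wf_zero Mo_out contDiff_wf tsupport_wf hasCompactSupport_wf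
  tsupport_wf_subset br0 dxP0 at0 exists_alpha taylor sf_taylor sf_size Qf_lower coef_bounds lip_of_bd
  Bf_lip Mo_bd cont_br rhs_bound F_in tay rhs_final lhs_final

variable {f g h P u : ℝ × ℝ → ℝ} {z : ℝ × ℝ} {U : Set (ℝ × ℝ)}

/-- differentiability of a `C³` function -/
theorem d3 {a : ℝ × ℝ → ℝ} (ha : ContDiff ℝ 3 a) (z : ℝ × ℝ) : DifferentiableAt ℝ a z :=
  ha.differentiable (by norm_num) z

/-- `C^n` from `C³` -/
theorem s3 {a : ℝ × ℝ → ℝ} {n : ℕ} (ha : ContDiff ℝ 3 a) (hn : n ≤ 3) : Sm n U a :=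
  (ha.contDiffOn (s := U)).of_le (by exact_mod_cast hn)

/-- `C^n` from `C^∞` -/
theorem sInf {a : ℝ × ℝ → ℝ} {n : ℕ} (ha : ContDiff ℝ ∞ a) : Sm n U a :=
  (ha.contDiffOn (s := U)).of_le (by exact_mod_cast le_top)

section W

variable {a b Θ : ℝ × ℝ → ℝ} {α s0 : ℝ}

theorem contDiff_sf (ha : ContDiff ℝ 3 a) (hb : ContDiff ℝ 3 b) : ContDiff ℝ 3 (sf a b α) :=
  (contDiff_const.mul ha).add hb

theorem Lo_G {F F' : ℝ → ℝ} (hF : ∀ t, HasDerivAt F (F' t) t) (ha : ContDiff ℝ 3 a)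
    (hb : ContDiff ℝ 3 b) (h0 : br a b z ≠ 0) :
    Lo a b (G F a b α s0) z = G F' a b α s0 z * α := by
  have hs : DifferentiableAt ℝ (fun w => sf a b α w - s0) z :=
    (d3 (contDiff_sf ha hb) z).sub_const s0
  have e := Lo_comp (u := a) (P := b) (f := fun w => sf a b α w - s0) (z := z)
    (φ := F) (hF (sf a b α z - s0)) hs
  rw [Lo_sf (d3 ha z) (d3 hb z) h0] at e
  exact e

theorem No_G {F F' : ℝ → ℝ} (hF : ∀ t, HasDerivAt F (F' t) t) (ha : ContDiff ℝ 3 a)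
    (hb : ContDiff ℝ 3 b) (h0 : br a b z ≠ 0) :
    No a b (G F a b α s0) z = G F' a b α s0 z := by
  have hs : DifferentiableAt ℝ (fun w => sf a b α w - s0) z :=
    (d3 (contDiff_sf ha hb) z).sub_const s0
  have e := No_comp (u := a) (P := b) (f := fun w => sf a b α w - s0) (z := z)
    (φ := F) (hF (sf a b α z - s0)) hs
  rw [No_sf (d3 ha z) (d3 hb z) h0, mul_one] at e
  exact e

theorem diff_G {F F' : ℝ → ℝ} (hF : ∀ t, HasDerivAt F (F' t) t) (ha : ContDiff ℝ 3 a)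
    (hb : ContDiff ℝ 3 b) (z : ℝ × ℝ) : DifferentiableAt ℝ (G F a b α s0) z := by
  have hs : DifferentiableAt ℝ (fun w => sf a b α w - s0) z :=
    (d3 (contDiff_sf ha hb) z).sub_const s0
  exact (hF (sf a b α z - s0)).differentiableAt.comp z hs

variable (hU : IsOpen U) (ha : ContDiff ℝ 3 a) (hb : ContDiff ℝ 3 b) (hΘ : ContDiff ℝ ∞ Θ)
  (h0 : ∀ z ∈ U, br a b z ≠ 0)

include ha hb hΘ h0

theorem Lo_wf (hz : z ∈ U) : Lo a b (wf Θ a b α s0) z =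
    Lo a b Θ z * G F0 a b α s0 z + Θ z * (G F1 a b α s0 z * α) := by
  have h1 := Lo_mul (u := a) (P := b) (hΘ.differentiable (by simp) z)
    (diff_G (α := α) (s0 := s0) hasDerivAt_F0 ha hb z)
  rw [Lo_G hasDerivAt_F0 ha hb (h0 z hz)] at h1
  exact h1

theorem No_wf (hz : z ∈ U) : No a b (wf Θ a b α s0) z =
    No a b Θ z * G F0 a b α s0 z + Θ z * G F1 a b α s0 z := by
  have h1 := No_mul (u := a) (P := b) (hΘ.differentiable (by simp) z)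
    (diff_G (α := α) (s0 := s0) hasDerivAt_F0 ha hb z)
  rw [No_G hasDerivAt_F0 ha hb (h0 z hz)] at h1
  exact h1

include hU

theorem diff_LoΘ (hz : z ∈ U) : DifferentiableAt ℝ (Lo a b Θ) z :=
  (Sm.Lo (n := 1) hU (s3 ha (by norm_num)) (s3 hb (by norm_num)) (sInf hΘ) h0).diff hU hz

theorem diff_NoΘ (hz : z ∈ U) : DifferentiableAt ℝ (No a b Θ) z :=
  (Sm.No (n := 1) hU (s3 ha (by norm_num)) (s3 hb (by norm_num)) (sInf hΘ) h0).diff hU hz

theorem LoLo_wf (hz : z ∈ U) : Lo a b (Lo a b (wf Θ a b α s0)) z =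
    Lo a b (Lo a b Θ) z * G F0 a b α s0 z + Lo a b Θ z * (G F1 a b α s0 z * α)
      + (Lo a b Θ z * (G F1 a b α s0 z * α) + Θ z * (G F2 a b α s0 z * α * α)) := by
  have d0 := diff_G (α := α) (s0 := s0) hasDerivAt_F0 ha hb z
  have d1 := diff_G (α := α) (s0 := s0) hasDerivAt_F1 ha hb z
  have dL := diff_LoΘ hU ha hb hΘ h0 hz
  have dΘ := hΘ.differentiable (by simp) z
  have d1' : DifferentiableAt ℝ (fun w => α * G F1 a b α s0 w) z := d1.const_mul α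
  rw [Lo_congr hU (g := fun z => Lo a b Θ z * G F0 a b α s0 z + Θ z * (α * G F1 a b α s0 z))
      (fun w hw => by rw [Lo_wf ha hb hΘ h0 hw]; ring) hz,
    Lo_add (dL.fun_mul d0) (dΘ.fun_mul d1'), Lo_mul dL d0, Lo_mul dΘ d1', Lo_const_mul α d1,
    Lo_G hasDerivAt_F0 ha hb (h0 z hz), Lo_G hasDerivAt_F1 ha hb (h0 z hz)]
  ring

theorem LoNo_wf (hz : z ∈ U) : Lo a b (No a b (wf Θ a b α s0)) z =
    Lo a b (No a b Θ) z * G F0 a b α s0 z + No a b Θ z * (G F1 a b α s0 z * α)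
      + (Lo a b Θ z * G F1 a b α s0 z + Θ z * (G F2 a b α s0 z * α)) := by
  have d0 := diff_G (α := α) (s0 := s0) hasDerivAt_F0 ha hb z
  have d1 := diff_G (α := α) (s0 := s0) hasDerivAt_F1 ha hb z
  have dL := diff_NoΘ hU ha hb hΘ h0 hz
  have dΘ := hΘ.differentiable (by simp) z
  rw [Lo_congr hU (fun w hw => No_wf (α := α) (s0 := s0) ha hb hΘ h0 hw) hz,
    Lo_add (dL.fun_mul d0) (dΘ.fun_mul d1), Lo_mul dL d0, Lo_mul dΘ d1,
    Lo_G hasDerivAt_F0 ha hb (h0 z hz), Lo_G hasDerivAt_F1 ha hb (h0 z hz)]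

theorem NoNo_wf (hz : z ∈ U) : No a b (No a b (wf Θ a b α s0)) z =
    No a b (No a b Θ) z * G F0 a b α s0 z + No a b Θ z * G F1 a b α s0 z
      + (No a b Θ z * G F1 a b α s0 z + Θ z * G F2 a b α s0 z) := by
  have d0 := diff_G (α := α) (s0 := s0) hasDerivAt_F0 ha hb z
  have d1 := diff_G (α := α) (s0 := s0) hasDerivAt_F1 ha hb z
  have dL := diff_NoΘ hU ha hb hΘ h0 hz
  have dΘ := hΘ.differentiable (by simp) z
  rw [No_congr hU (fun w hw => No_wf (α := α) (s0 := s0) ha hb hΘ h0 hw) hz,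
    No_add (dL.fun_mul d0) (dΘ.fun_mul d1), No_mul dL d0, No_mul dΘ d1,
    No_G hasDerivAt_F0 ha hb (h0 z hz), No_G hasDerivAt_F1 ha hb (h0 z hz)]

end W


/-! ### uniform bounds for `Lo`, `No` -/

theorem Lo_No_bd (k : ℕ) (C K : ℝ) : ∃ D : ℝ, 0 < D ∧
    ∀ a b f : ℝ × ℝ → ℝ, Sm (k + 1) (disc 2) a → Sm (k + 1) (disc 2) b → Sm (k + 1) (disc 2) f →
      Bd (disc 2) (k + 1) C a → Bd (disc 2) (k + 1) C b → Bd (disc 2) (k + 1) K f →
      (∀ z ∈ disc 2, 9 / 10 ≤ br a b z) →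
      Bd (disc 2) k D (Lo a b f) ∧ Bd (disc 2) k D (No a b f) := by
  set E : ℝ := max (2 * (2 ^ k * C * C)) (max (2 * (2 ^ k * K * C)) (2 * (2 ^ k * C * K))) with hE
  obtain ⟨D, hD, h⟩ := Bd_div k E (9 / 10) (by norm_num)
  refine ⟨D, hD, fun a b f ha hb hf Ba Bb Bf hJ => ⟨?_, ?_⟩⟩
  · exact h (disc 2) (br f b) (br a b) (isOpen_disc 2) (hf.br (isOpen_disc 2) hb)
      (ha.br (isOpen_disc 2) hb)
      ((Bd_br (isOpen_disc 2) hf hb Bf Bb).mono subset_rfl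
        ((le_max_left _ _).trans (le_max_right _ _)))
      ((Bd_br (isOpen_disc 2) ha hb Ba Bb).mono subset_rfl (le_max_left _ _)) hJ
  · exact h (disc 2) (br a f) (br a b) (isOpen_disc 2) (ha.br (isOpen_disc 2) hf)
      (ha.br (isOpen_disc 2) hb)
      ((Bd_br (isOpen_disc 2) ha hf Ba Bf).mono subset_rfl
        ((le_max_right _ _).trans (le_max_right _ _)))
      ((Bd_br (isOpen_disc 2) ha hb Ba Bb).mono subset_rfl (le_max_left _ _)) hJ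


/-! ### the operator on the test function -/

/-- the coefficient of `F''` in `M[w]` -/
noncomputable def Bf (T : Tri) (α : ℝ) : ℝ × ℝ → ℝ := fun z =>
  No T.a T.b (Pf T) z * α ^ 2 - 2 * Lo T.a T.b (Pf T) z * α + Lo T.a T.b (pf T) z

/-- the coefficient of `F''` on the other side -/
noncomputable def Qf (T : Tri) (α : ℝ) : ℝ × ℝ → ℝ := fun z =>
  g11 T z - 2 * g12 T z * α + g22 T z * α ^ 2

section Mo
variable {T : Tri} {α s0 : ℝ}

theorem seconds_in (h0 : ∀ z ∈ disc 2, br T.a T.b z ≠ 0) (hz : z ∈ disc (1 / 20)) :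
    Lo T.a T.b (Lo T.a T.b (wf cut T.a T.b α s0)) z = G F2 T.a T.b α s0 z * α ^ 2 ∧
    Lo T.a T.b (No T.a T.b (wf cut T.a T.b α s0)) z = G F2 T.a T.b α s0 z * α ∧
    No T.a T.b (No T.a T.b (wf cut T.a T.b α s0)) z = G F2 T.a T.b α s0 z := by
  have hz2 : z ∈ disc 2 := sub12 hz
  obtain ⟨e1, e2, e3, e4, e5⟩ := near_zero (a := T.a) (b := T.b) hz
  rw [LoLo_wf (isOpen_disc 2) T.ha T.hb cut_contDiff h0 hz2,
    LoNo_wf (isOpen_disc 2) T.ha T.hb cut_contDiff h0 hz2,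
    NoNo_wf (isOpen_disc 2) T.ha T.hb cut_contDiff h0 hz2, e1, e2, e3, e4, e5, cut_one hz]
  refine ⟨?_, ?_, ?_⟩ <;> ring

theorem Mo_in (h0 : ∀ z ∈ disc 2, br T.a T.b z ≠ 0) (hz : z ∈ disc (1 / 20)) :
    Mo T (wf cut T.a T.b α s0) z = G F2 T.a T.b α s0 z * Bf T α z := by
  obtain ⟨e1, e2, e3⟩ := seconds_in (α := α) (s0 := s0) h0 hz
  simp only [Mo, Bf, e1, e2, e3]
  ring

theorem Q_in (h0 : ∀ z ∈ disc 2, br T.a T.b z ≠ 0) (hz : z ∈ disc (1 / 20)) :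
    g11 T z * No T.a T.b (No T.a T.b (wf cut T.a T.b α s0)) z
      - 2 * g12 T z * Lo T.a T.b (No T.a T.b (wf cut T.a T.b α s0)) z
      + g22 T z * Lo T.a T.b (Lo T.a T.b (wf cut T.a T.b α s0)) z
      = G F2 T.a T.b α s0 z * Qf T α z := by
  obtain ⟨e1, e2, e3⟩ := seconds_in (α := α) (s0 := s0) h0 hz
  simp only [Qf, e1, e2, e3]
  ring

theorem wf_zero (hz : z ∉ tsupport (cut : ℝ × ℝ → ℝ)) : wf cut T.a T.b α s0 z = 0 := by
  simp only [wf, image_eq_zero_of_notMem_tsupport hz, zero_mul]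

theorem Mo_out (hz : z ∉ disc (1 / 10)) : Mo T (wf cut T.a T.b α s0) z = 0 := by
  have hO : IsOpen (tsupport (cut : ℝ × ℝ → ℝ))ᶜ := (isClosed_tsupport _).isOpen_compl
  have hz' : z ∈ (tsupport (cut : ℝ × ℝ → ℝ))ᶜ := by
    intro h
    rw [tsupport_cut] at h
    exact hz (ball_subset h)
  have h1 : ∀ w ∈ (tsupport (cut : ℝ × ℝ → ℝ))ᶜ, Lo T.a T.b (wf cut T.a T.b α s0) w = 0 :=
    fun w hw => Lo_eq_zero hO (fun v hv => wf_zero hv) hw
  have h2 : ∀ w ∈ (tsupport (cut : ℝ × ℝ → ℝ))ᶜ, No T.a T.b (wf cut T.a T.b α s0) w = 0 :=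
    fun w hw => No_eq_zero hO (fun v hv => wf_zero hv) hw
  simp only [Mo, Lo_eq_zero hO h1 hz', Lo_eq_zero hO h2 hz', No_eq_zero hO h2 hz']
  ring

theorem contDiff_wf : ContDiff ℝ 2 (wf cut T.a T.b α s0) := by
  have h1 : ContDiff ℝ 2 (cut : ℝ × ℝ → ℝ) := cut.contDiff
  have h2 : ContDiff ℝ 2 (fun z => sf T.a T.b α z - s0) :=
    ((contDiff_sf T.ha T.hb).sub contDiff_const).of_le (by norm_num)
  exact h1.mul (contDiff_F0.comp h2)

theorem tsupport_wf : tsupport (wf cut T.a T.b α s0) ⊆ tsupport (cut : ℝ × ℝ → ℝ) :=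
  tsupport_mul_subset_left

theorem hasCompactSupport_wf : HasCompactSupport (wf cut T.a T.b α s0) :=
  cut.hasCompactSupport.mul_right

theorem tsupport_wf_subset : tsupport (wf cut T.a T.b α s0) ⊆ disc 2 := by
  refine tsupport_wf.trans ?_
  rw [tsupport_cut]
  exact ball_subset.trans (disc_mono (by norm_num) (by norm_num))

end Mo

/-! ### facts about normalized triples -/

section Facts
variable {T : Tri} {M ε C0 j0 e0 : ℝ}

theorem br0 (hN : Nrm M ε e0 T) : br T.a T.b 0 = e0 ^ 2 := by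
  simp only [br, hN.ax, hN.ay, hN.bx, hN.by']; ring

theorem dxP0 (hN : Nrm M ε e0 T) (he : 0 < e0) : dx (Pf T) 0 = 0 := by
  have hO : IsOpen (univ : Set (ℝ × ℝ)) := isOpen_univ
  have sa : Sm 3 univ T.a := s3 T.ha le_rfl
  have sb : Sm 3 univ T.b := s3 T.hb le_rfl
  have sh : Sm 3 univ T.h := s3 T.hh le_rfl
  have d1 : DifferentiableAt ℝ (br T.a T.h) 0 := (sa.br hO sh).diff hO (mem_univ _)
  have d2 : DifferentiableAt ℝ (br T.a T.b) 0 := (sa.br hO sb).diff hO (mem_univ _)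
  have h0 : br T.a T.b 0 ≠ 0 := by rw [br0 hN]; positivity
  have e : Pf T = fun z => br T.a T.h z / br T.a T.b z := rfl
  have e1 : br T.a T.h 0 = 0 := by simp only [br, hN.hx, hN.hy]; ring
  have e2 : dx (br T.a T.h) 0 = 0 := by
    rw [dx_br ((sa.dx hO).diff hO (mem_univ _)) ((sa.dy hO).diff hO (mem_univ _))
      ((sh.dx hO).diff hO (mem_univ _)) ((sh.dy hO).diff hO (mem_univ _)), hN.hx, hN.hy, hN.hxy,
      hN.ay]
    ring
  rw [e, dx_div d1 d2 h0, e1, e2]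
  simp

theorem at0 (hN : Nrm M ε e0 T) (he : 0 < e0) :
    No T.a T.b (Pf T) 0 = dy (Pf T) 0 / e0 ∧ Lo T.a T.b (Pf T) 0 = 0 ∧
      kf T 0 = Lo T.a T.b (pf T) 0 * No T.a T.b (Pf T) 0 := by
  have hP := dxP0 hN he
  have hb := br0 hN
  refine ⟨?_, ?_, ?_⟩
  · simp only [No]
    rw [hb]
    simp only [br, hN.ax, hN.ay]
    field_simp
    ring
  · simp only [Lo]
    rw [hb]
    simp only [br, hN.bx, hP]
    simp
  · simp only [kf, No, Lo]
    rw [hb]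
    simp only [br, hN.ax, hN.ay, hN.bx, hN.by', hP]
    field_simp
    ring

/-- existence of `α` -/
theorem exists_alpha (hM : 1 ≤ M) (hε : 0 < ε) (hC : 0 < C0) (hB : Basic M ε C0 j0 T)
    (hN : Nrm M ε e0 T) (he : 99 / 100 ≤ e0) (he1 : e0 ≤ 1) (hk : kf T 0 ≤ 0) :
    ∃ α : ℝ, 0 ≤ α ∧ α ≤ Real.sqrt C0 * (2 * M / ε) ∧ Bf T α 0 = 0 := by
  have he0 : 0 < e0 := by linarith
  obtain ⟨h1, h2, h3⟩ := at0 hN he0
  have hm : (0 : ℝ × ℝ) ∈ disc 2 := by simp [disc]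
  have hPy := hB.Py 0 hm
  have hεM : 0 < ε / (2 * M) := by positivity
  have h22 : ε / (2 * M) ≤ No T.a T.b (Pf T) 0 := by
    rw [h1, le_div_iff₀ he0]
    nlinarith
  have h22p : 0 < No T.a T.b (Pf T) 0 := lt_of_lt_of_le hεM h22
  have hkC : |kf T 0| ≤ C0 := (hB.reg.bk 0 hm).1
  set k := kf T 0 with hkdef
  set q := No T.a T.b (Pf T) 0 with hq
  refine ⟨Real.sqrt (-k) / q, by positivity, ?_, ?_⟩
  · have e1 : Real.sqrt (-k) ≤ Real.sqrt C0 :=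
      Real.sqrt_le_sqrt (by linarith [(abs_le.1 hkC).1])
    have e2 : 1 / q ≤ 2 * M / ε := by
      rw [div_le_div_iff₀ h22p hε]
      rw [div_le_iff₀ (by positivity)] at h22
      linarith
    rw [div_eq_mul_one_div]
    exact mul_le_mul e1 e2 (by positivity) (by positivity)
  · have hs : Real.sqrt (-k) ^ 2 = -k := Real.sq_sqrt (by linarith)
    simp only [Bf]
    rw [h2, ← hq]
    have e3 : Lo T.a T.b (pf T) 0 = k / q := by
      rw [h3]; field_simp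
    rw [e3, div_pow, hs]
    field_simp
    ring

end Facts


/-! ### Taylor estimates -/

section Taylor
variable {T : Tri} {M ε C0 j0 e0 : ℝ}

/-- if `f 0 = 0`, `∇f 0 = (p, q)` and the second derivatives are bounded by `C` -/
theorem taylor {f : ℝ × ℝ → ℝ} {C p q ρ : ℝ} (hf : ContDiff ℝ 3 f) (hB : Bd (disc 2) 2 C f)
    (hC : 0 ≤ C) (h0 : f 0 = 0) (hp : dx f 0 = p) (hq : dy f 0 = q) (hρ : 0 < ρ) (hρ2 : ρ ≤ 2)
    (hz : z ∈ disc ρ) : |f z - (p * z.1 + q * z.2)| ≤ 4 * C * ρ ^ 2 := by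
  have hsub : disc ρ ⊆ disc 2 := disc_mono hρ.le hρ2
  have h0m : (0 : ℝ × ℝ) ∈ disc ρ := by
    show (0 : ℝ × ℝ).1 ^ 2 + (0 : ℝ × ℝ).2 ^ 2 < ρ ^ 2
    simp; positivity
  -- first derivatives
  have gx : ∀ w ∈ disc ρ, |dx f w - p| ≤ 2 * C * ρ := by
    intro w hw
    have h := abs_sub_le_disc (f := dx f) (R := ρ) (C := C) (D := C) ((s3 (U := disc ρ) hf le_rfl).dx (isOpen_disc ρ) |>.of_le (by norm_num))
      (fun v hv => hB.dx.dx v (hsub hv)) (fun v hv => hB.dx.dy v (hsub hv)) w hw 0 h0m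
    rw [hp] at h
    simp only [Prod.fst_zero, Prod.snd_zero, sub_zero] at h
    obtain ⟨w1, w2⟩ := abs_le_of_disc hρ.le hw
    calc |dx f w - p| ≤ C * |w.1| + C * |w.2| := h
      _ ≤ C * ρ + C * ρ := by gcongr
      _ = 2 * C * ρ := by ring
  have gy : ∀ w ∈ disc ρ, |dy f w - q| ≤ 2 * C * ρ := by
    intro w hw
    have h := abs_sub_le_disc (f := dy f) (R := ρ) (C := C) (D := C) ((s3 (U := disc ρ) hf le_rfl).dy (isOpen_disc ρ) |>.of_le (by norm_num))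
      (fun v hv => hB.dy.dx v (hsub hv)) (fun v hv => hB.dy.dy v (hsub hv)) w hw 0 h0m
    rw [hq] at h
    simp only [Prod.fst_zero, Prod.snd_zero, sub_zero] at h
    obtain ⟨w1, w2⟩ := abs_le_of_disc hρ.le hw
    calc |dy f w - q| ≤ C * |w.1| + C * |w.2| := h
      _ ≤ C * ρ + C * ρ := by gcongr
      _ = 2 * C * ρ := by ring
  have dl : ∀ w : ℝ × ℝ, DifferentiableAt ℝ (fun w : ℝ × ℝ => p * w.1) w := fun w => by fun_prop
  have dr : ∀ w : ℝ × ℝ, DifferentiableAt ℝ (fun w : ℝ × ℝ => q * w.2) w := fun w => by fun_prop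
  have dfst : ∀ w : ℝ × ℝ, DifferentiableAt ℝ (fun w : ℝ × ℝ => w.1) w := fun w => by fun_prop
  have dsnd : ∀ w : ℝ × ℝ, DifferentiableAt ℝ (fun w : ℝ × ℝ => w.2) w := fun w => by fun_prop
  have hfd : ∀ w : ℝ × ℝ, DifferentiableAt ℝ f w := fun w => d3 hf w
  have ex : ∀ w : ℝ × ℝ, dx (fun w => f w - (p * w.1 + q * w.2)) w = dx f w - p := by
    intro w
    rw [dx_sub (hfd w) ((dl w).fun_add (dr w)), dx_add (dl w) (dr w), dx_const_mul p (dfst w),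
      dx_const_mul q (dsnd w), dx_fst, dx_snd]
    ring
  have ey : ∀ w : ℝ × ℝ, dy (fun w => f w - (p * w.1 + q * w.2)) w = dy f w - q := by
    intro w
    rw [dy_sub (hfd w) ((dl w).fun_add (dr w)), dy_add (dl w) (dr w), dy_const_mul p (dfst w),
      dy_const_mul q (dsnd w), dy_fst, dy_snd]
    ring
  have sF : Sm 1 (disc ρ) (fun w => f w - (p * w.1 + q * w.2)) := by
    refine Sm.sub (s3 hf (by norm_num)) (Sm.of_contDiff ?_)
    fun_prop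
  have h := abs_sub_le_disc (f := fun w => f w - (p * w.1 + q * w.2)) (R := ρ) (C := 2 * C * ρ)
    (D := 2 * C * ρ) sF (fun w hw => by rw [ex w]; exact gx w hw)
    (fun w hw => by rw [ey w]; exact gy w hw) z hz 0 h0m
  simp only [Prod.fst_zero, Prod.snd_zero, sub_zero, mul_zero, add_zero, h0] at h
  obtain ⟨w1, w2⟩ := abs_le_of_disc hρ.le hz
  calc |f z - (p * z.1 + q * z.2)| ≤ 2 * C * ρ * |z.1| + 2 * C * ρ * |z.2| := h
    _ ≤ 2 * C * ρ * ρ + 2 * C * ρ * ρ := by gcongr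
    _ = 4 * C * ρ ^ 2 := by ring

/-- size of `s` -/
theorem sf_taylor {α ρ : ℝ} (hB : Basic M ε C0 j0 T) (hN : Nrm M ε e0 T) (hC : 0 ≤ C0)
    (hα : 0 ≤ α) (hρ : 0 < ρ) (hρ2 : ρ ≤ 2) (hz : z ∈ disc ρ) :
    |sf T.a T.b α z - e0 * (α * z.1 + z.2)| ≤ (α + 1) * (4 * C0 * ρ ^ 2) := by
  have h1 := taylor T.ha (hB.bda.of_le (by norm_num)) hC hN.a0 hN.ax hN.ay hρ hρ2 hz
  have h2 := taylor T.hb (hB.bdb.of_le (by norm_num)) hC hN.b0 hN.bx hN.by' hρ hρ2 hz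
  have e : sf T.a T.b α z - e0 * (α * z.1 + z.2)
      = α * (T.a z - (e0 * z.1 + 0 * z.2)) + (T.b z - (0 * z.1 + e0 * z.2)) := by
    simp only [sf]; ring
  rw [e]
  calc |α * (T.a z - (e0 * z.1 + 0 * z.2)) + (T.b z - (0 * z.1 + e0 * z.2))|
      ≤ |α * (T.a z - (e0 * z.1 + 0 * z.2))| + |T.b z - (0 * z.1 + e0 * z.2)| := abs_add_le _ _
    _ ≤ α * (4 * C0 * ρ ^ 2) + 4 * C0 * ρ ^ 2 := by
        rw [abs_mul, abs_of_nonneg hα]
        gcongr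
    _ = (α + 1) * (4 * C0 * ρ ^ 2) := by ring

theorem sf_size {α ρ : ℝ} (hB : Basic M ε C0 j0 T) (hN : Nrm M ε e0 T)
    (hα : 0 ≤ α) (hρ : 0 < ρ) (hρ2 : ρ ≤ 2) (hz : z ∈ disc ρ) :
    |sf T.a T.b α z| ≤ 2 * (α + 1) * ρ := by
  have hsub : disc ρ ⊆ disc 2 := disc_mono hρ.le hρ2
  have h0m : (0 : ℝ × ℝ) ∈ disc ρ := by
    show (0 : ℝ × ℝ).1 ^ 2 + (0 : ℝ × ℝ).2 ^ 2 < ρ ^ 2
    simp; positivity
  obtain ⟨w1, w2⟩ := abs_le_of_disc hρ.le hz
  have ha := hB.au z (hsub hz)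
  have hb := abs_sub_le_disc (f := T.b) (R := ρ) (C := 1 / 50) (D := 51 / 50)
    (s3 T.hb (by norm_num)) (fun v hv => hB.bx v (hsub hv)) (fun v hv => by
      have := abs_le.1 (hB.by' v (hsub hv))
      rw [abs_le]; constructor <;> linarith [this.1, this.2]) z hz 0 h0m
  simp only [Prod.fst_zero, Prod.snd_zero, sub_zero, hN.b0] at hb
  have ha2 : |T.a z| ≤ 2 * ρ := by
    have : |T.a z| ≤ |T.a z - z.1| + |z.1| := by
      have := abs_add_le (T.a z - z.1) z.1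
      simpa using this
    linarith
  have hb2 : |T.b z| ≤ 2 * ρ := by
    linarith
  calc |sf T.a T.b α z| ≤ |α * T.a z| + |T.b z| := abs_add_le _ _
    _ ≤ α * (2 * ρ) + 2 * ρ := by
        rw [abs_mul, abs_of_nonneg hα]; gcongr
    _ = 2 * (α + 1) * ρ := by ring

/-- positivity of the other side -/
theorem Qf_lower {α : ℝ} (hB : Basic M ε C0 j0 T) (hα : 0 ≤ α) (hz : z ∈ disc 2) :
    1 / 2 ≤ Qf T α z := by
  have j1 := hB.J0l z hz
  have j2 := hB.J0u z hz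
  have ax := abs_le.1 (hB.ax z hz)
  have ay := abs_le.1 (hB.ay z hz)
  have bx := abs_le.1 (hB.bx z hz)
  have by' := abs_le.1 (hB.by' z hz)
  have e : Qf T α z = ((dy T.b z + α * dy T.a z) ^ 2 + (dx T.b z + α * dx T.a z) ^ 2)
      / br T.a T.b z ^ 2 := by
    simp only [Qf, g11, g12, g22]
    have : br T.a T.b z ≠ 0 := by linarith
    field_simp
    ring
  have hJ : br T.a T.b z ^ 2 ≤ 121 / 100 := by nlinarith
  have hJp : 0 < br T.a T.b z ^ 2 := by positivity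
  rw [e, le_div_iff₀ hJp]
  set A := dx T.a z
  set B := dy T.a z
  set C := dx T.b z
  set D := dy T.b z
  have hD : 96 / 100 ≤ D ^ 2 := by nlinarith [by'.1]
  have hA : 96 / 100 ≤ A ^ 2 := by nlinarith [ax.1]
  have hcross : |D * B + C * A| ≤ 41 / 1000 := by
    have hDa : |D| ≤ 51 / 50 := abs_le.2 ⟨by linarith [by'.1], by linarith [by'.2]⟩
    have hAa : |A| ≤ 51 / 50 := abs_le.2 ⟨by linarith [ax.1], by linarith [ax.2]⟩
    have hBa : |B| ≤ 1 / 50 := abs_le.2 ay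
    have hCa : |C| ≤ 1 / 50 := abs_le.2 bx
    calc |D * B + C * A| ≤ |D * B| + |C * A| := abs_add_le _ _
      _ = |D| * |B| + |C| * |A| := by rw [abs_mul, abs_mul]
      _ ≤ 51 / 50 * (1 / 50) + 1 / 50 * (51 / 50) := by gcongr
      _ ≤ 41 / 1000 := by norm_num
  have hcl := (abs_le.1 hcross).1
  have h1 : (D + α * B) ^ 2 + (C + α * A) ^ 2
      = D ^ 2 + C ^ 2 + α ^ 2 * (A ^ 2 + B ^ 2) + 2 * α * (D * B + C * A) := by ring
  rw [h1]
  have h2 : -(41 / 1000) * (2 * α) ≤ 2 * α * (D * B + C * A) := by nlinarith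
  have h3 : 96 / 100 * α ^ 2 ≤ α ^ 2 * (A ^ 2 + B ^ 2) := by nlinarith [sq_nonneg B, sq_nonneg α]
  nlinarith [sq_nonneg (α - 1), sq_nonneg C]

end Taylor


/-! ### bounds for the coefficients -/

section Coef

theorem coef_bounds (C0 : ℝ) : ∃ D : ℝ, 0 < D ∧ ∀ (M ε j0 : ℝ) (T : Tri), Basic M ε C0 j0 T →
    Bd (disc 2) 1 D (Lo T.a T.b (pf T)) ∧ Bd (disc 2) 1 D (Lo T.a T.b (Pf T)) ∧
    Bd (disc 2) 1 D (No T.a T.b (Pf T)) ∧
    ∀ z ∈ disc 2, |Lo T.a T.b (cut : ℝ × ℝ → ℝ) z| ≤ D ∧ |No T.a T.b (cut : ℝ × ℝ → ℝ) z| ≤ D ∧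
      |Lo T.a T.b (Lo T.a T.b (cut : ℝ × ℝ → ℝ)) z| ≤ D ∧
      |Lo T.a T.b (No T.a T.b (cut : ℝ × ℝ → ℝ)) z| ≤ D ∧
      |No T.a T.b (No T.a T.b (cut : ℝ × ℝ → ℝ)) z| ≤ D := by
  obtain ⟨K, hK, hcut⟩ := exists_bd_cut 2
  obtain ⟨D1, hD1, h1⟩ := Lo_No_bd 1 C0 C0
  obtain ⟨D2, hD2, h2⟩ := Lo_No_bd 1 C0 K
  obtain ⟨D3, hD3, h3⟩ := Lo_No_bd 0 C0 D2
  refine ⟨max D1 (max D2 D3), lt_max_of_lt_left hD1, fun M ε j0 T hB => ?_⟩
  have hO := isOpen_disc 2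
  have sa : ∀ n : ℕ, n ≤ 3 → Sm n (disc 2) T.a := fun n hn => s3 T.ha hn
  have sb : ∀ n : ℕ, n ≤ 3 → Sm n (disc 2) T.b := fun n hn => s3 T.hb hn
  have sc : ∀ n : ℕ, Sm n (disc 2) (cut : ℝ × ℝ → ℝ) := fun n => sInf cut_contDiff
  have hJ := hB.J0l
  have hJ0 : ∀ z ∈ disc 2, br T.a T.b z ≠ 0 := fun z hz => by linarith [hJ z hz]
  have a2 : Bd (disc 2) (1 + 1) C0 T.a := hB.bda.of_le (by norm_num)
  have b2 : Bd (disc 2) (1 + 1) C0 T.b := hB.bdb.of_le (by norm_num)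
  have a1 : Bd (disc 2) (0 + 1) C0 T.a := hB.bda.of_le (by norm_num)
  have b1 : Bd (disc 2) (0 + 1) C0 T.b := hB.bdb.of_le (by norm_num)
  have le1 : D1 ≤ max D1 (max D2 D3) := le_max_left _ _
  have le2 : D2 ≤ max D1 (max D2 D3) := (le_max_left _ _).trans (le_max_right _ _)
  have le3 : D3 ≤ max D1 (max D2 D3) := (le_max_right _ _).trans (le_max_right _ _)
  have p1 := h1 T.a T.b (pf T) (sa _ (by norm_num)) (sb _ (by norm_num)) hB.sp a2 b2 hB.bdp hJ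
  have p2 := h1 T.a T.b (Pf T) (sa _ (by norm_num)) (sb _ (by norm_num)) hB.reg.sP a2 b2 hB.bdP hJ
  have c1 := h2 T.a T.b cut (sa _ (by norm_num)) (sb _ (by norm_num)) (sc _) a2 b2 (hcut.mono (subset_univ _) le_rfl) hJ
  have sL : Sm (0 + 1) (disc 2) (Lo T.a T.b (cut : ℝ × ℝ → ℝ)) :=
    Sm.Lo (n := 1) hO (sa _ (by norm_num)) (sb _ (by norm_num)) (sc _) hJ0
  have sN : Sm (0 + 1) (disc 2) (No T.a T.b (cut : ℝ × ℝ → ℝ)) :=
    Sm.No (n := 1) hO (sa _ (by norm_num)) (sb _ (by norm_num)) (sc _) hJ0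
  have c2 := h3 T.a T.b _ (sa _ (by norm_num)) (sb _ (by norm_num)) sL a1 b1 c1.1 hJ
  have c3 := h3 T.a T.b _ (sa _ (by norm_num)) (sb _ (by norm_num)) sN a1 b1 c1.2 hJ
  refine ⟨p1.1.mono subset_rfl le1, p2.1.mono subset_rfl le1, p2.2.mono subset_rfl le1,
    fun z hz => ⟨?_, ?_, ?_, ?_, ?_⟩⟩
  · exact (c1.1.bound hz).trans le2
  · exact (c1.2.bound hz).trans le2
  · exact (c2.1.bound hz).trans le3
  · exact (c3.1.bound hz).trans le3
  · exact (c3.2.bound hz).trans le3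

theorem lip_of_bd {f : ℝ × ℝ → ℝ} {D : ℝ} (hf : Sm 1 (disc 2) f) (h : Bd (disc 2) 1 D f)
    (hz : z ∈ disc 2) : |f z - f 0| ≤ D * (|z.1| + |z.2|) := by
  have h0 : (0 : ℝ × ℝ) ∈ disc 2 := by simp [disc]
  have := abs_sub_le_disc hf (fun v hv => h.2.1 v hv) (fun v hv => h.2.2 v hv) z hz 0 h0
  simp only [Prod.fst_zero, Prod.snd_zero, sub_zero] at this
  linarith

variable {T : Tri} {M ε C0 j0 e0 D α : ℝ}

theorem Bf_lip (hB : Basic M ε C0 j0 T) (hα : 0 ≤ α)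
    (h1 : Bd (disc 2) 1 D (Lo T.a T.b (pf T))) (h2 : Bd (disc 2) 1 D (Lo T.a T.b (Pf T)))
    (h3 : Bd (disc 2) 1 D (No T.a T.b (Pf T))) (h0 : Bf T α 0 = 0) (hz : z ∈ disc 2) :
    |Bf T α z| ≤ (α + 1) ^ 2 * (D * (|z.1| + |z.2|)) := by
  have hO := isOpen_disc 2
  have sa : Sm (1 + 1) (disc 2) T.a := s3 T.ha (by norm_num)
  have sb : Sm (1 + 1) (disc 2) T.b := s3 T.hb (by norm_num)
  have hJ0 : ∀ z ∈ disc 2, br T.a T.b z ≠ 0 := fun z hz => by linarith [hB.J0l z hz]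
  have l1 := lip_of_bd (Sm.Lo hO sa sb hB.sp hJ0) h1 hz
  have l2 := lip_of_bd (Sm.Lo hO sa sb hB.reg.sP hJ0) h2 hz
  have l3 := lip_of_bd (Sm.No hO sa sb hB.reg.sP hJ0) h3 hz
  have e : Bf T α z = (No T.a T.b (Pf T) z - No T.a T.b (Pf T) 0) * α ^ 2
      - 2 * (Lo T.a T.b (Pf T) z - Lo T.a T.b (Pf T) 0) * α
      + (Lo T.a T.b (pf T) z - Lo T.a T.b (pf T) 0) := by
    have : Bf T α z = Bf T α z - Bf T α 0 := by rw [h0, sub_zero]
    rw [this]; simp only [Bf]; ring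
  rw [e]
  set X := No T.a T.b (Pf T) z - No T.a T.b (Pf T) 0
  set Y := Lo T.a T.b (Pf T) z - Lo T.a T.b (Pf T) 0
  set Z := Lo T.a T.b (pf T) z - Lo T.a T.b (pf T) 0
  set E := D * (|z.1| + |z.2|)
  calc |X * α ^ 2 - 2 * Y * α + Z| ≤ |X * α ^ 2 - 2 * Y * α| + |Z| := abs_add_le _ _
    _ ≤ |X * α ^ 2| + |2 * Y * α| + |Z| := by gcongr; exact abs_sub _ _
    _ = |X| * α ^ 2 + 2 * |Y| * α + |Z| := by
        rw [abs_mul, abs_mul, abs_mul, abs_of_nonneg (sq_nonneg α), abs_of_nonneg hα,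
          abs_of_pos (by norm_num : (0 : ℝ) < 2)]
    _ ≤ E * α ^ 2 + 2 * E * α + E := by gcongr
    _ = (α + 1) ^ 2 * E := by ring

theorem mp_le {t s0 S : ℝ} (hS : 0 ≤ S) (h0 : 0 ≤ s0) (h : |t| ≤ S) : max (t - s0) 0 ≤ S :=
  max_le (by linarith [(abs_le.1 h).2]) hS

theorem Mo_bd {A s0 : ℝ} (hB : Basic M ε C0 j0 T) (hN : Nrm M ε e0 T) (hα : 0 ≤ α) (hA : α ≤ A)
    (hs0 : 0 ≤ s0) (hD : 0 < D)
    (h1 : Bd (disc 2) 1 D (Lo T.a T.b (pf T))) (h2 : Bd (disc 2) 1 D (Lo T.a T.b (Pf T)))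
    (h3 : Bd (disc 2) 1 D (No T.a T.b (Pf T)))
    (h4 : ∀ z ∈ disc 2, |Lo T.a T.b (cut : ℝ × ℝ → ℝ) z| ≤ D ∧
      |No T.a T.b (cut : ℝ × ℝ → ℝ) z| ≤ D ∧
      |Lo T.a T.b (Lo T.a T.b (cut : ℝ × ℝ → ℝ)) z| ≤ D ∧
      |Lo T.a T.b (No T.a T.b (cut : ℝ × ℝ → ℝ)) z| ≤ D ∧
      |No T.a T.b (No T.a T.b (cut : ℝ × ℝ → ℝ)) z| ≤ D)
    (hz : z ∈ disc (1 / 10)) :
    |Mo T (wf cut T.a T.b α s0) z| ≤ 4 * D * ((7 * D + 6) * (A + 1) ^ 3) := by
  have hz2 : z ∈ disc 2 := disc_mono (by norm_num) (by norm_num) hz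
  have hJ0 : ∀ z ∈ disc 2, br T.a T.b z ≠ 0 := fun z hz => by linarith [hB.J0l z hz]
  have hA0 : 0 ≤ A := hα.trans hA
  have hsz : |sf T.a T.b α z| ≤ A + 1 := by
    have := sf_size hB hN hα (by norm_num) (by norm_num) hz
    linarith
  obtain ⟨c1, c2, c3, c4, c5⟩ := h4 z hz2
  have m0 : 0 ≤ max (sf T.a T.b α z - s0) 0 := le_max_right _ _
  have m1 : max (sf T.a T.b α z - s0) 0 ≤ A + 1 := mp_le (by linarith) hs0 hsz
  have hcut0 : 0 ≤ cut z := cut.nonneg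
  have hcut1 : cut z ≤ 1 := cut.le_one
  have g0 : |G F0 T.a T.b α s0 z| ≤ (A + 1) ^ 3 := by
    show |F0 (sf T.a T.b α z - s0)| ≤ _
    rw [abs_of_nonneg (F0_nonneg _)]
    exact pow_le_pow_left₀ m0 m1 3
  have g1 : |G F1 T.a T.b α s0 z| ≤ 3 * (A + 1) ^ 2 := by
    show |F1 (sf T.a T.b α z - s0)| ≤ _
    rw [abs_of_nonneg (F1_nonneg _)]
    exact mul_le_mul_of_nonneg_left (pow_le_pow_left₀ m0 m1 2) (by norm_num)
  have g2 : |G F2 T.a T.b α s0 z| ≤ 6 * (A + 1) := by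
    show |F2 (sf T.a T.b α z - s0)| ≤ _
    rw [abs_of_nonneg (F2_nonneg _)]
    exact mul_le_mul_of_nonneg_left m1 (by norm_num)
  have hαA : α ≤ A + 1 := by linarith
  have hA1 : 1 ≤ A + 1 := by linarith
  have hct : |cut z| ≤ 1 := by rw [abs_of_nonneg hcut0]; exact hcut1
  set S := A + 1 with hS
  have hS0 : 0 ≤ S := by linarith
  have t1 : |Lo T.a T.b (Lo T.a T.b (wf cut T.a T.b α s0)) z| ≤ (7 * D + 6) * S ^ 3 := by
    rw [LoLo_wf (isOpen_disc 2) T.ha T.hb cut_contDiff hJ0 hz2]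
    refine (abs_add_le _ _).trans ((add_le_add (abs_add_le _ _) (abs_add_le _ _)).trans ?_)
    simp only [abs_mul]
    rw [abs_of_nonneg hα]
    calc _ ≤ D * S ^ 3 + D * (3 * S ^ 2 * S) + (D * (3 * S ^ 2 * S) + 1 * (6 * S * S * S)) := by
          gcongr
      _ = (7 * D + 6) * S ^ 3 := by ring
  have hSS : S ^ 2 ≤ S ^ 3 := pow_le_pow_right₀ hA1 (by norm_num)
  have hSS1 : S ≤ S ^ 3 := by
    calc S = S ^ 1 := (pow_one S).symm
      _ ≤ S ^ 3 := pow_le_pow_right₀ hA1 (by norm_num)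
  have t2 : |Lo T.a T.b (No T.a T.b (wf cut T.a T.b α s0)) z| ≤ (7 * D + 6) * S ^ 3 := by
    rw [LoNo_wf (isOpen_disc 2) T.ha T.hb cut_contDiff hJ0 hz2]
    refine (abs_add_le _ _).trans ((add_le_add (abs_add_le _ _) (abs_add_le _ _)).trans ?_)
    simp only [abs_mul]
    rw [abs_of_nonneg hα]
    calc _ ≤ D * S ^ 3 + D * (3 * S ^ 2 * S) + (D * (3 * S ^ 2) + 1 * (6 * S * S)) := by
          gcongr
      _ ≤ D * S ^ 3 + D * (3 * S ^ 2 * S) + (D * (3 * S ^ 3) + 6 * S ^ 3) := by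
          have : 6 * S * S ≤ 6 * S ^ 3 := by nlinarith
          have : D * (3 * S ^ 2) ≤ D * (3 * S ^ 3) := by gcongr
          linarith
      _ = (7 * D + 6) * S ^ 3 := by ring
  have t3 : |No T.a T.b (No T.a T.b (wf cut T.a T.b α s0)) z| ≤ (7 * D + 6) * S ^ 3 := by
    rw [NoNo_wf (isOpen_disc 2) T.ha T.hb cut_contDiff hJ0 hz2]
    refine (abs_add_le _ _).trans ((add_le_add (abs_add_le _ _) (abs_add_le _ _)).trans ?_)
    simp only [abs_mul]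
    calc _ ≤ D * S ^ 3 + D * (3 * S ^ 2) + (D * (3 * S ^ 2) + 1 * (6 * S)) := by
          gcongr
      _ ≤ D * S ^ 3 + D * (3 * S ^ 3) + (D * (3 * S ^ 3) + 6 * S ^ 3) := by
          have : D * (3 * S ^ 2) ≤ D * (3 * S ^ 3) := by gcongr
          linarith
      _ = (7 * D + 6) * S ^ 3 := by ring
  have b1 := h1.bound hz2
  have b2 := h2.bound hz2
  have b3 := h3.bound hz2
  simp only [Mo]
  refine (abs_add_le _ _).trans ((add_le_add_left (abs_sub _ _) _).trans ?_)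
  simp only [abs_mul]
  rw [abs_of_pos (by norm_num : (0 : ℝ) < 2)]
  calc _ ≤ D * ((7 * D + 6) * S ^ 3) + 2 * D * ((7 * D + 6) * S ^ 3)
        + D * ((7 * D + 6) * S ^ 3) := by gcongr
    _ = 4 * D * ((7 * D + 6) * S ^ 3) := by ring

end Coef

theorem cont_br {f g : ℝ × ℝ → ℝ} (hf : ContDiff ℝ 3 f) (hg : ContDiff ℝ 3 g) :
    Continuous (br f g) := by
  have h1 := (contDiff_dx (n := 2) hf).continuous
  have h2 := (contDiff_dy (n := 2) hf).continuous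
  have h3 := (contDiff_dx (n := 2) hg).continuous
  have h4 := (contDiff_dy (n := 2) hg).continuous
  exact (h1.mul h4).sub (h2.mul h3)

/-- the right side -/
theorem rhs_bound {T : Tri} {M ε C0 j0 α s0 b amp sg x y η m : ℝ} {w0 : ℝ × ℝ → ℝ}
    (hB : Basic M ε C0 j0 T) (hα : 0 ≤ α) (hb : 0 < b) (hb1 : b ≤ 1 / 20)
    (hw : ContDiff ℝ ∞ w0) (hout : ∀ z, z ∉ disc b → w0 z = 0)
    (hm : 0 ≤ m) (hamp : 0 ≤ amp)
    (hsgn : ∀ z ∈ disc b, 0 ≤ sg * w0 z * F2 (sf T.a T.b α z - s0))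
    (hη : 0 ≤ η)
    (hsq : ∀ z ∈ Icc (x - η) (x + η) ×ˢ Icc (y - η) (y + η), z ∈ disc b ∧ amp ≤ sg * w0 z ∧
      m ≤ F2 (sf T.a T.b α z - s0)) :
    9 / 20 * (amp * m) * (2 * η) ^ 2 ≤ sg * ∫ z, br T.a T.b z * (w0 z *
            (g11 T z * No T.a T.b (No T.a T.b (wf cut T.a T.b α s0)) z
              - 2 * g12 T z * Lo T.a T.b (No T.a T.b (wf cut T.a T.b α s0)) z
              + g22 T z * Lo T.a T.b (Lo T.a T.b (wf cut T.a T.b α s0)) z)) := by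
  have hJ0 : ∀ z ∈ disc 2, br T.a T.b z ≠ 0 := fun z hz => by linarith [hB.J0l z hz]
  have hb20 : disc b ⊆ disc (1 / 20) := disc_mono hb.le hb1
  have hb2 : disc b ⊆ disc 2 := hb20.trans sub12
  have e : ∀ z, br T.a T.b z * (w0 z *
            (g11 T z * No T.a T.b (No T.a T.b (wf cut T.a T.b α s0)) z
              - 2 * g12 T z * Lo T.a T.b (No T.a T.b (wf cut T.a T.b α s0)) z
              + g22 T z * Lo T.a T.b (Lo T.a T.b (wf cut T.a T.b α s0)) z))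
      = w0 z * (br T.a T.b z * (F2 (sf T.a T.b α z - s0) * Qf T α z)) := by
    intro z
    by_cases hz : z ∈ disc b
    · rw [Q_in hJ0 (hb20 hz)]
      simp only [G]
      ring
    · rw [hout z hz]; ring
  simp_rw [e]
  rw [← integral_const_mul]
  -- integrability
  have hK : disc b ⊆ Metric.closedBall (0 : ℝ × ℝ) b := by
    intro z hz
    obtain ⟨h1, h2⟩ := abs_le_of_disc hb.le hz
    rw [Metric.mem_closedBall, dist_zero_right, Prod.norm_def]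
    exact max_le (by rw [Real.norm_eq_abs]; exact h1.le) (by rw [Real.norm_eq_abs]; exact h2.le)
  have hK2 : Metric.closedBall (0 : ℝ × ℝ) b ⊆ disc 2 := by
    refine (Metric.closedBall_subset_closedBall (by linarith : b ≤ 7 / 100)).trans ?_
    exact ball_subset.trans (disc_mono (by norm_num) (by norm_num))
  have hc : HasCompactSupport w0 := by
    refine HasCompactSupport.intro (isCompact_closedBall (0 : ℝ × ℝ) b) ?_
    intro z hz
    exact hout z fun h => hz (hK h)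
  have hts : tsupport w0 ⊆ disc 2 := by
    refine (closure_minimal ?_ Metric.isClosed_closedBall).trans hK2
    intro z hz
    by_contra hcon
    exact hz (hout z fun h => hcon (hK h))
  have cF : Continuous fun z => F2 (sf T.a T.b α z - s0) :=
    continuous_F2.comp ((contDiff_sf T.ha T.hb).continuous.sub continuous_const)
  have cdxa := (contDiff_dx (n := 2) T.ha).continuous
  have cdya := (contDiff_dy (n := 2) T.ha).continuous
  have cdxb := (contDiff_dx (n := 2) T.hb).continuous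
  have cdyb := (contDiff_dy (n := 2) T.hb).continuous
  have cJ := cont_br T.ha T.hb
  have cQ : ContinuousOn (Qf T α) (disc 2) := by
    have hJ2 : ∀ z ∈ disc 2, br T.a T.b z ^ 2 ≠ 0 := fun z hz => pow_ne_zero 2 (hJ0 z hz)
    have q1 : ContinuousOn (g11 T) (disc 2) :=
      ContinuousOn.div ((cdyb.pow 2).add (cdxb.pow 2)).continuousOn (cJ.pow 2).continuousOn hJ2
    have q2 : ContinuousOn (g12 T) (disc 2) :=
      ContinuousOn.div ((cdyb.mul cdya).add (cdxb.mul cdxa)).neg.continuousOn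
        (cJ.pow 2).continuousOn hJ2
    have q3 : ContinuousOn (g22 T) (disc 2) :=
      ContinuousOn.div ((cdya.pow 2).add (cdxa.pow 2)).continuousOn (cJ.pow 2).continuousOn hJ2
    exact (q1.sub ((continuousOn_const.mul q2).mul continuousOn_const)).add
      (q3.mul continuousOn_const)
  have ck : ContinuousOn (fun z => br T.a T.b z * (F2 (sf T.a T.b α z - s0) * Qf T α z)) (disc 2) :=
    cJ.continuousOn.mul (cF.continuousOn.mul cQ)
  have cont : Continuous fun z =>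
      w0 z * (br T.a T.b z * (F2 (sf T.a T.b α z - s0) * Qf T α z)) := by
    have := contDiff_mul_of_tsupport (n := 0) (isOpen_disc 2) (f := w0)
      (hw.of_le (by simp)) hts (contDiffOn_zero.2 ck)
    exact this.continuous
  have hint : Integrable fun z =>
      sg * (w0 z * (br T.a T.b z * (F2 (sf T.a T.b α z - s0) * Qf T α z))) :=
    (cont.integrable_of_hasCompactSupport hc.mul_right).const_mul sg
  set Sq : Set (ℝ × ℝ) := Icc (x - η) (x + η) ×ˢ Icc (y - η) (y + η) with hSq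
  have mS : MeasurableSet Sq := measurableSet_Icc.prod measurableSet_Icc
  have e2 : 9 / 20 * (amp * m) * (2 * η) ^ 2 = ∫ z, Sq.indicator (fun _ => 9 / 20 * (amp * m)) z := by
    rw [integral_indicator mS, setIntegral_const, volume_box x y η hη, smul_eq_mul]
    ring
  rw [e2]
  refine integral_mono_of_nonneg (Filter.Eventually.of_forall fun z =>
    indicator_nonneg (fun _ _ => by positivity) z) hint (Filter.Eventually.of_forall fun z => ?_)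
  by_cases hz : z ∈ Sq
  · obtain ⟨z1, z2, z3⟩ := hsq z hz
    show Sq.indicator (fun _ => 9 / 20 * (amp * m)) z ≤ _
    rw [indicator_of_mem hz]
    have hJ := hB.J0l z (hb2 z1)
    have hQ := Qf_lower hB hα (hb2 z1)
    have hp : 0 ≤ sg * w0 z := hamp.trans z2
    have hF : 0 ≤ F2 (sf T.a T.b α z - s0) := hm.trans z3
    calc 9 / 20 * (amp * m) = amp * (9 / 10 * (m * (1 / 2))) := by ring
      _ ≤ (sg * w0 z) * (br T.a T.b z * (F2 (sf T.a T.b α z - s0) * Qf T α z)) := by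
          gcongr
      _ = _ := by ring
  · show Sq.indicator (fun _ => 9 / 20 * (amp * m)) z ≤ _
    rw [indicator_of_notMem hz]
    by_cases hzb : z ∈ disc b
    · have hJ := hB.J0l z (hb2 hzb)
      have hQ := Qf_lower hB hα (hb2 hzb)
      have hs := hsgn z hzb
      have : sg * (w0 z * (br T.a T.b z * (F2 (sf T.a T.b α z - s0) * Qf T α z)))
          = (sg * w0 z * F2 (sf T.a T.b α z - s0)) * (br T.a T.b z * Qf T α z) := by ring
      show 0 ≤ sg * (w0 z * (br T.a T.b z * (F2 (sf T.a T.b α z - s0) * Qf T α z)))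
      rw [this]
      exact mul_nonneg hs (mul_nonneg (by linarith) (by linarith))
    · show 0 ≤ sg * (w0 z * (br T.a T.b z * (F2 (sf T.a T.b α z - s0) * Qf T α z)))
      rw [hout z hzb]; simp


/-- pointwise bound of the left side near the bump -/
theorem F_in {T : Tri} {M ε C0 j0 e0 D α A s0 b C1 : ℝ} {v : ℝ × ℝ → ℝ}
    (hB : Basic M ε C0 j0 T) (hN : Nrm M ε e0 T) (hα : 0 ≤ α) (hA : α ≤ A)
    (hs0 : 0 ≤ s0) (hD : 0 < D)
    (h1 : Bd (disc 2) 1 D (Lo T.a T.b (pf T))) (h2 : Bd (disc 2) 1 D (Lo T.a T.b (Pf T)))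
    (h3 : Bd (disc 2) 1 D (No T.a T.b (Pf T))) (hBf0 : Bf T α 0 = 0)
    (hC1b : 0 < C1 * b) (hC1b' : C1 * b ≤ 1 / 20) (hz : z ∈ disc (C1 * b)) :
    |br T.a T.b z * (v z * Mo T (wf cut T.a T.b α s0) z)|
      ≤ 11 / 10 * (24 * (A + 1) ^ 3 * D * C1 ^ 2) * b ^ 2 * |v z| := by
  have hJ0 : ∀ z ∈ disc 2, br T.a T.b z ≠ 0 := fun z hz => by linarith [hB.J0l z hz]
  have hz20 : z ∈ disc (1 / 20) := disc_mono hC1b.le hC1b' hz
  have hz2 : z ∈ disc 2 := sub12 hz20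
  rw [Mo_in hJ0 hz20]
  have j1 := hB.J0l z hz2
  have j2 := hB.J0u z hz2
  have hA0 : 0 ≤ A := hα.trans hA
  have hsz := sf_size hB hN hα hC1b (by linarith) hz
  have hmp : max (sf T.a T.b α z - s0) 0 ≤ 2 * (α + 1) * (C1 * b) :=
    mp_le (by positivity) hs0 hsz
  have hG : |G F2 T.a T.b α s0 z| ≤ 12 * (A + 1) * (C1 * b) := by
    show |F2 (sf T.a T.b α z - s0)| ≤ _
    rw [abs_of_nonneg (F2_nonneg _)]
    have h5 : F2 (sf T.a T.b α z - s0) ≤ 6 * (2 * (α + 1) * (C1 * b)) :=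
      mul_le_mul_of_nonneg_left hmp (by norm_num)
    refine h5.trans ?_
    have h6 : α * (C1 * b) ≤ A * (C1 * b) := mul_le_mul_of_nonneg_right hA hC1b.le
    linarith
  have hBfz := Bf_lip hB hα h1 h2 h3 hBf0 hz2
  obtain ⟨w1, w2⟩ := abs_le_of_disc hC1b.le hz
  have hBf2 : |Bf T α z| ≤ (A + 1) ^ 2 * (D * (2 * (C1 * b))) := by
    refine hBfz.trans ?_
    have h5 : |z.1| + |z.2| ≤ 2 * (C1 * b) := by linarith
    have h6 : (α + 1) ^ 2 ≤ (A + 1) ^ 2 := pow_le_pow_left₀ (by linarith) (by linarith) 2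
    exact mul_le_mul h6 (mul_le_mul_of_nonneg_left h5 hD.le) (by positivity) (by positivity)
  rw [abs_mul, abs_mul, abs_mul, abs_of_pos (by linarith : 0 < br T.a T.b z)]
  have h7 : |G F2 T.a T.b α s0 z| * |Bf T α z|
      ≤ 12 * (A + 1) * (C1 * b) * ((A + 1) ^ 2 * (D * (2 * (C1 * b)))) :=
    mul_le_mul hG hBf2 (abs_nonneg _) (by positivity)
  calc br T.a T.b z * (|v z| * (|G F2 T.a T.b α s0 z| * |Bf T α z|))
      ≤ 11 / 10 * (|v z| * (12 * (A + 1) * (C1 * b) * ((A + 1) ^ 2 * (D * (2 * (C1 * b)))))) :=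
        mul_le_mul j2 (mul_le_mul_of_nonneg_left h7 (abs_nonneg _)) (by positivity) (by norm_num)
    _ = 11 / 10 * (24 * (A + 1) ^ 3 * D * C1 ^ 2) * b ^ 2 * |v z| := by ring

/-- Taylor on the small disc -/
theorem tay {T : Tri} {M ε C0 j0 e0 α A b : ℝ} (hB : Basic M ε C0 j0 T) (hN : Nrm M ε e0 T)
    (hC : 0 ≤ C0) (hα : 0 ≤ α) (hA : α ≤ A) (hb : 0 < b) (hb2 : b ≤ 2) (hz : z ∈ disc b) :
    |sf T.a T.b α z - e0 * (α * z.1 + z.2)| ≤ (A + 1) * (4 * C0) * b ^ 2 := by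
  refine (sf_taylor hB hN hC hα hb hb2 hz).trans ?_
  have h : (α + 1) * (4 * C0 * b ^ 2) ≤ (A + 1) * (4 * C0 * b ^ 2) :=
    mul_le_mul_of_nonneg_right (by linarith) (by positivity)
  calc (α + 1) * (4 * C0 * b ^ 2) ≤ (A + 1) * (4 * C0 * b ^ 2) := h
    _ = (A + 1) * (4 * C0) * b ^ 2 := by ring

/-- the right side, estimated -/
theorem rhs_final {T : Tri} {M ε C0 j0 e0 α A s0 b β amp sg a q : ℝ} {w0 : ℝ × ℝ → ℝ}
    (hB : Basic M ε C0 j0 T) (hN : Nrm M ε e0 T) (hC : 0 ≤ C0) (he : 99 / 100 ≤ e0)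
    (hα : 0 ≤ α) (hA : α ≤ A) (hb : 0 < b) (hb1 : b ≤ 1 / 20) (hβ : 0 < β)
    (hw : ContDiff ℝ ∞ w0) (hout : ∀ z, z ∉ disc b → w0 z = 0) (hamp : 0 ≤ amp)
    (hq : q = Real.sqrt (1 + α ^ 2)) (ha : b ^ 2 / 4 ≤ a) (hab : a + β ≤ b ^ 2)
    (hs0 : s0 = e0 * q * Real.sqrt a + (A + 1) * (4 * C0) * b ^ 2)
    (hK : 40 * ((A + 1) * (4 * C0) * b ^ 2) ≤ β / b)
    (hsign : ∀ z : ℝ × ℝ, a ≤ z.1 ^ 2 + z.2 ^ 2 → 0 ≤ sg * w0 z)
    (hbig : ∀ z : ℝ × ℝ, a + β / 4 ≤ z.1 ^ 2 + z.2 ^ 2 → z.1 ^ 2 + z.2 ^ 2 ≤ a + 3 * β / 4 →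
      amp ≤ sg * w0 z) :
    2 * (27 / 163840 * amp * (β / b) ^ 3) ≤ sg * ∫ z, br T.a T.b z * (w0 z *
            (g11 T z * No T.a T.b (No T.a T.b (wf cut T.a T.b α s0)) z
              - 2 * g12 T z * Lo T.a T.b (No T.a T.b (wf cut T.a T.b α s0)) z
              + g22 T z * Lo T.a T.b (Lo T.a T.b (wf cut T.a T.b α s0)) z)) := by
  have he0 : 0 < e0 := by linarith
  have ha0 : 0 < a := lt_of_lt_of_le (by positivity) ha
  have hq1 : 1 ≤ q := by rw [hq]; exact Real.one_le_sqrt.2 (by nlinarith)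
  obtain ⟨ρ, hρ⟩ : ∃ ρ, ρ = Real.sqrt (a + β / 2) := ⟨_, rfl⟩
  obtain ⟨η, hη⟩ : ∃ η, η = β / (64 * b) := ⟨_, rfl⟩
  have hη0 : 0 ≤ η := by rw [hη]; positivity
  have e3 : 9 / 20 * (amp * (6 * (β / (8 * b)))) * (2 * η) ^ 2
      = 2 * (27 / 163840 * amp * (β / b) ^ 3) := by
    rw [hη]; field_simp; ring
  rw [← e3]
  refine rhs_bound (T := T) (α := α) (s0 := s0) (b := b) (amp := amp) (sg := sg)
    (x := ρ * (α / q)) (y := ρ * (1 / q)) (η := η) (m := 6 * (β / (8 * b))) (w0 := w0) hB hα hb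
    hb1 hw hout (by positivity) hamp ?_ hη0 ?_
  · intro z hz
    by_cases hsz : sf T.a T.b α z ≤ s0
    · have : F2 (sf T.a T.b α z - s0) = 0 := by
        unfold F2
        rw [max_eq_right (by linarith), mul_zero]
      rw [this, mul_zero]
    · push Not at hsz
      have h6 := radius_of_lt he0 hq ha0.le hs0 (tay hB hN hC hα hA hb (by linarith) hz) hsz
      exact mul_nonneg (hsign z h6.le) (F2_nonneg _)
  · intro z hz
    have hz1 : |z.1 - ρ * (α / q)| ≤ η := abs_le.2 ⟨by linarith [hz.1.1], by linarith [hz.1.2]⟩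
    have hz2 : |z.2 - ρ * (1 / q)| ≤ η := abs_le.2 ⟨by linarith [hz.2.1], by linarith [hz.2.2]⟩
    obtain ⟨g1, g2⟩ := geo_square hb hβ ha hab hα hq hρ hη rfl rfl hz1 hz2
    obtain ⟨g3, g4⟩ := abs_le.1 g1
    have hzb : z ∈ disc b := by
      show z.1 ^ 2 + z.2 ^ 2 < b ^ 2
      linarith
    refine ⟨hzb, hbig z (by linarith) (by linarith), ?_⟩
    have h5 := gap_on_square he hq1 hb hβ hs0 hK (tay hB hN hC hα hA hb (by linarith) hzb) g2
    show 6 * (β / (8 * b)) ≤ F2 (sf T.a T.b α z - s0)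
    unfold F2
    exact mul_le_mul_of_nonneg_left (h5.trans (le_max_left _ _)) (by norm_num)

/-- the left side, estimated -/
theorem lhs_final {T : Tri} {M ε C0 j0 e0 D α A s0 b C1 V1 V2 : ℝ} {v : ℝ × ℝ → ℝ}
    (hB : Basic M ε C0 j0 T) (hN : Nrm M ε e0 T) (hα : 0 ≤ α) (hA : α ≤ A)
    (hs0 : 0 ≤ s0) (hD : 0 < D)
    (h1 : Bd (disc 2) 1 D (Lo T.a T.b (pf T))) (h2 : Bd (disc 2) 1 D (Lo T.a T.b (Pf T)))
    (h3 : Bd (disc 2) 1 D (No T.a T.b (Pf T)))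
    (h4 : ∀ z ∈ disc 2, |Lo T.a T.b (cut : ℝ × ℝ → ℝ) z| ≤ D ∧
      |No T.a T.b (cut : ℝ × ℝ → ℝ) z| ≤ D ∧
      |Lo T.a T.b (Lo T.a T.b (cut : ℝ × ℝ → ℝ)) z| ≤ D ∧
      |Lo T.a T.b (No T.a T.b (cut : ℝ × ℝ → ℝ)) z| ≤ D ∧
      |No T.a T.b (No T.a T.b (cut : ℝ × ℝ → ℝ)) z| ≤ D) (hBf0 : Bf T α 0 = 0)
    (hC1b : 0 < C1 * b) (hC1b' : C1 * b ≤ 1 / 20) (hv : Continuous v)
    (hV1 : 0 ≤ V1) (hV2 : 0 ≤ V2)
    (i1 : ∫ z in disc (C1 * b), v z ^ 2 ≤ V1 ^ 2)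
    (i2 : ∫ z in {z | z ∈ disc (1 / 10) ∧ z ∉ disc (C1 * b)}, v z ^ 2 ≤ V2 ^ 2) :
    |∫ z, br T.a T.b z * (v z * Mo T (wf cut T.a T.b α s0) z)|
      ≤ 11 / 10 * (24 * (A + 1) ^ 3 * D * C1 ^ 2) * b ^ 2 * (2 * (C1 * b) * V1)
        + 11 / 10 * (4 * D * ((7 * D + 6) * (A + 1) ^ 3)) * (2 * (1 / 10) * V2) := by
  have hA0 : 0 ≤ A := hα.trans hA
  refine lhs_bound hv hC1b.le (by positivity) (by positivity) hV1 hV2 ?_ ?_ ?_ i1 i2
  · intro z hz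
    exact F_in hB hN hα hA hs0 hD h1 h2 h3 hBf0 hC1b hC1b' hz
  · intro z hz _
    have hz2 : z ∈ disc 2 := disc_mono (by norm_num) (by norm_num) hz
    have j1 := hB.J0l z hz2
    have j2 := hB.J0u z hz2
    have hM1 := Mo_bd hB hN hα hA hs0 hD h1 h2 h3 h4 hz
    rw [abs_mul, abs_mul, abs_of_pos (by linarith : 0 < br T.a T.b z)]
    calc br T.a T.b z * (|v z| * |Mo T (wf cut T.a T.b α s0) z|)
        ≤ 11 / 10 * (|v z| * (4 * D * ((7 * D + 6) * (A + 1) ^ 3))) :=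
          mul_le_mul j2 (mul_le_mul_of_nonneg_left hM1 (abs_nonneg _)) (by positivity)
            (by norm_num)
      _ = 11 / 10 * (4 * D * ((7 * D + 6) * (A + 1) ^ 3)) * |v z| := by ring
  · intro z hz
    rw [Mo_out hz]; ring

end ContraAux3

open ContraAux hiding contDiff_sf Lo_G No_G diff_G Lo_wf No_wf diff_LoΘ diff_NoΘ LoLo_wf LoNo_wf NoNo_wf
  Lo_No_bd Bf Qf seconds_in Mo_in Q_in wf_zero Mo_out contDiff_wf tsupport_wf hasCompactSupport_wf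
  tsupport_wf_subset br0 dxP0 at0 exists_alpha taylor sf_taylor sf_size Qf_lower coef_bounds lip_of_bd
  Bf_lip Mo_bd cont_br rhs_bound F_in tay rhs_final lhs_final in
open ContraAux3 in
theorem bump_contra (M ε C0 j0 κ0 C1 : ℝ) (hM : 1 ≤ M) (hε : 0 < ε) (hC : 0 < C0) (hj : 0 < j0)
    (hκ : 0 < κ0) (hC1 : 1 ≤ C1) :
    ∃ c C b0 : ℝ, 0 < c ∧ 0 < C ∧ 0 < b0 ∧ ∀ (T : Tri) (e0 : ℝ) (v w0 : ℝ × ℝ → ℝ)
      (b β amp S0 V1 V2 : ℝ), Basic M ε C0 j0 T → Nrm M ε e0 T → 99 / 100 ≤ e0 → e0 ≤ 1 →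
      kf T 0 ≤ -κ0 ^ 2 → ContDiff ℝ 3 v → BumpDiff amp S0 b β w0 →
      (∀ w : ℝ × ℝ → ℝ, ContDiff ℝ 2 w → HasCompactSupport w → tsupport w ⊆ disc 2 →
        ∫ z, br T.a T.b z * (v z * Mo T w z) =
          -(1 / 2) * ∫ z, br T.a T.b z * (w0 z *
            (g11 T z * No T.a T.b (No T.a T.b w) z - 2 * g12 T z * Lo T.a T.b (No T.a T.b w) z
              + g22 T z * Lo T.a T.b (Lo T.a T.b w) z))) →
      0 < b → b < b0 → 0 < β → C * b ^ 2 ≤ β / b → 0 ≤ amp → 0 ≤ V1 → 0 ≤ V2 →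
      (∫ z in disc (C1 * b), v z ^ 2 ≤ V1 ^ 2) →
      (∫ z in {z | z ∈ disc (1 / 10) ∧ z ∉ disc (C1 * b)}, v z ^ 2 ≤ V2 ^ 2) →
      c * amp * (β / b) ^ 3 ≤ C * (b ^ 3 * V1 + V2) := by
  obtain ⟨D, hD, hcoef⟩ := coef_bounds C0
  obtain ⟨A, hA⟩ : ∃ A : ℝ, A = Real.sqrt C0 * (2 * M / ε) := ⟨_, rfl⟩
  have hA0 : 0 ≤ A := by rw [hA]; positivity
  obtain ⟨K3, hK3⟩ : ∃ K3 : ℝ, K3 = (A + 1) * (4 * C0) := ⟨_, rfl⟩
  have hK30 : 0 ≤ K3 := by rw [hK3]; positivity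
  obtain ⟨K1, hK1⟩ : ∃ K1 : ℝ, K1 = 11 / 10 * (24 * (A + 1) ^ 3 * D * C1 ^ 2) := ⟨_, rfl⟩
  have hK10 : 0 ≤ K1 := by rw [hK1]; positivity
  obtain ⟨K2, hK2⟩ : ∃ K2 : ℝ, K2 = 11 / 10 * (4 * D * ((7 * D + 6) * (A + 1) ^ 3)) := ⟨_, rfl⟩
  have hK20 : 0 ≤ K2 := by rw [hK2]; positivity
  refine ⟨27 / 163840, 2 * C1 * K1 + K2 / 5 + 40 * K3 + 1, 1 / (20 * C1), by norm_num,
    by positivity, by positivity, ?_⟩
  intro T e0 v w0 b β amp S0 V1 V2 hB hN he he1 hk hv hbump hweak hb hbb0 hβ hCb hamp hV1 hV2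
    hI1 hI2
  obtain ⟨a, sg, hsg, ha, hab, hsign, hbig⟩ := hbump.low
  have hk0 : kf T 0 ≤ 0 := hk.trans (by nlinarith [sq_nonneg κ0])
  obtain ⟨α, hα, hαA, hBf0⟩ := exists_alpha hM hε hC hB hN he he1 hk0
  rw [← hA] at hαA
  obtain ⟨d1, d2, d3, d4⟩ := hcoef M ε j0 T hB
  have he0 : 0 < e0 := by linarith
  have hC1b0 : 0 < C1 * b := by positivity
  have hC1b : C1 * b ≤ 1 / 20 := by
    rw [lt_div_iff₀ (by positivity)] at hbb0
    linarith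
  have hbC : b ≤ C1 * b := by nlinarith
  have hb20 : b ≤ 1 / 20 := hbC.trans hC1b
  obtain ⟨q, hq⟩ : ∃ q, q = Real.sqrt (1 + α ^ 2) := ⟨_, rfl⟩
  have hq1 : 1 ≤ q := by rw [hq]; exact Real.one_le_sqrt.2 (by nlinarith)
  obtain ⟨s0, hs0⟩ : ∃ s0, s0 = e0 * q * Real.sqrt a + K3 * b ^ 2 := ⟨_, rfl⟩
  have hs00 : 0 ≤ s0 := by rw [hs0]; positivity
  have h3 : 40 * (K3 * b ^ 2) ≤ β / b := by
    refine le_trans ?_ hCb
    have p1 : 0 ≤ (2 * C1 * K1 + K2 / 5 + 1) * b ^ 2 := by positivity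
    linarith
  -- the weak form
  have hW := hweak (wf cut T.a T.b α s0) contDiff_wf hasCompactSupport_wf tsupport_wf_subset
  -- left side
  have hL := lhs_final hB hN hα hαA hs00 hD d1 d2 d3 d4 hBf0 hC1b0 hC1b hv.continuous hV1 hV2
    hI1 hI2
  rw [← hK1, ← hK2] at hL
  -- right side
  have hR := rhs_final (A := A) (s0 := s0) (q := q) hB hN hC.le he hα hαA hb hb20 hβ hbump.sm
    hbump.out hamp hq ha hab (by rw [hs0, hK3]) (by rw [hK3] at h3; exact h3) hsign hbig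
  exact final_step hsg hW hR hL hb.le (by linarith) hK10 hK20 hK30 hV1 hV2

end Vale.Agent.P229.C3
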