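import Vale.Agent.P229.C3.DownTwo

/-!
# P229, module B, `C^3` version, part 2: the integrated inequalities
-/

namespace Vale.Agent.P229.C3.DownAux3

open MeasureTheory Set
open scoped ContDiff
open P229.DownAux

section
variable {C0 j0 ρ0 κ0 c c' b K : ℝ} {u P κ v : ℝ × ℝ → ℝ} {z : ℝ × ℝ}

theorem Dat.cta (D : Dat C0 j0 ρ0 κ0 c b u P κ v) : ContinuousOn (ta κ0 c b u P) (disc 2) :=
  Sm.cont D.sta

theorem Dat.com (D : Dat C0 j0 ρ0 κ0 c b u P κ v) :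
    ContinuousOn (fun z => om κ0 (P z)) (disc 2) :=
  (om_contDiff κ0).continuous.comp_continuousOn (Sm.cont D.reg.sP)

theorem Dat.cHd (D : Dat C0 j0 ρ0 κ0 c b u P κ v) (K : ℝ) :
    ContinuousOn (fun z => Hd K (ta κ0 c b u P z)) (disc 2) :=
  (Hd_continuous K).comp_continuousOn D.cta

theorem Dat.cG (D : Dat C0 j0 ρ0 κ0 c b u P κ v) :
    ContinuousOn (Gd C0 j0 κ0 c b u P v) (disc 2) :=
  (Sm.cont D.sJ).mul (((D.cHd _).mul D.com).mul
    (((Sm.cont D.sB).pow 2).add (continuousOn_const.mul ((Sm.cont D.sA).pow 2))))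

theorem Dat.cV (D : Dat C0 j0 ρ0 κ0 c b u P κ v) :
    ContinuousOn (Vd C0 j0 κ0 c b u P v) (disc 2) :=
  (Sm.cont D.sJ).mul (((D.cHd _).mul D.com).mul ((Sm.cont D.sv).pow 2))

theorem Dat.cQ (D : Dat C0 j0 ρ0 κ0 c b u P κ v) {s : ℝ × ℝ → ℝ} (hs : ContinuousOn s (disc 2)) :
    ContinuousOn (Qd C0 j0 κ0 c b u P s) (disc 2) :=
  (Sm.cont D.sJ).mul (D.com.mul (((Hc_continuous _).comp_continuousOn D.cta).mul (hs.pow 2)))

theorem Dat.G_nonneg (D : Dat C0 j0 ρ0 κ0 c b u P κ v) (hz : z ∈ disc 2) :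
    0 ≤ Gd C0 j0 κ0 c b u P v z := by
  have h1 := (D.Jpos hz).le
  have h2 := Hd_nonneg (Kc_nonneg (C0 := C0) (κ0 := κ0) D.hj) (ta κ0 c b u P z)
  have h3 := om_nonneg κ0 (P z)
  unfold Gd; positivity

theorem Dat.V_nonneg (D : Dat C0 j0 ρ0 κ0 c b u P κ v) (hz : z ∈ disc 2) :
    0 ≤ Vd C0 j0 κ0 c b u P v z := by
  have h1 := (D.Jpos hz).le
  have h2 := Hd_nonneg (Kc_nonneg (C0 := C0) (κ0 := κ0) D.hj) (ta κ0 c b u P z)
  have h3 := om_nonneg κ0 (P z)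
  unfold Vd; positivity

/-- pointwise form of the energy inequality -/
theorem Dat.energy_pt (D : Dat C0 j0 ρ0 κ0 c b u P κ v) {Dw : ℝ}
    (hD : ∀ p, |deriv (om κ0) p| ≤ Dw) (hz : z ∈ disc 1) :
    1 / 16 * Gd C0 j0 κ0 c b u P v z
      ≤ 2 / κ0 ^ 2 * Qd C0 j0 κ0 c b u P (Op u P κ v) z
        + E1 C0 j0 κ0 Dw * (Rs κ0 P).indicator (qf v) z
        - br (fun w => Wf (Kc C0 j0 κ0) κ0 c b u P w * (No u P v w * Lo u P v w)) P z
        - br u (fun w => Wf (Kc C0 j0 κ0) κ0 c b u P w *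
          (1 / 2 * (κ w * (No u P v w * No u P v w) - Lo u P v w * Lo u P v w))) z := by
  have hz2 : z ∈ disc 2 := disc_mono (by norm_num) (by norm_num) hz
  have hU := isOpen_disc 2
  have hid := energy_identity (u := u) (P := P) (κ := κ) (z := z)
    (W := Wf (Kc C0 j0 κ0) κ0 c b u P) (A := No u P v) (B := Lo u P v) (D.J0 z hz2)
    (((D.sW (Kc C0 j0 κ0)) z hz2).contDiffAt (hU.mem_nhds hz2) |>.differentiableAt (by simp))
    (D.sA.diff hU hz2) (D.sB.diff hU hz2) (D.reg.sk.diff hU hz2)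
    (Lo_No_comm hU (D.reg.su.of_le (by norm_num)) D.reg.sP (D.sv.of_le (by norm_num)) D.J0 hz2)
  rw [D.No_W _ hz2, D.Lo_W _ hz2] at hid
  have ha := D.main_a hz (No u P v z) (Lo u P v z)
  have hb := D.main_b hD hz
  have hs := source_absorb (t := ta κ0 c b u P z) (s := Op u P κ v z) (A := No u P v z)
    (Kc_nonneg (C0 := C0) (κ0 := κ0) D.hj) D.hκ
  have hOp : Op u P κ v z = Lo u P (Lo u P v) z + No u P (fun w => κ w * No u P v w) z := rfl
  have hJ := D.Jpos hz2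
  have hJ2 := D.J_le hz2
  have hw0 := om_nonneg κ0 (P z)
  have hC := D.hC
  have hj := D.hj
  have hE0 : 0 ≤ (Hm C0 j0 κ0 * Dw * (1 + C0) * (2 * C0 ^ 2 / j0 ^ 2)) := by
    have h1 : 0 ≤ Hm C0 j0 κ0 := Hm_nonneg
    have h2 : 0 ≤ Dw := (abs_nonneg _).trans (hD 0)
    positivity
  have hI0 : 0 ≤ (Rs κ0 P).indicator (qf v) z := indicator_nonneg (fun w _ => qf_nonneg v w) z
  unfold Gd Qd E1
  rw [← hOp] at hid
  have hWz : Wf (Kc C0 j0 κ0) κ0 c b u P z = Hf (Kc C0 j0 κ0) (ta κ0 c b u P z) * om κ0 (P z) := rfl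
  rw [hWz] at hid
  set h := Hd (Kc C0 j0 κ0) (ta κ0 c b u P z)
  set f := Hf (Kc C0 j0 κ0) (ta κ0 c b u P z)
  set w := om κ0 (P z)
  set e := deriv (om κ0) (P z)
  set N := No u P κ z
  set ζ := zd κ0 b (u z)
  set A := No u P v z
  set B := Lo u P v z
  set s := Op u P κ v z
  set J := br u P z
  set I := (Rs κ0 P).indicator (qf v) z
  set E := Hm C0 j0 κ0 * Dw * (1 + C0) * (2 * C0 ^ 2 / j0 ^ 2)
  set b1 := br (fun w => Wf (Kc C0 j0 κ0) κ0 c b u P w * (No u P v w * Lo u P v w)) P z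
  set b2 := br u (fun w => Wf (Kc C0 j0 κ0) κ0 c b u P w *
          (1 / 2 * (κ w * (No u P v w * No u P v w) - Lo u P v w * Lo u P v w))) z
  have hh0 : 0 ≤ h := Hd_nonneg (Kc_nonneg D.hj) _
  -- combine
  have e1 : 1 / 8 * (h * w * (B ^ 2 + κ0 ^ 2 * A ^ 2)) - E * I
      ≤ 1 / 2 * (h * w + f * e) * (B ^ 2 - κ z * A ^ 2) - -(ζ * (h * w)) * (A * B)
        + 1 / 2 * (f * w) * N * A ^ 2 := by
    linarith
  have e2 := mul_le_mul_of_nonneg_left e1 hJ.le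
  have e3 : s * (f * w) * A ≤ w * (κ0 ^ 2 / 16 * (h * A ^ 2)
      + 2 / κ0 ^ 2 * (Hc (Kc C0 j0 κ0) (ta κ0 c b u P z) * s ^ 2)) := by
    have := mul_le_mul_of_nonneg_left hs hw0
    linarith
  have e4 := mul_le_mul_of_nonneg_left e3 hJ.le
  have e5 : J * (E * I) ≤ 2 * C0 * C0 * (E * I) :=
    mul_le_mul_of_nonneg_right hJ2 (mul_nonneg hE0 hI0)
  have e6 : 0 ≤ J * (h * w * B ^ 2) := by positivity
  have e7 : 0 ≤ J * (h * w * (κ0 ^ 2 * A ^ 2)) := by positivity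
  set Hcc := Hc (Kc C0 j0 κ0) (ta κ0 c b u P z)
  have e8 : J * (w * (κ0 ^ 2 / 16 * (h * A ^ 2) + 2 / κ0 ^ 2 * (Hcc * s ^ 2)))
      = 1 / 16 * (J * (h * w * (κ0 ^ 2 * A ^ 2))) + 2 / κ0 ^ 2 * (J * (w * (Hcc * s ^ 2))) := by
    ring
  have e9 : J * (1 / 8 * (h * w * (B ^ 2 + κ0 ^ 2 * A ^ 2)) - E * I)
      = 1 / 8 * (J * (h * w * B ^ 2)) + 1 / 8 * (J * (h * w * (κ0 ^ 2 * A ^ 2))) - J * (E * I) := by
    ring
  have e10 : 1 / 16 * (J * (h * w * (B ^ 2 + κ0 ^ 2 * A ^ 2)))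
      = 1 / 16 * (J * (h * w * B ^ 2)) + 1 / 16 * (J * (h * w * (κ0 ^ 2 * A ^ 2))) := by ring
  rw [e8] at e4
  rw [e9] at e2
  rw [e10]
  linarith

/-- pointwise form of the zero order inequality -/
theorem Dat.zero_pt (D : Dat C0 j0 ρ0 κ0 c b u P κ v) {Dw : ℝ}
    (hD : ∀ p, |deriv (om κ0) p| ≤ Dw) (hz : z ∈ disc 1) :
    1 / 2 * Vd C0 j0 κ0 c b u P v z
      ≤ br u (fun w => Wf (Kc C0 j0 κ0) κ0 c b u P w * (v w * v w)) z
        + Qd C0 j0 κ0 c b u P (No u P v) z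
        + E2 C0 j0 κ0 Dw * (Rs κ0 P).indicator (qf v) z := by
  have hz2 : z ∈ disc 2 := disc_mono (by norm_num) (by norm_num) hz
  have hU := isOpen_disc 2
  have hid := second_identity (u := u) (P := P) (v := v) (z := z)
    (W := Wf (Kc C0 j0 κ0) κ0 c b u P) (D.J0 z hz2)
    (((D.sW (Kc C0 j0 κ0)) z hz2).contDiffAt (hU.mem_nhds hz2) |>.differentiableAt (by simp))
    (D.sv.diff hU hz2)
  rw [D.No_W _ hz2] at hid
  have hs := cross_absorb (t := ta κ0 c b u P z) (v := v z) (A := No u P v z)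
    (Kc_nonneg (C0 := C0) (κ0 := κ0) D.hj)
  have hJ := D.Jpos hz2
  have hJ2 := D.J_le hz2
  have hw0 := om_nonneg κ0 (P z)
  have hI0 : 0 ≤ (Rs κ0 P).indicator (qf v) z := indicator_nonneg (fun w _ => qf_nonneg v w) z
  have hM : 0 ≤ Hm C0 j0 κ0 := Hm_nonneg
  have hDw : 0 ≤ Dw := (abs_nonneg _).trans (hD 0)
  -- the error
  have herr : -(Hf (Kc C0 j0 κ0) (ta κ0 c b u P z) * deriv (om κ0) (P z) * v z ^ 2)
      ≤ Hm C0 j0 κ0 * Dw * (Rs κ0 P).indicator (qf v) z := by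
    by_cases hR : z ∈ Rs κ0 P
    · rw [indicator_of_mem hR]
      have hH : Hf (Kc C0 j0 κ0) (ta κ0 c b u P z) ≤ Hm C0 j0 κ0 :=
        Hf_le' (Kc_nonneg D.hj) (D.ta_le hz2) (by linarith [D.hC])
      have hH0 : 0 ≤ Hf (Kc C0 j0 κ0) (ta κ0 c b u P z) := Hf_nonneg _ _
      have he := hD (P z)
      have h1 : |Hf (Kc C0 j0 κ0) (ta κ0 c b u P z) * deriv (om κ0) (P z) * v z ^ 2|
          ≤ Hm C0 j0 κ0 * Dw * qf v z := by
        rw [abs_mul, abs_mul, abs_of_nonneg hH0, abs_of_nonneg (sq_nonneg (v z))]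
        have hq : v z ^ 2 ≤ qf v z := by
          unfold qf; nlinarith [sq_nonneg (dx v z), sq_nonneg (dy v z)]
        exact mul_le_mul (mul_le_mul hH he (abs_nonneg _) hM) hq (sq_nonneg _)
          (mul_nonneg hM hDw)
      linarith [neg_abs_le (Hf (Kc C0 j0 κ0) (ta κ0 c b u P z) * deriv (om κ0) (P z) * v z ^ 2)]
    · have hp : P z ≤ κ0 / 75 := by
        by_contra h
        exact hR ⟨hz, lt_of_lt_of_le (not_le.1 h) (le_abs_self _)⟩
      rw [indicator_of_notMem hR, om_deriv_eq_zero D.hκ hp]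
      simp
  unfold Vd Qd E2
  have hWz : Wf (Kc C0 j0 κ0) κ0 c b u P z = Hf (Kc C0 j0 κ0) (ta κ0 c b u P z) * om κ0 (P z) := rfl
  rw [hWz] at hid
  set h := Hd (Kc C0 j0 κ0) (ta κ0 c b u P z)
  set f := Hf (Kc C0 j0 κ0) (ta κ0 c b u P z)
  set w := om κ0 (P z)
  set e := deriv (om κ0) (P z)
  set A := No u P v z
  set J := br u P z
  set I := (Rs κ0 P).indicator (qf v) z
  set Hcc := Hc (Kc C0 j0 κ0) (ta κ0 c b u P z)
  set b1 := br u (fun w => Wf (Kc C0 j0 κ0) κ0 c b u P w * (v w * v w)) z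
  have e1 := mul_le_mul_of_nonneg_left herr hJ.le
  have e2 := mul_le_mul_of_nonneg_left (mul_le_mul_of_nonneg_left hs hw0) hJ.le
  have e3 : J * (Hm C0 j0 κ0 * Dw * I) ≤ 2 * C0 * C0 * (Hm C0 j0 κ0 * Dw * I) :=
    mul_le_mul_of_nonneg_right hJ2 (mul_nonneg (mul_nonneg hM hDw) hI0)
  have e4 : J * (w * (1 / 2 * (h * v z ^ 2) + Hcc * A ^ 2))
      = 1 / 2 * (J * (h * w * v z ^ 2)) + J * (w * (Hcc * A ^ 2)) := by ring
  have e5 : J * (w * -(2 * f * v z * A)) = -(J * (2 * (f * w) * v z * A)) := by ring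
  have e6 : b1 = J * (h * w * v z ^ 2) + J * (f * e * v z ^ 2) + J * (2 * (f * w) * v z * A) := by
    rw [hid]; ring
  rw [e4, e5] at e2
  rw [e6]
  have e7 : J * -(f * e * v z ^ 2) = - (J * (f * e * v z ^ 2)) := by ring
  rw [e7] at e1
  linarith

theorem Dat.cWg (D : Dat C0 j0 ρ0 κ0 c b u P κ v) (K : ℝ) {g : ℝ × ℝ → ℝ} (hg : Sm 1 (disc 2) g) :
    ContDiffOn ℝ 1 (fun w => Wf K κ0 c b u P w * g w) (disc 2) := (D.sW K).mul (c1 hg)

/-- integrated energy inequality -/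
theorem Dat.energy_int (D : Dat C0 j0 ρ0 κ0 c b u P κ v) {Dw d : ℝ}
    (hD : ∀ p, |deriv (om κ0) p| ≤ Dw) (hd : ∫ z in Rs κ0 P, qf v z ≤ d ^ 2) :
    ∫ z in disc 1, Gd C0 j0 κ0 c b u P v z
      ≤ 32 / κ0 ^ 2 * (∫ z in disc 1, Qd C0 j0 κ0 c b u P (Op u P κ v) z)
        + 16 * E1 C0 j0 κ0 Dw * d ^ 2 := by
  have sAB : Sm 1 (disc 2) (fun w => No u P v w * Lo u P v w) := D.sA.mul D.sB
  have sF2 : Sm 1 (disc 2) (fun w => 1 / 2 * (κ w * (No u P v w * No u P v w)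
      - Lo u P v w * Lo u P v w)) :=
    (Sm.const (1 / 2)).mul ((D.reg.sk.mul (D.sA.mul D.sA)).sub (D.sB.mul D.sB))
  have i1 : IntegrableOn (fun z => 1 / 16 * Gd C0 j0 κ0 c b u P v z) (disc 1) :=
    (int_on D.cG).const_mul _
  have i2 : IntegrableOn (fun z => 2 / κ0 ^ 2 * Qd C0 j0 κ0 c b u P (Op u P κ v) z) (disc 1) :=
    (int_on (D.cQ (Sm.cont D.sOp))).const_mul _
  have hRm : MeasurableSet (Rs κ0 P) := meas_Rs (Sm.cont D.reg.sP)
  have hq := (qf_cont D.hv).continuousOn (s := disc 2)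
  have i3 : IntegrableOn (fun z => E1 C0 j0 κ0 Dw * (Rs κ0 P).indicator (qf v) z) (disc 1) :=
    (int_ind_on hq hRm).const_mul _
  have c4 := D.cWg (Kc C0 j0 κ0) sAB
  have c5 := D.cWg (Kc C0 j0 κ0) sF2
  have i4 := int_on (cont_br c4 (c1 D.reg.sP))
  have i5 := int_on (cont_br (c1 D.reg.su) c5)
  have z4 := int_br c4 D.reg.sP (fun z hz hn => by rw [D.W_zero _ hz hn, zero_mul])
  have z5 := int_br' c5 (D.reg.su.of_le (by norm_num)) (fun z hz hn => by rw [D.W_zero _ hz hn, zero_mul])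
  have hmono := setIntegral_mono_on i1 (((i2.add i3).sub i4).sub i5) (isOpen_disc 1).measurableSet
    (fun z hz => D.energy_pt hD hz)
  have i23 : IntegrableOn (fun z => 2 / κ0 ^ 2 * Qd C0 j0 κ0 c b u P (Op u P κ v) z
      + E1 C0 j0 κ0 Dw * (Rs κ0 P).indicator (qf v) z) (disc 1) := i2.add i3
  have i234 := i23.sub i4
  have hsplit := integral_sub i234 i5
  have hsplit2 := integral_sub i23 i4
  have hsplit3 := integral_add i2 i3
  simp only [Pi.add_apply, Pi.sub_apply] at hmono hsplit hsplit2 hsplit3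
  rw [hsplit, hsplit2, hsplit3, z4, z5, integral_const_mul, integral_const_mul, integral_const_mul,
    int_ind hRm (fun z hz => hz.1)] at hmono
  have hE : 0 ≤ E1 C0 j0 κ0 Dw := by
    have h1 : 0 ≤ Hm C0 j0 κ0 := Hm_nonneg
    have h2 : 0 ≤ Dw := (abs_nonneg _).trans (hD 0)
    have hC := D.hC
    have hj := D.hj
    unfold E1; positivity
  have hd' := mul_le_mul_of_nonneg_left hd hE
  have e : 32 / κ0 ^ 2 * (∫ z in disc 1, Qd C0 j0 κ0 c b u P (Op u P κ v) z)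
      = 16 * (2 / κ0 ^ 2 * (∫ z in disc 1, Qd C0 j0 κ0 c b u P (Op u P κ v) z)) := by ring
  rw [e]
  linarith

/-- integrated zero order inequality -/
theorem Dat.zero_int (D : Dat C0 j0 ρ0 κ0 c b u P κ v) {Dw d : ℝ}
    (hD : ∀ p, |deriv (om κ0) p| ≤ Dw) (hd : ∫ z in Rs κ0 P, qf v z ≤ d ^ 2) :
    ∫ z in disc 1, Vd C0 j0 κ0 c b u P v z
      ≤ 2 * (∫ z in disc 1, Qd C0 j0 κ0 c b u P (No u P v) z)
        + 2 * E2 C0 j0 κ0 Dw * d ^ 2 := by
  have sVV : Sm 1 (disc 2) (fun w => v w * v w) := (D.sv.mul D.sv).of_le (by norm_num)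
  have i1 : IntegrableOn (fun z => 1 / 2 * Vd C0 j0 κ0 c b u P v z) (disc 1) :=
    (int_on D.cV).const_mul _
  have i2 : IntegrableOn (fun z => Qd C0 j0 κ0 c b u P (No u P v) z) (disc 1) :=
    int_on (D.cQ (Sm.cont D.sA))
  have hRm : MeasurableSet (Rs κ0 P) := meas_Rs (Sm.cont D.reg.sP)
  have hq := (qf_cont D.hv).continuousOn (s := disc 2)
  have i3 : IntegrableOn (fun z => E2 C0 j0 κ0 Dw * (Rs κ0 P).indicator (qf v) z) (disc 1) :=
    (int_ind_on hq hRm).const_mul _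
  have c5 := D.cWg (Kc C0 j0 κ0) sVV
  have i5 := int_on (cont_br (c1 D.reg.su) c5)
  have z5 := int_br' c5 (D.reg.su.of_le (by norm_num)) (fun z hz hn => by rw [D.W_zero _ hz hn, zero_mul])
  have hmono := setIntegral_mono_on i1 ((i5.add i2).add i3) (isOpen_disc 1).measurableSet
    (fun z hz => D.zero_pt hD hz)
  have hsplit := integral_add (i5.add i2) i3
  have hsplit2 := integral_add i5 i2
  simp only [Pi.add_apply] at hmono hsplit hsplit2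
  rw [hsplit, hsplit2, z5, integral_const_mul, integral_const_mul,
    int_ind hRm (fun z hz => hz.1)] at hmono
  have hE : 0 ≤ E2 C0 j0 κ0 Dw := by
    have h1 : 0 ≤ Hm C0 j0 κ0 := Hm_nonneg
    have h2 : 0 ≤ Dw := (abs_nonneg _).trans (hD 0)
    have hC := D.hC
    unfold E2; positivity
  have hd' := mul_le_mul_of_nonneg_left hd hE
  linarith

/-- source term -/
theorem Dat.Q_source (D : Dat C0 j0 ρ0 κ0 c b u P κ v) {T : ℝ} (hT : 0 ≤ T)
    (hta : ∀ z ∈ disc b, ta κ0 c b u P z ≤ T) {s : ℝ × ℝ → ℝ} (hs : ContinuousOn s (disc 2))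
    (hs0 : ∀ z ∈ disc 1, z ∉ disc b → s z = 0) :
    ∫ z in disc 1, Qd C0 j0 κ0 c b u P s z
      ≤ 2 * C0 * C0 * (T ^ 3 * Em C0 j0 κ0) * ∫ z in disc b, s z ^ 2 := by
  have hb1 : b ≤ 1 := by have := D.b_le; have := D.hκ1; linarith
  have hsub : disc b ⊆ disc 1 := disc_mono D.hb.le hb1
  have hmeas : MeasurableSet (disc b) := (isOpen_disc b).measurableSet
  have hC := D.hC
  have hE := Em_pos (C0 := C0) (j0 := j0) (κ0 := κ0)
  have hpt : ∀ z ∈ disc 1, Qd C0 j0 κ0 c b u P s z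
      ≤ 2 * C0 * C0 * (T ^ 3 * Em C0 j0 κ0) * (disc b).indicator (fun z => s z ^ 2) z := by
    intro z hz
    have hz2 : z ∈ disc 2 := disc_mono (by norm_num) (by norm_num) hz
    by_cases h : z ∈ disc b
    · rw [indicator_of_mem h]
      have h1 : Hc (Kc C0 j0 κ0) (ta κ0 c b u P z) ≤ T ^ 3 * Em C0 j0 κ0 :=
        Hc_le2 (Kc_nonneg D.hj) (hta z h) hT (D.ta_le hz2)
      have h2 := Hc_nonneg (Kc C0 j0 κ0) (ta κ0 c b u P z)
      have h3 := om_nonneg κ0 (P z)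
      have h4 := om_le_one κ0 (P z)
      have h5 := D.J_le hz2
      have h6 := (D.Jpos hz2).le
      unfold Qd
      have e1 : om κ0 (P z) * (Hc (Kc C0 j0 κ0) (ta κ0 c b u P z) * s z ^ 2)
          ≤ 1 * (T ^ 3 * Em C0 j0 κ0 * s z ^ 2) :=
        mul_le_mul h4 (mul_le_mul_of_nonneg_right h1 (sq_nonneg _))
          (mul_nonneg h2 (sq_nonneg _)) (by norm_num)
      have e2 := mul_le_mul h5 e1 (mul_nonneg h3 (mul_nonneg h2 (sq_nonneg _))) (by positivity)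
      calc _ ≤ _ := e2
        _ = _ := by ring
    · rw [indicator_of_notMem h]
      unfold Qd
      rw [hs0 z hz h]; simp
  have i1 := int_on (D.cQ hs)
  have i2 : IntegrableOn (fun z => 2 * C0 * C0 * (T ^ 3 * Em C0 j0 κ0)
      * (disc b).indicator (fun z => s z ^ 2) z) (disc 1) :=
    (int_ind_on (hs.pow 2) hmeas).const_mul _
  have h := setIntegral_mono_on i1 i2 (isOpen_disc 1).measurableSet hpt
  rw [integral_const_mul, int_ind hmeas hsub] at h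
  exact h

/-- crude estimate for the cubic term -/
theorem Dat.Q_crude (D : Dat C0 j0 ρ0 κ0 c b u P κ v) {T : ℝ} (hT0 : 0 ≤ T) (hz : z ∈ disc 2)
    (hT : ta κ0 c b u P z ≤ T) :
    Qd C0 j0 κ0 c b u P (No u P v) z ≤ T ^ 2 / (2 * κ0 ^ 2) * Gd C0 j0 κ0 c b u P v z := by
  have h1 := Hc_le (Kc_nonneg (C0 := C0) (κ0 := κ0) D.hj) hT hT0
  have h2 := Hd_nonneg (Kc_nonneg (C0 := C0) (κ0 := κ0) D.hj) (ta κ0 c b u P z)
  have h3 := om_nonneg κ0 (P z)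
  have h6 := (D.Jpos hz).le
  have hκ := D.hκ
  unfold Qd Gd
  set h := Hd (Kc C0 j0 κ0) (ta κ0 c b u P z)
  set w := om κ0 (P z)
  set J := br u P z
  set A := No u P v z
  set B := Lo u P v z
  have e1 : J * (w * (Hc (Kc C0 j0 κ0) (ta κ0 c b u P z) * A ^ 2))
      ≤ J * (w * (T ^ 2 / 2 * h * A ^ 2)) :=
    mul_le_mul_of_nonneg_left (mul_le_mul_of_nonneg_left
      (mul_le_mul_of_nonneg_right h1 (sq_nonneg _)) h3) h6
  have e2 : T ^ 2 / (2 * κ0 ^ 2) * (J * (h * w * (B ^ 2 + κ0 ^ 2 * A ^ 2)))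
      = J * (w * (T ^ 2 / 2 * h * A ^ 2)) + T ^ 2 / (2 * κ0 ^ 2) * (J * (h * w * B ^ 2)) := by
    field_simp; ring
  have e3 : 0 ≤ T ^ 2 / (2 * κ0 ^ 2) * (J * (h * w * B ^ 2)) := by positivity
  rw [e2]
  linarith

theorem Dat.meas_Si (D : Dat C0 j0 ρ0 κ0 c b u P κ v) : MeasurableSet (Si κ0 c b u P) := by
  have h1 := meas_le D.cta b
  have h2 := meas_le (Sm.cont D.reg.sP).neg (-(κ0 / 75))
  have e : Si κ0 c b u P = {z | z ∈ disc 1 ∧ b ≤ ta κ0 c b u P z} ∩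
      {z | z ∈ disc 1 ∧ -(κ0 / 75) ≤ (-P) z} := by
    ext z
    simp only [Si, mem_ofPred_eq, mem_inter_iff, Pi.neg_apply, neg_le_neg_iff]
    tauto
  rw [e]
  exact h1.inter h2

/-- lower bound for the weight -/
theorem Dat.weight_low (D : Dat C0 j0 ρ0 κ0 c b u P κ v) (hz : z ∈ Si κ0 c b u P) :
    2 * j0 * b ≤ br u P z * (Hd (Kc C0 j0 κ0) (ta κ0 c b u P z) * om κ0 (P z)) := by
  have hz2 : z ∈ disc 2 := disc_mono (by norm_num) (by norm_num) hz.1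
  have h1 : om κ0 (P z) = 1 := om_eq_one D.hκ (hz.2.2.trans (by
    have := D.hκ
    rw [div_le_div_iff₀ (by norm_num) (by norm_num)]; linarith))
  have h2 := two_mul_le_Hd (Kc_nonneg (C0 := C0) (κ0 := κ0) D.hj) (ta κ0 c b u P z)
  have h3 := hz.2.1
  rw [h1, mul_one]
  have hb := D.hb
  have hj := D.hj
  have h4 := mul_le_mul (D.reg.J z hz2) (show 2 * b ≤ Hd (Kc C0 j0 κ0) (ta κ0 c b u P z) by linarith)
    (by positivity) (D.Jpos hz2).le
  linarith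

theorem Dat.V_low (D : Dat C0 j0 ρ0 κ0 c b u P κ v) (hz : z ∈ Si κ0 c b u P) :
    v z ^ 2 ≤ 1 / (2 * j0 * b) * Vd C0 j0 κ0 c b u P v z := by
  have h := D.weight_low hz
  have hb := D.hb
  have hj := D.hj
  rw [one_div, inv_mul_eq_div, le_div_iff₀ (by positivity)]
  unfold Vd
  have := mul_le_mul_of_nonneg_left h (sq_nonneg (v z))
  calc _ ≤ _ := this
    _ = _ := by ring

theorem Dat.G_low (D : Dat C0 j0 ρ0 κ0 c b u P κ v) (hz : z ∈ Si κ0 c b u P) :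
    No u P v z ^ 2 ≤ 1 / (2 * j0 * b * κ0 ^ 2) * Gd C0 j0 κ0 c b u P v z := by
  have h := D.weight_low hz
  have hb := D.hb
  have hj := D.hj
  have hκ := D.hκ
  have hz2 : z ∈ disc 2 := disc_mono (by norm_num) (by norm_num) hz.1
  rw [one_div, inv_mul_eq_div, le_div_iff₀ (by positivity)]
  unfold Gd
  have h2 := Hd_nonneg (Kc_nonneg (C0 := C0) (κ0 := κ0) D.hj) (ta κ0 c b u P z)
  have h3 := om_nonneg κ0 (P z)
  have h6 := (D.Jpos hz2).le
  have := mul_le_mul_of_nonneg_left h (show 0 ≤ κ0 ^ 2 * No u P v z ^ 2 by positivity)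
  have h7 : 0 ≤ br u P z * (Hd (Kc C0 j0 κ0) (ta κ0 c b u P z) * om κ0 (P z) * Lo u P v z ^ 2) := by
    positivity
  calc No u P v z ^ 2 * (2 * j0 * b * κ0 ^ 2) = κ0 ^ 2 * No u P v z ^ 2 * (2 * j0 * b) := by ring
    _ ≤ _ := this
    _ ≤ κ0 ^ 2 * No u P v z ^ 2 * (br u P z * (Hd (Kc C0 j0 κ0) (ta κ0 c b u P z) * om κ0 (P z)))
        + br u P z * (Hd (Kc C0 j0 κ0) (ta κ0 c b u P z) * om κ0 (P z) * Lo u P v z ^ 2) := by
      linarith
    _ = _ := by ring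

theorem Dat.E1_nonneg (D : Dat C0 j0 ρ0 κ0 c b u P κ v) {Dw : ℝ} (hDw : 0 ≤ Dw) :
    0 ≤ E1 C0 j0 κ0 Dw := by
  have h1 : 0 ≤ Hm C0 j0 κ0 := Hm_nonneg
  have hC := D.hC
  have hj := D.hj
  unfold E1; positivity

theorem Dat.E2_nonneg (D : Dat C0 j0 ρ0 κ0 c b u P κ v) {Dw : ℝ} (hDw : 0 ≤ Dw) :
    0 ≤ E2 C0 j0 κ0 Dw := by
  have h1 : 0 ≤ Hm C0 j0 κ0 := Hm_nonneg
  have hC := D.hC
  unfold E2; positivity

/-- estimate (i) -/
theorem Dat.step_i (D : Dat C0 j0 ρ0 κ0 c b u P κ v) {Dw d : ℝ}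
    (hD : ∀ p, |deriv (om κ0) p| ≤ Dw) (hd : ∫ z in Rs κ0 P, qf v z ≤ d ^ 2)
    (hs0 : ∀ z ∈ disc 1, z ∉ disc b → Op u P κ v z = 0)
    (hta : ∀ z ∈ disc b, ta κ0 c b u P z ≤ 0) :
    ∫ z in Si κ0 c b u P, (v z ^ 2 + No u P v z ^ 2) ≤ Ci C0 j0 κ0 Dw * d ^ 2 / b := by
  have hDw : 0 ≤ Dw := (abs_nonneg _).trans (hD 0)
  have hE1 := D.E1_nonneg hDw
  have hE2 := D.E2_nonneg hDw
  have hb := D.hb
  have hj := D.hj
  have hκ := D.hκ
  have hC := D.hC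
  have g1 := D.energy_int hD hd
  have g2 := D.Q_source (T := 0) le_rfl hta (Sm.cont D.sOp) hs0
  have g3 := D.zero_int hD hd
  have g4 : ∫ z in disc 1, Qd C0 j0 κ0 c b u P (No u P v) z
      ≤ (2 * C0 + 2) ^ 2 / (2 * κ0 ^ 2) * ∫ z in disc 1, Gd C0 j0 κ0 c b u P v z := by
    rw [← integral_const_mul]
    refine setIntegral_mono_on (int_on (D.cQ (Sm.cont D.sA))) ((int_on D.cG).const_mul _)
      (isOpen_disc 1).measurableSet (fun z hz => ?_)
    have hz2 : z ∈ disc 2 := disc_mono (by norm_num) (by norm_num) hz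
    exact D.Q_crude (by linarith) hz2 (D.ta_le hz2)
  set IG := ∫ z in disc 1, Gd C0 j0 κ0 c b u P v z
  set IV := ∫ z in disc 1, Vd C0 j0 κ0 c b u P v z with hIV
  have k1 : IG ≤ 16 * E1 C0 j0 κ0 Dw * d ^ 2 := by
    have h0 : ∫ z in disc 1, Qd C0 j0 κ0 c b u P (Op u P κ v) z ≤ 0 := by simpa using g2
    have h1 : 32 / κ0 ^ 2 * (∫ z in disc 1, Qd C0 j0 κ0 c b u P (Op u P κ v) z) ≤ 0 :=
      mul_nonpos_of_nonneg_of_nonpos (by positivity) h0
    linarith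
  have k2 : IV ≤ 2 * ((2 * C0 + 2) ^ 2 / (2 * κ0 ^ 2) * (16 * E1 C0 j0 κ0 Dw * d ^ 2))
      + 2 * E2 C0 j0 κ0 Dw * d ^ 2 := by
    have h1 : (2 * C0 + 2) ^ 2 / (2 * κ0 ^ 2) * IG
        ≤ (2 * C0 + 2) ^ 2 / (2 * κ0 ^ 2) * (16 * E1 C0 j0 κ0 Dw * d ^ 2) :=
      mul_le_mul_of_nonneg_left k1 (by positivity)
    linarith
  have cV := D.cV
  have cG := D.cG
  have cg : ContinuousOn (fun z => 1 / (2 * j0 * b) * Vd C0 j0 κ0 c b u P v z
      + 1 / (2 * j0 * b * κ0 ^ 2) * Gd C0 j0 κ0 c b u P v z) (disc 2) :=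
    (continuousOn_const.mul cV).add (continuousOn_const.mul cG)
  have cf : ContinuousOn (fun z => v z ^ 2 + No u P v z ^ 2) (disc 2) :=
    ((Sm.cont D.sv).pow 2).add ((Sm.cont D.sA).pow 2)
  have key := int_comp cf cg D.meas_Si (fun z hz => hz.1)
    (fun z hz => add_le_add (D.V_low hz) (D.G_low hz))
    (fun z hz => by
      have hz2 : z ∈ disc 2 := disc_mono (by norm_num) (by norm_num) hz
      have h1 := D.V_nonneg hz2
      have h2 := D.G_nonneg hz2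
      positivity)
  have i1 : IntegrableOn (fun z => 1 / (2 * j0 * b) * Vd C0 j0 κ0 c b u P v z) (disc 1) :=
    (int_on cV).const_mul _
  have i2 : IntegrableOn (fun z => 1 / (2 * j0 * b * κ0 ^ 2) * Gd C0 j0 κ0 c b u P v z) (disc 1) :=
    (int_on cG).const_mul _
  rw [integral_add i1 i2, integral_const_mul, integral_const_mul] at key
  refine key.trans ?_
  have m1 := mul_le_mul_of_nonneg_left k2 (show 0 ≤ 1 / (2 * j0 * b) by positivity)
  have m2 := mul_le_mul_of_nonneg_left k1 (show 0 ≤ 1 / (2 * j0 * b * κ0 ^ 2) by positivity)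
  refine (add_le_add m1 m2).trans (le_of_eq ?_)
  unfold Ci
  field_simp

/-- estimate (ii), integrated cubic term -/
theorem Dat.Q_ii (D : Dat C0 j0 ρ0 κ0 c b u P κ v) (D' : Dat C0 j0 ρ0 κ0 c' b u P κ v) {m d X : ℝ}
    (hm : 0 ≤ m) (hc : c - c' ≤ m - 1) (hd : ∫ z in Rs κ0 P, qf v z ≤ d ^ 2)
    (hX : ∫ z in Si κ0 c b u P, (v z ^ 2 + No u P v z ^ 2) ≤ X) :
    ∫ z in disc 1, Qd C0 j0 κ0 c' b u P (No u P v) z
      ≤ (m * b) ^ 2 / (2 * κ0 ^ 2) * (∫ z in disc 1, Gd C0 j0 κ0 c' b u P v z)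
        + Qc C0 j0 κ0 * X + Qc C0 j0 κ0 * (2 * C0 ^ 2 / j0 ^ 2) * d ^ 2 := by
  have hb := D.hb
  have hj := D.hj
  have hκ := D.hκ
  have hC := D.hC
  have hE := Em_pos (C0 := C0) (j0 := j0) (κ0 := κ0)
  have hQ0 : 0 ≤ Qc C0 j0 κ0 := by unfold Qc; positivity
  have hRm : MeasurableSet (Rs κ0 P) := meas_Rs (Sm.cont D.reg.sP)
  have hq := (qf_cont D.hv).continuousOn (s := disc 2)
  have cf : ContinuousOn (fun z => v z ^ 2 + No u P v z ^ 2) (disc 2) :=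
    ((Sm.cont D.sv).pow 2).add ((Sm.cont D.sA).pow 2)
  have hpt : ∀ z ∈ disc 1, Qd C0 j0 κ0 c' b u P (No u P v) z
      ≤ (m * b) ^ 2 / (2 * κ0 ^ 2) * Gd C0 j0 κ0 c' b u P v z
        + Qc C0 j0 κ0 * (Si κ0 c b u P).indicator (fun z => v z ^ 2 + No u P v z ^ 2) z
        + Qc C0 j0 κ0 * (2 * C0 ^ 2 / j0 ^ 2) * (Rs κ0 P).indicator (qf v) z := by
    intro z hz
    have hz2 : z ∈ disc 2 := disc_mono (by norm_num) (by norm_num) hz
    have hG := D'.G_nonneg hz2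
    have hGc : 0 ≤ (m * b) ^ 2 / (2 * κ0 ^ 2) * Gd C0 j0 κ0 c' b u P v z := by positivity
    have hI1 : 0 ≤ (Si κ0 c b u P).indicator (fun z => v z ^ 2 + No u P v z ^ 2) z :=
      indicator_nonneg (fun w _ => by positivity) z
    have hI2 : 0 ≤ (Rs κ0 P).indicator (qf v) z := indicator_nonneg (fun w _ => qf_nonneg v w) z
    have hI1' := mul_nonneg hQ0 hI1
    have hI2' := mul_nonneg (mul_nonneg hQ0 (show 0 ≤ 2 * C0 ^ 2 / j0 ^ 2 by positivity)) hI2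
    by_cases h : ta κ0 c' b u P z ≤ m * b
    · have := D'.Q_crude (by positivity) hz2 h
      linarith
    have hbig : b ≤ ta κ0 c b u P z := by
      have h1 := not_le.1 h
      have h2 : ta κ0 c b u P z = ta κ0 c' b u P z - (c - c') * b := by unfold ta zt; ring
      rw [h2]
      nlinarith
    have hcr : Qd C0 j0 κ0 c' b u P (No u P v) z ≤ Qc C0 j0 κ0 * No u P v z ^ 2 := by
      have h1 : Hc (Kc C0 j0 κ0) (ta κ0 c' b u P z) ≤ (2 * C0 + 2) ^ 3 * Em C0 j0 κ0 :=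
        Hc_le' (Kc_nonneg D.hj) (D'.ta_le hz2) (by linarith)
      have h2 := Hc_nonneg (Kc C0 j0 κ0) (ta κ0 c' b u P z)
      have h3 := om_nonneg κ0 (P z)
      have h4 := om_le_one κ0 (P z)
      have h5 := D.J_le hz2
      have h6 := (D.Jpos hz2).le
      unfold Qd Qc
      have e1 : om κ0 (P z) * (Hc (Kc C0 j0 κ0) (ta κ0 c' b u P z) * No u P v z ^ 2)
          ≤ 1 * ((2 * C0 + 2) ^ 3 * Em C0 j0 κ0 * No u P v z ^ 2) :=
        mul_le_mul h4 (mul_le_mul_of_nonneg_right h1 (sq_nonneg _))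
          (mul_nonneg h2 (sq_nonneg _)) (by norm_num)
      have e2 := mul_le_mul h5 e1 (mul_nonneg h3 (mul_nonneg h2 (sq_nonneg _))) (by positivity)
      calc _ ≤ _ := e2
        _ = _ := by ring
    by_cases hP : P z ≤ κ0 / 75
    · have hmem : z ∈ Si κ0 c b u P := ⟨hz, hbig, hP⟩
      rw [indicator_of_mem hmem]
      have : Qc C0 j0 κ0 * No u P v z ^ 2 ≤ Qc C0 j0 κ0 * (v z ^ 2 + No u P v z ^ 2) :=
        mul_le_mul_of_nonneg_left (by nlinarith [sq_nonneg (v z)]) hQ0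
      linarith
    · have hmem : z ∈ Rs κ0 P := ⟨hz, lt_of_lt_of_le (not_le.1 hP) (le_abs_self _)⟩
      rw [indicator_of_mem hmem]
      have hA := D.A_le hz2
      have hq' : dx v z ^ 2 + dy v z ^ 2 ≤ qf v z := by unfold qf; nlinarith [sq_nonneg (v z)]
      have h3 : 2 * C0 ^ 2 / j0 ^ 2 * (dx v z ^ 2 + dy v z ^ 2) ≤ 2 * C0 ^ 2 / j0 ^ 2 * qf v z :=
        mul_le_mul_of_nonneg_left hq' (by positivity)
      have h4 := mul_le_mul_of_nonneg_left (hA.trans h3) hQ0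
      have h5 : Qc C0 j0 κ0 * (2 * C0 ^ 2 / j0 ^ 2 * qf v z)
          = Qc C0 j0 κ0 * (2 * C0 ^ 2 / j0 ^ 2) * qf v z := by ring
      linarith
  have i0 := int_on (D'.cQ (Sm.cont D.sA))
  have i1 : IntegrableOn (fun z => (m * b) ^ 2 / (2 * κ0 ^ 2) * Gd C0 j0 κ0 c' b u P v z)
      (disc 1) := (int_on D'.cG).const_mul _
  have i2 : IntegrableOn (fun z => Qc C0 j0 κ0
      * (Si κ0 c b u P).indicator (fun z => v z ^ 2 + No u P v z ^ 2) z) (disc 1) :=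
    (int_ind_on cf D.meas_Si).const_mul _
  have i3 : IntegrableOn (fun z => Qc C0 j0 κ0 * (2 * C0 ^ 2 / j0 ^ 2)
      * (Rs κ0 P).indicator (qf v) z) (disc 1) := (int_ind_on hq hRm).const_mul _
  have h := setIntegral_mono_on i0 ((i1.add i2).add i3) (isOpen_disc 1).measurableSet hpt
  have hsplit := integral_add (i1.add i2) i3
  have hsplit2 := integral_add i1 i2
  simp only [Pi.add_apply] at h hsplit hsplit2
  rw [hsplit, hsplit2, integral_const_mul, integral_const_mul, integral_const_mul,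
    int_ind hRm (fun z hz => hz.1), int_ind D.meas_Si (fun z hz => hz.1)] at h
  have m1 := mul_le_mul_of_nonneg_left hX hQ0
  have m2 := mul_le_mul_of_nonneg_left hd
    (mul_nonneg hQ0 (show 0 ≤ 2 * C0 ^ 2 / j0 ^ 2 by positivity))
  linarith

end

end Vale.Agent.P229.C3.DownAux3
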