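import Vale.Agent.P229.Reflect
import Vale.Agent.P229.C3.Surf

/-!
# P229: the reflection `y ↦ -y` (`C³` version)
-/

namespace Vale.Agent.P229.C3

open MeasureTheory Set
open scoped ContDiff

open P229.ReflectAux (rf_rf hasFDerivAt_rf rf_mem_disc)

section R
variable {z : ℝ × ℝ}
variable {f g u P κ v : ℝ × ℝ → ℝ}

theorem Sm_rf {n : ℕ} {R : ℝ} (hf : Sm n (disc R) f) : Sm n (disc R) (fun w => f (rf w)) :=
  ContDiffOn.comp hf ((P229.ReflectAux.contDiff_rf.of_le (by exact_mod_cast le_top)).contDiffOn)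
    (fun _ hz => rf_mem_disc.2 hz)

open P229.ReflectAux (br_rf_neg br_rf) in
theorem Reg_rf {C0 j0 : ℝ} (h : Reg C0 j0 u P κ) :
    Reg C0 j0 (fun w => u (rf w)) (fun w => - P (rf w)) (fun w => κ (rf w)) where
  su := Sm_rf h.su
  sP := (Sm_rf h.sP).neg
  sk := Sm_rf h.sk
  bu := by
    intro z hz
    have hz' : rf z ∈ disc 2 := rf_mem_disc.2 hz
    have hd := h.su.diff (isOpen_disc 2) hz'
    have := h.bu _ hz'
    rw [dx_rf hd, dy_rf hd, abs_neg]
    exact this
  bP := by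
    intro z hz
    have hz' : rf z ∈ disc 2 := rf_mem_disc.2 hz
    have hd := h.sP.diff (isOpen_disc 2) hz'
    have := h.bP _ hz'
    rw [dx_neg (f := fun w => P (rf w)), dy_neg (f := fun w => P (rf w)), dx_rf hd,
      dy_rf hd, abs_neg, abs_neg, neg_neg]
    exact this
  bk := by
    intro z hz
    have hz' : rf z ∈ disc 2 := rf_mem_disc.2 hz
    have hd := h.sk.diff (isOpen_disc 2) hz'
    have := h.bk _ hz'
    rw [dx_rf hd, dy_rf hd, abs_neg]
    exact this
  J := by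
    intro z hz
    have hz' : rf z ∈ disc 2 := rf_mem_disc.2 hz
    rw [br_rf_neg (h.su.diff (isOpen_disc 2) hz') (h.sP.diff (isOpen_disc 2) hz')]
    exact h.J _ hz'

theorem Geo_rf {ρ0 κ0 C0 j0 : ℝ} (hr : Reg C0 j0 u P κ) (h : Geo ρ0 κ0 u P κ) :
    Geo ρ0 κ0 (fun w => u (rf w)) (fun w => - P (rf w)) (fun w => κ (rf w)) where
  u0 := by
    have : rf 0 = 0 := by simp [rf]
    show u (rf 0) = 0
    rw [this]; exact h.u0
  P0 := by
    have : rf 0 = 0 := by simp [rf]
    show - P (rf 0) = 0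
    rw [this, h.P0, neg_zero]
  ux := by
    intro z hz
    have := h.ux _ (rf_mem_disc.2 hz)
    simpa [rf] using this
  Py := by
    intro z hz
    have hz' : rf z ∈ disc 2 := rf_mem_disc.2 hz
    have hd := hr.sP.diff (isOpen_disc 2) hz'
    rw [dy_neg (f := fun w => P (rf w)), dy_rf hd, neg_neg]
    exact h.Py _ hz'
  Px := by
    intro z hz
    have hz' : rf z ∈ disc 2 := rf_mem_disc.2 hz
    have hd := hr.sP.diff (isOpen_disc 2) hz'
    rw [dx_neg (f := fun w => P (rf w)), dx_rf hd, abs_neg]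
    exact h.Px _ hz'
  line := by
    intro x hx
    have := h.line x hx
    simpa [rf] using this
  kneg := by
    intro z hz
    exact h.kneg _ (rf_mem_disc.2 hz)

namespace ReflectAux

open P229.ReflectAux (br_rf_neg br_rf)

theorem Lo_rf' {C0 j0 : ℝ} (h : Reg C0 j0 u P κ) (hz : z ∈ disc 2) {f : ℝ × ℝ → ℝ}
    (hf : DifferentiableAt ℝ f (rf z)) :
    Lo (fun w => u (rf w)) (fun w => - P (rf w)) (fun w => f (rf w)) z
      = Lo u P f (rf z) := by
  have hz' : rf z ∈ disc 2 := rf_mem_disc.2 hz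
  simp only [Lo]
  rw [br_rf_neg hf (h.sP.diff (isOpen_disc 2) hz'),
    br_rf_neg (h.su.diff (isOpen_disc 2) hz') (h.sP.diff (isOpen_disc 2) hz')]

theorem No_rf' {C0 j0 : ℝ} (h : Reg C0 j0 u P κ) (hz : z ∈ disc 2) {f : ℝ × ℝ → ℝ}
    (hf : DifferentiableAt ℝ f (rf z)) :
    No (fun w => u (rf w)) (fun w => - P (rf w)) (fun w => f (rf w)) z
      = - No u P f (rf z) := by
  have hz' : rf z ∈ disc 2 := rf_mem_disc.2 hz
  simp only [No]
  rw [br_rf (h.su.diff (isOpen_disc 2) hz') hf,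
    br_rf_neg (h.su.diff (isOpen_disc 2) hz') (h.sP.diff (isOpen_disc 2) hz'), neg_div]

end ReflectAux

open ReflectAux
open P229.ReflectAux (br_rf_neg br_rf No_neg Lo_neg Lo_congr No_congr)

theorem Op_rf {C0 j0 : ℝ} (hj : 0 < j0) (h : Reg C0 j0 u P κ) (hv : ContDiff ℝ 3 v) :
    ∀ z ∈ disc 2, Op (fun w => u (rf w)) (fun w => - P (rf w)) (fun w => κ (rf w))
      (fun w => v (rf w)) z = Op u P κ v (rf z) := by
  intro z hz
  have hz' : rf z ∈ disc 2 := rf_mem_disc.2 hz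
  have hU := isOpen_disc 2
  have h0 : ∀ z ∈ disc 2, br u P z ≠ 0 := fun z hz => ne_of_gt (lt_of_lt_of_le hj (h.J z hz))
  have sv : Sm 3 (disc 2) v := Sm.of_contDiff hv
  have sL : Sm 1 (disc 2) (Lo u P v) :=
    Sm.Lo hU (h.su.of_le (by norm_num)) h.sP (sv.of_le (by norm_num)) h0
  have sN : Sm 1 (disc 2) (No u P v) :=
    Sm.No hU (h.su.of_le (by norm_num)) h.sP (sv.of_le (by norm_num)) h0
  have skN : Sm 1 (disc 2) (fun w => κ w * No u P v w) := h.sk.mul sN
  simp only [Op]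
  congr 1
  · rw [Lo_congr hU (f' := fun w => Lo u P v (rf w)) (fun w hw =>
      Lo_rf' h hw (sv.diff hU (rf_mem_disc.2 hw))) hz]
    exact Lo_rf' h hz (sL.diff hU hz')
  · rw [No_congr hU (f' := fun w => (fun y => - (κ y * No u P v y)) (rf w)) (fun w hw => by
      rw [No_rf' h hw (sv.diff hU (rf_mem_disc.2 hw))]; ring) hz]
    have hd : DifferentiableAt ℝ (fun y => - (κ y * No u P v y)) (rf z) := skN.neg.diff hU hz'
    rw [No_rf' h hz hd]
    rw [No_neg (f := fun y => κ y * No u P v y), neg_neg]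

theorem No_rf {C0 j0 : ℝ} (hj : 0 < j0) (h : Reg C0 j0 u P κ) :
    ∀ z ∈ disc 2, No (fun w => u (rf w)) (fun w => - P (rf w)) (fun w => κ (rf w)) z
      = - No u P κ (rf z) := by
  intro z hz
  have _ := hj
  exact No_rf' h hz (h.sk.diff (isOpen_disc 2) (rf_mem_disc.2 hz))

end R

end Vale.Agent.P229.C3
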