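import Vale.Agent.P229.Down
import Vale.Agent.P229.C3.Surf
import Vale.Agent.P229.C3.BdAlg
import Vale.Agent.P229.C3.Reflect

/-!
# P229, module B, `C^3` version, part 1: data, geometry of the weight, pointwise inequalities
-/

namespace Vale.Agent.P229.C3.DownAux3

open MeasureTheory Set
open scoped ContDiff
open P229.DownAux

theorem Sm.cont {n : ℕ} {f : ℝ × ℝ → ℝ} (hf : Sm n (disc 2) f) : ContinuousOn f (disc 2) :=
  ContDiffOn.continuousOn hf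

theorem c1 {n : ℕ} {f : ℝ × ℝ → ℝ} (hf : Sm (n + 1) (disc 2) f) : ContDiffOn ℝ 1 f (disc 2) :=
  ContDiffOn.of_le hf (by norm_cast; omega)

/-- the data of the energy estimate -/
structure Dat (C0 j0 ρ0 κ0 c b : ℝ) (u P κ v : ℝ × ℝ → ℝ) : Prop where
  hC : 0 < C0
  hj : 0 < j0
  hρ : 0 < ρ0
  hκ : 0 < κ0
  hκ1 : κ0 ≤ 1
  hκρ : κ0 ≤ 2 * ρ0
  hb : 0 < b
  hcb : (|c| + 1) * b ≤ κ0 / 5000
  reg : Reg C0 j0 u P κ
  geo : Geo ρ0 κ0 u P κ
  hv : ContDiff ℝ 3 v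

section
variable {C0 j0 ρ0 κ0 c c' b K : ℝ} {u P κ v : ℝ × ℝ → ℝ} {z : ℝ × ℝ}

theorem Dat.b_le (D : Dat C0 j0 ρ0 κ0 c b u P κ v) : b ≤ κ0 / 5000 := by
  have := D.hcb
  have h1 : 0 ≤ |c| * b := mul_nonneg (abs_nonneg c) D.hb.le
  linarith

theorem Dat.J0 (D : Dat C0 j0 ρ0 κ0 c b u P κ v) : ∀ z ∈ disc 2, br u P z ≠ 0 :=
  fun z hz => ne_of_gt (lt_of_lt_of_le D.hj (D.reg.J z hz))

theorem Dat.Jpos (D : Dat C0 j0 ρ0 κ0 c b u P κ v) (hz : z ∈ disc 2) : 0 < br u P z :=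
  lt_of_lt_of_le D.hj (D.reg.J z hz)

theorem Dat.J_le (D : Dat C0 j0 ρ0 κ0 c b u P κ v) (hz : z ∈ disc 2) :
    br u P z ≤ 2 * C0 * C0 :=
  (le_abs_self _).trans (br_bound (D.reg.bu z hz).2.1 (D.reg.bu z hz).2.2
    (D.reg.bP z hz).2.1 (D.reg.bP z hz).2.2)

theorem Dat.sv (D : Dat C0 j0 ρ0 κ0 c b u P κ v) : Sm 3 (disc 2) v := Sm.of_contDiff D.hv

theorem Dat.sA (D : Dat C0 j0 ρ0 κ0 c b u P κ v) : Sm 1 (disc 2) (No u P v) :=
  Sm.No (isOpen_disc 2) (D.reg.su.of_le (by norm_num)) D.reg.sP (D.sv.of_le (by norm_num)) D.J0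

theorem Dat.sB (D : Dat C0 j0 ρ0 κ0 c b u P κ v) : Sm 1 (disc 2) (Lo u P v) :=
  Sm.Lo (isOpen_disc 2) (D.reg.su.of_le (by norm_num)) D.reg.sP (D.sv.of_le (by norm_num)) D.J0

theorem Dat.sOp (D : Dat C0 j0 ρ0 κ0 c b u P κ v) : Sm 0 (disc 2) (Op u P κ v) :=
  (Sm.Lo (n := 0) (isOpen_disc 2) (D.reg.su.of_le (by norm_num)) (D.reg.sP.of_le (by norm_num)) D.sB D.J0).add
    (Sm.No (n := 0) (isOpen_disc 2) (D.reg.su.of_le (by norm_num)) (D.reg.sP.of_le (by norm_num)) (D.reg.sk.mul D.sA) D.J0)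

theorem Dat.sJ (D : Dat C0 j0 ρ0 κ0 c b u P κ v) : Sm 1 (disc 2) (br u P) :=
  Sm.br (isOpen_disc 2) (D.reg.su.of_le (by norm_num)) D.reg.sP

theorem Dat.sta (D : Dat C0 j0 ρ0 κ0 c b u P κ v) : Sm 2 (disc 2) (ta κ0 c b u P) := by
  have h1 : ContDiffOn ℝ 2 (fun z => zt κ0 c b (u z)) (disc 2) :=
    ((zt_contDiff D.hb).of_le (by norm_cast)).comp_contDiffOn
      (D.reg.su.of_le (m := 2) (by norm_num))
  exact ContDiffOn.sub D.reg.sP h1

theorem Dat.sW (D : Dat C0 j0 ρ0 κ0 c b u P κ v) (K : ℝ) :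
    ContDiffOn ℝ 1 (Wf K κ0 c b u P) (disc 2) := by
  have h1 : ContDiffOn ℝ 1 (fun z => Hf K (ta κ0 c b u P z)) (disc 2) :=
    (Hf_contDiff K).comp_contDiffOn (D.sta.of_le (m := 1) (by norm_num))
  have h2 : ContDiffOn ℝ 1 (fun z => om κ0 (P z)) (disc 2) :=
    ((om_contDiff κ0).of_le (by norm_cast)).comp_contDiffOn
      (D.reg.sP.of_le (m := 1) (by norm_num))
  exact h1.mul h2

theorem Dat.dta (D : Dat C0 j0 ρ0 κ0 c b u P κ v) (hz : z ∈ disc 2) :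
    DifferentiableAt ℝ (ta κ0 c b u P) z := D.sta.diff (isOpen_disc 2) hz

theorem Dat.Lo_ta (D : Dat C0 j0 ρ0 κ0 c b u P κ v) (hz : z ∈ disc 2) :
    Lo u P (ta κ0 c b u P) z = - zd κ0 b (u z) := by
  have hu := D.reg.su.diff (isOpen_disc 2) hz
  have hP := D.reg.sP.diff (isOpen_disc 2) hz
  have h1 : DifferentiableAt ℝ (fun w => zt κ0 c b (u w)) z :=
    (zt_hasDerivAt D.hb (u z)).differentiableAt.comp z hu
  have e : ta κ0 c b u P = fun w => P w - zt κ0 c b (u w) := rfl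
  rw [e, Lo_sub hP h1, Lo_P, Lo_comp (zt_hasDerivAt D.hb (u z)) hu, Lo_u (D.J0 z hz)]
  ring

theorem Dat.No_ta (D : Dat C0 j0 ρ0 κ0 c b u P κ v) (hz : z ∈ disc 2) :
    No u P (ta κ0 c b u P) z = 1 := by
  have hu := D.reg.su.diff (isOpen_disc 2) hz
  have hP := D.reg.sP.diff (isOpen_disc 2) hz
  have h1 : DifferentiableAt ℝ (fun w => zt κ0 c b (u w)) z :=
    (zt_hasDerivAt D.hb (u z)).differentiableAt.comp z hu
  have e : ta κ0 c b u P = fun w => P w - zt κ0 c b (u w) := rfl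
  rw [e, No_sub hP h1, No_P (D.J0 z hz), No_comp (zt_hasDerivAt D.hb (u z)) hu, No_u]
  ring

theorem Dat.Lo_W (D : Dat C0 j0 ρ0 κ0 c b u P κ v) (K : ℝ) (hz : z ∈ disc 2) :
    Lo u P (Wf K κ0 c b u P) z
      = - (zd κ0 b (u z) * (Hd K (ta κ0 c b u P z) * om κ0 (P z))) := by
  have hP := D.reg.sP.diff (isOpen_disc 2) hz
  have h1 : DifferentiableAt ℝ (fun w => Hf K (ta κ0 c b u P w)) z :=
    (Hf_hasDerivAt K _).differentiableAt.comp z (D.dta hz)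
  have h2 : DifferentiableAt ℝ (fun w => om κ0 (P w)) z :=
    (om_hasDerivAt κ0 _).differentiableAt.comp z hP
  have e : Wf K κ0 c b u P = fun w => Hf K (ta κ0 c b u P w) * om κ0 (P w) := rfl
  rw [e, Lo_mul h1 h2, Lo_comp (Hf_hasDerivAt K _) (D.dta hz), Lo_comp (om_hasDerivAt κ0 _) hP,
    Lo_P, D.Lo_ta hz]
  ring

theorem Dat.No_W (D : Dat C0 j0 ρ0 κ0 c b u P κ v) (K : ℝ) (hz : z ∈ disc 2) :
    No u P (Wf K κ0 c b u P) z
      = Hd K (ta κ0 c b u P z) * om κ0 (P z)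
        + Hf K (ta κ0 c b u P z) * deriv (om κ0) (P z) := by
  have hP := D.reg.sP.diff (isOpen_disc 2) hz
  have h1 : DifferentiableAt ℝ (fun w => Hf K (ta κ0 c b u P w)) z :=
    (Hf_hasDerivAt K _).differentiableAt.comp z (D.dta hz)
  have h2 : DifferentiableAt ℝ (fun w => om κ0 (P w)) z :=
    (om_hasDerivAt κ0 _).differentiableAt.comp z hP
  have e : Wf K κ0 c b u P = fun w => Hf K (ta κ0 c b u P w) * om κ0 (P w) := rfl
  rw [e, No_mul h1 h2, No_comp (Hf_hasDerivAt K _) (D.dta hz), No_comp (om_hasDerivAt κ0 _) hP,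
    No_P (D.J0 z hz), D.No_ta hz]
  ring

theorem Dat.P_up (D : Dat C0 j0 ρ0 κ0 c b u P κ v) {x y : ℝ} (hz : (x, y) ∈ disc 2) (hy : 0 ≤ y) :
    ρ0 * y ≤ P (x, y) - P (x, 0) := by
  have hd : ∀ t ∈ Icc 0 y, HasDerivAt (fun s => P (x, s)) (dy P (x, t)) t := fun t ht =>
    hasDerivAt_vert (D.reg.sP.diff (isOpen_disc 2)
      (mem_disc_vert hz (pow_le_pow_left₀ ht.1 ht.2 2)))
  have := Convex.mul_sub_le_image_sub_of_le_deriv (convex_Icc 0 y)
    (fun t ht => (hd t ht).continuousAt.continuousWithinAt)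
    (fun t ht => (hd t (interior_subset ht)).differentiableAt.differentiableWithinAt)
    (C := ρ0) (fun t ht => by
      have ht' := interior_subset ht
      rw [(hd t ht').deriv]
      exact D.geo.Py _ (mem_disc_vert hz (pow_le_pow_left₀ ht'.1 ht'.2 2)))
    0 ⟨le_refl _, hy⟩ y ⟨hy, le_refl _⟩ hy
  simpa using this

theorem Dat.P_down (D : Dat C0 j0 ρ0 κ0 c b u P κ v) {x y : ℝ} (hz : (x, y) ∈ disc 2)
    (hy : y ≤ 0) : ρ0 * (-y) ≤ P (x, 0) - P (x, y) := by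
  have hsq : ∀ t ∈ Icc y 0, t ^ 2 ≤ y ^ 2 := fun t ht => by nlinarith [ht.1, ht.2]
  have hd : ∀ t ∈ Icc y 0, HasDerivAt (fun s => P (x, s)) (dy P (x, t)) t := fun t ht =>
    hasDerivAt_vert (D.reg.sP.diff (isOpen_disc 2) (mem_disc_vert hz (hsq t ht)))
  have := Convex.mul_sub_le_image_sub_of_le_deriv (convex_Icc y 0)
    (fun t ht => (hd t ht).continuousAt.continuousWithinAt)
    (fun t ht => (hd t (interior_subset ht)).differentiableAt.differentiableWithinAt)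
    (C := ρ0) (fun t ht => by
      have ht' := interior_subset ht
      rw [(hd t ht').deriv]
      exact D.geo.Py _ (mem_disc_vert hz (hsq t ht')))
    y ⟨le_refl _, hy⟩ 0 ⟨hy, le_refl _⟩ hy
  simpa using this

/-- `ρ0 |y| ≤ |P(x,y)| + |P(x,0)|` -/
theorem Dat.P_vert (D : Dat C0 j0 ρ0 κ0 c b u P κ v) {x y : ℝ} (hz : (x, y) ∈ disc 2) :
    ρ0 * |y| ≤ |P (x, y)| + |P (x, 0)| := by
  rcases le_total 0 y with hy | hy
  · have := D.P_up hz hy
    rw [abs_of_nonneg hy]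
    linarith [le_abs_self (P (x, y)), neg_abs_le (P (x, 0))]
  · have := D.P_down hz hy
    rw [abs_of_nonpos hy]
    linarith [le_abs_self (P (x, 0)), neg_abs_le (P (x, y))]

/-- `|P(x,0)| ≤ ρ0 |x|` -/
theorem Dat.P_horiz (D : Dat C0 j0 ρ0 κ0 c b u P κ v) {x : ℝ} (hz : (x, (0 : ℝ)) ∈ disc 2) :
    |P (x, 0)| ≤ ρ0 * |x| := by
  have h0 : (0 : ℝ × ℝ) ∈ disc 2 := by simp [disc]
  have := abs_sub_le_disc (D.reg.sP.of_le (by norm_num)) (fun z hz => D.geo.Px z hz) (fun z hz => (D.reg.bP z hz).2.2)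
    (x, 0) hz 0 h0
  rw [D.geo.P0] at this
  simpa using this

/-- `|P(z)| ≤ C0 (|x| + |y|)` -/
theorem Dat.P_abs (D : Dat C0 j0 ρ0 κ0 c b u P κ v) (hz : z ∈ disc 2) :
    |P z| ≤ C0 * (|z.1| + |z.2|) := by
  have h0 : (0 : ℝ × ℝ) ∈ disc 2 := by simp [disc]
  have := abs_sub_le_disc (D.reg.sP.of_le (by norm_num)) (fun z hz => (D.reg.bP z hz).2.1)
    (fun z hz => (D.reg.bP z hz).2.2) z hz 0 h0
  rw [D.geo.P0] at this
  simp at this
  linarith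

/-- where the weight lives -/
theorem Dat.support (D : Dat C0 j0 ρ0 κ0 c b u P κ v) (hz : z ∈ disc 1)
    (ht : 0 < ta κ0 c b u P z) (hP : P z < κ0 / 50) : z ∈ disc (12 / 25) ∧ |u z| < 9 / 20 := by
  have hz2 : z ∈ disc 2 := disc_mono (by norm_num) (by norm_num) hz
  unfold ta at ht
  have hu : |u z| < 9 / 20 := by
    by_contra h
    have := zt_far D.hκ D.hκ1 D.hb D.hcb (not_lt.1 h)
    linarith
  refine ⟨?_, hu⟩
  have hlow := zt_lower D.hκ D.hκ1 D.hb D.hcb (u z)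
  have hPa : |P z| ≤ κ0 / 50 := by
    rw [abs_le]; constructor <;> linarith [D.hκ]
  have hz1 := abs_le_of_disc (by norm_num) hz
  have hline : |P (z.1, 0)| ≤ κ0 / 1500 := D.geo.line z.1 (by linarith [hz1.1])
  have hv := D.P_vert (x := z.1) (y := z.2) hz2
  have hy : |z.2| ≤ 31 / 750 := by
    by_contra h
    have h := not_le.1 h
    have h1 : ρ0 * (31 / 750) < ρ0 * |z.2| := mul_lt_mul_of_pos_left h D.hρ
    have h2 : ρ0 * |z.2| ≤ κ0 / 50 + κ0 / 1500 := hv.trans (add_le_add hPa hline)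
    have := D.hκρ
    linarith
  have hux := D.geo.ux z hz2
  have hx : |z.1| ≤ 47 / 100 := by
    have h1 : |z.1| ≤ |u z| + |u z - z.1| := by
      have := abs_sub_abs_le_abs_sub (z.1) (u z)
      rw [abs_sub_comm] at this
      linarith
    linarith
  simp only [disc, mem_ofPred_eq]
  have h1 : z.1 ^ 2 ≤ (47 / 100) ^ 2 := by rw [← sq_abs z.1]; exact pow_le_pow_left₀ (abs_nonneg _) hx 2
  have h2 : z.2 ^ 2 ≤ (31 / 750) ^ 2 := by rw [← sq_abs z.2]; exact pow_le_pow_left₀ (abs_nonneg _) hy 2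
  nlinarith

theorem Dat.W_zero (D : Dat C0 j0 ρ0 κ0 c b u P κ v) (K : ℝ) (hz : z ∈ disc 1)
    (hn : z ∉ disc (12 / 25)) : Wf K κ0 c b u P z = 0 := by
  unfold Wf
  by_cases h1 : ta κ0 c b u P z ≤ 0
  · rw [Hf_of_nonpos h1, zero_mul]
  · by_cases h2 : P z < κ0 / 50
    · exact absurd (D.support hz (not_le.1 h1) h2).1 hn
    · rw [om_eq_zero D.hκ (not_lt.1 h2), mul_zero]

/-- upper bound for `τ` -/
theorem Dat.ta_le (D : Dat C0 j0 ρ0 κ0 c b u P κ v) (hz : z ∈ disc 2) :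
    ta κ0 c b u P z ≤ 2 * C0 + 2 := by
  unfold ta zt
  have h1 := sqrt_le_add (x := u z) D.hb
  have h2 : -(|c| * b) ≤ c * b := by
    have := neg_abs_le c
    nlinarith [D.hb]
  have h3 : (|c| + 1) * b ≤ κ0 / 5000 := D.hcb
  have h4 : P z ≤ C0 := (le_abs_self _).trans (D.reg.bP z hz).1
  have h5 : |u z| ≤ C0 := (D.reg.bu z hz).1
  have h6 : κ0 / 10 * Real.sqrt ((u z) ^ 2 + b ^ 2) ≤ 1 * (|u z| + b) :=
    mul_le_mul (by linarith [D.hκ1]) h1 (Real.sqrt_nonneg _) (by norm_num)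
  have h7 : 0 ≤ 4 * (κ0 / 10) * (u z) ^ 2 := by
    have := D.hκ
    positivity
  have h8 := D.b_le
  have h9 := D.hκ1
  nlinarith [D.hb, D.hκ]

/-- brackets integrate to zero -/
theorem int_br {g Q : ℝ × ℝ → ℝ} (hg : ContDiffOn ℝ 1 g (disc 2)) (hQ : Sm 2 (disc 2) Q)
    (h0 : ∀ z ∈ disc 1, z ∉ disc (12 / 25) → g z = 0) : ∫ z in disc 1, br g Q z = 0 := by
  have hs2 : tsupport th ⊆ disc 2 := by
    intro z hz
    have := th_tsupport hz
    have this : z.1 ^ 2 + z.2 ^ 2 ≤ (3 / 5) ^ 2 := this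
    simp only [disc, mem_ofPred_eq]
    linarith
  have hc : HasCompactSupport th :=
    HasCompactSupport.of_support_subset_isCompact (isCompact_cdisc (3 / 5))
      ((subset_tsupport th).trans th_tsupport)
  have hF : ContDiff ℝ 1 (fun z => th z * g z) :=
    contDiff_mul_of_tsupport (n := 1) (isOpen_disc 2) th_contDiff hs2 hg
  have hFc : HasCompactSupport (fun z => th z * g z) := hc.mul_right
  have hFs : tsupport (fun z => th z * g z) ⊆ tsupport th := tsupport_mul_subset_left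
  have key := integral_br_eq_zero (isOpen_disc 2) hF hFc (hFs.trans hs2) hQ
  have h1 : ∀ z ∈ disc 1, br g Q z = br (fun z => th z * g z) Q z := by
    intro z hz
    refine br_congr (isOpen_disc 1) (fun w hw => ?_) (fun w _ => rfl) hz
    by_cases h : w ∈ disc (12 / 25)
    · rw [th_one h, one_mul]
    · rw [h0 w hw h, mul_zero]
  rw [setIntegral_congr_fun (isOpen_disc 1).measurableSet h1,
    setIntegral_eq_integral_of_forall_compl_eq_zero, key]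
  intro z hz
  have hz' : z ∉ tsupport (fun z => th z * g z) := by
    intro h
    have := th_tsupport (hFs h)
    have this : z.1 ^ 2 + z.2 ^ 2 ≤ (3 / 5) ^ 2 := this
    refine hz ?_
    simp only [disc, mem_ofPred_eq]
    linarith
  simp only [br, dx_eq_zero_of_notMem hz', dy_eq_zero_of_notMem hz']
  ring

theorem int_br' {g Q : ℝ × ℝ → ℝ} (hg : ContDiffOn ℝ 1 g (disc 2)) (hQ : Sm 2 (disc 2) Q)
    (h0 : ∀ z ∈ disc 1, z ∉ disc (12 / 25) → g z = 0) : ∫ z in disc 1, br Q g z = 0 := by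
  have h1 : ∀ z ∈ disc 1, br Q g z = - br g Q z := fun z _ => br_antisymm
  rw [setIntegral_congr_fun (isOpen_disc 1).measurableSet h1, integral_neg, int_br hg hQ h0, neg_zero]

theorem qf_cont {v : ℝ × ℝ → ℝ} (hv : ContDiff ℝ 3 v) : Continuous (qf v) := by
  have h1 := (contDiff_dx (n := 2) hv).continuous
  have h2 := (contDiff_dy (n := 2) hv).continuous
  have h3 := hv.continuous
  unfold qf
  exact ((h3.pow 2).add (h1.pow 2)).add (h2.pow 2)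

theorem Dat.A_le (D : Dat C0 j0 ρ0 κ0 c b u P κ v) (hz : z ∈ disc 2) :
    No u P v z ^ 2 ≤ 2 * C0 ^ 2 / j0 ^ 2 * (dx v z ^ 2 + dy v z ^ 2) := by
  refine sq_quot_bound D.hj (D.reg.J z hz) D.hC.le ?_ rfl
  have h := D.reg.bu z hz
  simp only [br]
  have h5 : |dx u z * dy v z| ≤ C0 * |dy v z| := by
    rw [abs_mul]; exact mul_le_mul_of_nonneg_right h.2.1 (abs_nonneg _)
  have h6 : |dy u z * dx v z| ≤ C0 * |dx v z| := by
    rw [abs_mul]; exact mul_le_mul_of_nonneg_right h.2.2 (abs_nonneg _)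
  have h7 := abs_sub (dx u z * dy v z) (dy u z * dx v z)
  linarith

theorem Dat.B_le (D : Dat C0 j0 ρ0 κ0 c b u P κ v) (hz : z ∈ disc 2) :
    Lo u P v z ^ 2 ≤ 2 * C0 ^ 2 / j0 ^ 2 * (dx v z ^ 2 + dy v z ^ 2) := by
  refine sq_quot_bound D.hj (D.reg.J z hz) D.hC.le ?_ rfl
  have h := D.reg.bP z hz
  simp only [br]
  have h5 : |dx v z * dy P z| ≤ |dx v z| * C0 := by
    rw [abs_mul]; exact mul_le_mul_of_nonneg_left h.2.2 (abs_nonneg _)
  have h6 : |dy v z * dx P z| ≤ |dy v z| * C0 := by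
    rw [abs_mul]; exact mul_le_mul_of_nonneg_left h.2.1 (abs_nonneg _)
  have h7 := abs_sub (dx v z * dy P z) (dy v z * dx P z)
  linarith

theorem Dat.Nk_le (D : Dat C0 j0 ρ0 κ0 c b u P κ v) (hz : z ∈ disc 2) :
    |No u P κ z| ≤ 2 * C0 ^ 2 / j0 := by
  have h := D.reg.bu z hz
  have h' := D.reg.bk z hz
  have hJ := D.reg.J z hz
  have h1 := br_bound h.2.1 h.2.2 h'.2.1 h'.2.2
  simp only [No]
  rw [abs_div, abs_of_pos (D.Jpos hz)]
  have h2 : |br u κ z| ≤ 2 * C0 ^ 2 := by linarith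
  exact div_le_div₀ (by positivity) h2 D.hj hJ

/-- (a) main part of the energy inequality -/
theorem Dat.main_a (D : Dat C0 j0 ρ0 κ0 c b u P κ v) (hz : z ∈ disc 1) (A B : ℝ) :
    1 / 8 * (Hd (Kc C0 j0 κ0) (ta κ0 c b u P z) * om κ0 (P z) * (B ^ 2 + κ0 ^ 2 * A ^ 2))
      ≤ 1 / 2 * (Hd (Kc C0 j0 κ0) (ta κ0 c b u P z) * om κ0 (P z)) * (B ^ 2 - κ z * A ^ 2)
        + zd κ0 b (u z) * (Hd (Kc C0 j0 κ0) (ta κ0 c b u P z) * om κ0 (P z)) * (A * B)
        + 1 / 2 * (Hf (Kc C0 j0 κ0) (ta κ0 c b u P z) * om κ0 (P z)) * No u P κ z * A ^ 2 := by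
  have hz2 : z ∈ disc 2 := disc_mono (by norm_num) (by norm_num) hz
  by_cases h1 : ta κ0 c b u P z ≤ 0
  · rw [Hd_of_nonpos h1, Hf_of_nonpos h1]; simp
  by_cases h2 : P z < κ0 / 50
  swap
  · rw [om_eq_zero D.hκ (not_lt.1 h2)]; simp
  obtain ⟨hd, hu⟩ := D.support hz (not_le.1 h1) h2
  have hk : κ z ≤ -κ0 ^ 2 := D.geo.kneg z (disc_mono (by norm_num) (by norm_num) hd)
  have hzd := zd_bound (b := b) D.hκ hu.le
  have hNk := D.Nk_le hz2
  have hKK : 2 * C0 ^ 2 / j0 * Hf (Kc C0 j0 κ0) (ta κ0 c b u P z)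
      ≤ κ0 ^ 2 / 4 * Hd (Kc C0 j0 κ0) (ta κ0 c b u P z) := by
    have h3 := mul_Hf_le_Hd (Kc C0 j0 κ0) (ta κ0 c b u P z)
    have h4 : 2 * C0 ^ 2 / j0 = κ0 ^ 2 / 4 * Kc C0 j0 κ0 := by
      have := D.hj.ne'
      have := D.hκ.ne'
      unfold Kc; field_simp; ring
    rw [h4, mul_assoc]
    exact mul_le_mul_of_nonneg_left h3 (by positivity)
  set h := Hd (Kc C0 j0 κ0) (ta κ0 c b u P z) with hh
  set f := Hf (Kc C0 j0 κ0) (ta κ0 c b u P z) with hf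
  set w := om κ0 (P z) with hw
  set N := No u P κ z with hN
  set ζ := zd κ0 b (u z) with hζ
  have hh0 : 0 ≤ h := Hd_nonneg (Kc_nonneg D.hj) _
  have hf0 : 0 ≤ f := Hf_nonneg _ _
  have hw0 : 0 ≤ w := om_nonneg _ _
  have t1 : B ^ 2 + κ0 ^ 2 * A ^ 2 ≤ B ^ 2 - κ z * A ^ 2 := by nlinarith [sq_nonneg A]
  have t2 : -(1 / 4 * (B ^ 2 + κ0 ^ 2 * A ^ 2)) ≤ ζ * (A * B) := by
    have h3 : |ζ * (A * B)| ≤ κ0 / 2 * (|A| * |B|) := by
      rw [abs_mul, abs_mul]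
      exact mul_le_mul_of_nonneg_right hzd (by positivity)
    have h4 : κ0 / 2 * (|A| * |B|) ≤ 1 / 4 * (B ^ 2 + κ0 ^ 2 * A ^ 2) := by
      nlinarith [sq_nonneg (|B| - κ0 * |A|), sq_abs A, sq_abs B]
    linarith [neg_abs_le (ζ * (A * B))]
  have t3 : -(κ0 ^ 2 / 4 * h * A ^ 2) ≤ f * N * A ^ 2 := by
    have h3 : -(2 * C0 ^ 2 / j0 * f) ≤ f * N := by
      have := neg_abs_le N
      nlinarith
    nlinarith [sq_nonneg A]
  have hhw : 0 ≤ h * w := mul_nonneg hh0 hw0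
  have s1 := mul_le_mul_of_nonneg_left t1 hhw
  have s2 := mul_le_mul_of_nonneg_left t2 hhw
  have s3 := mul_le_mul_of_nonneg_left t3 hw0
  have s4 : 0 ≤ h * w * B ^ 2 := by positivity
  nlinarith

/-- (b) the error part of the energy inequality -/
theorem Dat.main_b (D : Dat C0 j0 ρ0 κ0 c b u P κ v) {Dw : ℝ}
    (hD : ∀ p, |deriv (om κ0) p| ≤ Dw) (hz : z ∈ disc 1) :
    -(1 / 2 * (Hf (Kc C0 j0 κ0) (ta κ0 c b u P z) * deriv (om κ0) (P z))
      * (Lo u P v z ^ 2 - κ z * No u P v z ^ 2))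
      ≤ (Hm C0 j0 κ0 * Dw * (1 + C0) * (2 * C0 ^ 2 / j0 ^ 2)) * (Rs κ0 P).indicator (qf v) z := by
  have hz2 : z ∈ disc 2 := disc_mono (by norm_num) (by norm_num) hz
  by_cases hR : z ∈ Rs κ0 P
  swap
  · have hp : P z ≤ κ0 / 75 := by
      by_contra h
      exact hR ⟨hz, lt_of_lt_of_le (not_le.1 h) (le_abs_self _)⟩
    rw [indicator_of_notMem hR, om_deriv_eq_zero D.hκ hp]
    simp
  rw [indicator_of_mem hR]
  have hA := D.A_le hz2
  have hB := D.B_le hz2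
  have hq : dx v z ^ 2 + dy v z ^ 2 ≤ qf v z := by unfold qf; nlinarith [sq_nonneg (v z)]
  have hk := (D.reg.bk z hz2).1
  have hH : Hf (Kc C0 j0 κ0) (ta κ0 c b u P z) ≤ Hm C0 j0 κ0 :=
    Hf_le' (Kc_nonneg D.hj) (D.ta_le hz2) (by linarith [D.hC])
  have hH0 : 0 ≤ Hf (Kc C0 j0 κ0) (ta κ0 c b u P z) := Hf_nonneg _ _
  have hC := D.hC
  have hj := D.hj
  set f := Hf (Kc C0 j0 κ0) (ta κ0 c b u P z)
  set e := deriv (om κ0) (P z)
  have he : |e| ≤ Dw := hD _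
  set M := Hm C0 j0 κ0
  set A := No u P v z
  set B := Lo u P v z
  set a := 2 * C0 ^ 2 / j0 ^ 2
  have ha : 0 ≤ a := by positivity
  have hX : |B ^ 2 - κ z * A ^ 2| ≤ (1 + C0) * (a * qf v z) := by
    have h1 : |κ z * A ^ 2| ≤ C0 * A ^ 2 := by
      rw [abs_mul, abs_of_nonneg (sq_nonneg A)]
      exact mul_le_mul_of_nonneg_right hk (sq_nonneg A)
    have h2 := abs_sub (B ^ 2) (κ z * A ^ 2)
    rw [abs_of_nonneg (sq_nonneg B)] at h2
    have h3 : a * (dx v z ^ 2 + dy v z ^ 2) ≤ a * qf v z := mul_le_mul_of_nonneg_left hq ha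
    have h4 : C0 * A ^ 2 ≤ C0 * (a * qf v z) := mul_le_mul_of_nonneg_left (hA.trans h3) hC.le
    linarith
  have hfe : |f * e| ≤ M * Dw := by
    rw [abs_mul, abs_of_nonneg hH0]
    exact mul_le_mul hH he (abs_nonneg _) (hH0.trans hH)
  have hfin : |f * e * (B ^ 2 - κ z * A ^ 2)| ≤ M * Dw * ((1 + C0) * (a * qf v z)) := by
    rw [abs_mul]
    exact mul_le_mul hfe hX (abs_nonneg _) ((abs_nonneg _).trans hfe)
  have h5 := neg_abs_le (f * e * (B ^ 2 - κ z * A ^ 2))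
  have h6 : 0 ≤ |f * e * (B ^ 2 - κ z * A ^ 2)| := abs_nonneg _
  have h7 : -(1 / 2 * (f * e) * (B ^ 2 - κ z * A ^ 2))
      ≤ |f * e * (B ^ 2 - κ z * A ^ 2)| := by
    have : -(1 / 2 * (f * e) * (B ^ 2 - κ z * A ^ 2))
      = -(1 / 2) * (f * e * (B ^ 2 - κ z * A ^ 2)) := by ring
    rw [this]
    linarith
  calc _ ≤ _ := h7
    _ ≤ _ := hfin
    _ = _ := by ring

end

end Vale.Agent.P229.C3.DownAux3
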