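import Vale.Agent.P229.C3.Surf
import Vale.Agent.P229.Normalize

/-!
# P229 [P], `C³` version
-/

namespace Vale.Agent.P229.C3

open Set
open scoped ContDiff

namespace C3NormAux

open NormalizeAux hiding sm_Dw Dw_lin2 sm_cmb Dw_cmb sm_aff ord_aff nm_facts second_normal ord_cmb ob_nm

variable {U : Set (ℝ × ℝ)} {f g : ℝ × ℝ → ℝ}

theorem Dw_lin2 (hU : IsOpen U) (a b : ℝ) (u : List Bool) (hf : Sm u.length U f)
    (hg : Sm u.length U g) :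
    ∀ z ∈ U, Dw u (fun z => a * f z + b * g z) z = a * Dw u f z + b * Dw u g z := by
  induction u with
  | nil => exact fun z _ => rfl
  | cons c u ih =>
    intro z hz
    have hf' : Sm (u.length + 1) U f := hf
    have hg' : Sm (u.length + 1) U g := hg
    have ih := ih (hf'.of_le (by omega)) (hg'.of_le (by omega))
    have h1 := (Sm_Dw (n := 1) hU u (by rw [add_comm]; exact hf')).diff hU hz
    have h2 := (Sm_Dw (n := 1) hU u (by rw [add_comm]; exact hg')).diff hU hz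
    cases c
    · have e := dy_congr hU ih hz
      change dy (Dw u _) z = a * dy (Dw u f) z + b * dy (Dw u g) z
      rw [e, dy_add (h1.const_mul a) (h2.const_mul b), dy_const_mul a h1, dy_const_mul b h2]
    · have e := dx_congr hU ih hz
      change dx (Dw u _) z = a * dx (Dw u f) z + b * dx (Dw u g) z
      rw [e, dx_add (h1.const_mul a) (h2.const_mul b), dx_const_mul a h1, dx_const_mul b h2]

theorem sm_cmb {n : ℕ} {F1 F2 F3 : ℝ × ℝ → ℝ} (h1 : Sm n U F1) (h2 : Sm n U F2) (h3 : Sm n U F3)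
    (a1 a2 a3 : ℝ) : Sm n U (cmb a1 a2 a3 F1 F2 F3) :=
  (((Sm.const a1).mul h1).add ((Sm.const a2).mul h2)).add ((Sm.const a3).mul h3)

theorem Dw_cmb (hU : IsOpen U) {F1 F2 F3 : ℝ × ℝ → ℝ} 
    (a1 a2 a3 : ℝ) (u : List Bool) (h1 : Sm u.length U F1) (h2 : Sm u.length U F2)
    (h3 : Sm u.length U F3) :
    ∀ z ∈ U, Dw u (cmb a1 a2 a3 F1 F2 F3) z = a1 * Dw u F1 z + a2 * Dw u F2 z + a3 * Dw u F3 z := by
  intro z hz
  have e1 : ∀ z ∈ U, cmb a1 a2 a3 F1 F2 F3 z = 1 * (a1 * F1 z + a2 * F2 z) + a3 * F3 z := by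
    intro z _; simp [cmb]
  rw [Dw_congr hU e1 u z hz, Dw_lin2 hU 1 a3 u (((Sm.const a1).mul h1).add ((Sm.const a2).mul h2)) h3 z hz,
    Dw_lin2 hU a1 a2 u h1 h2 z hz]
  ring

section aff

variable {p : ℝ × ℝ} {r c s : ℝ}

theorem sm_aff {n : ℕ} {V : Set (ℝ × ℝ)} (hf : Sm n U f) (hV : ∀ w ∈ V, aff p r c s w ∈ U) :
    Sm n V (fun w => f (aff p r c s w)) :=
  ContDiffOn.comp hf (contDiff_aff.of_le (by exact_mod_cast le_top)).contDiffOn hV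

/-- bounds for the derivatives of the composition with `aff` -/
theorem ord_aff (hU : IsOpen U) (hr : 0 ≤ r) (hc : |c| ≤ 1) (hs : |s| ≤ 1) {K : Set (ℝ × ℝ)}
    (hK : K ⊆ U) {B : ℝ} (j : ℕ) : ∀ (f : ℝ × ℝ → ℝ), Sm j U f →
    (∀ u : List Bool, u.length = j → ∀ z ∈ K, |Dw u f z| ≤ B) →
    ∀ u : List Bool, u.length = j → ∀ w, aff p r c s w ∈ K →
      |Dw u (fun w => f (aff p r c s w)) w| ≤ (2 * r) ^ j * B := by
  induction j with
  | zero =>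
    intro f hf hb u hu w hw
    rw [List.length_eq_zero_iff] at hu
    subst hu
    simpa [Dw] using hb [] rfl _ hw
  | succ j ih =>
    intro f hf hb u hu w hw
    have hVo : IsOpen {w | aff p r c s w ∈ U} := isOpen_pre hU
    have hwV : w ∈ {w | aff p r c s w ∈ U} := hK hw
    have hx := ih (dx f) (hf.dx hU) (fun u hu z hz => by
      rw [← Dw_append_true]
      exact hb _ (by simp [hu]) z hz)
    have hy := ih (dy f) (hf.dy hU) (fun u hu z hz => by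
      rw [← Dw_append_false]
      exact hb _ (by simp [hu]) z hz)
    have sx : Sm j {w | aff p r c s w ∈ U} (fun w => dx f (aff p r c s w)) :=
      sm_aff (hf.dx hU) (fun w hw => hw)
    have sy : Sm j {w | aff p r c s w ∈ U} (fun w => dy f (aff p r c s w)) :=
      sm_aff (hf.dy hU) (fun w hw => hw)
    have key : ∀ X Y α β Bj : ℝ, |X| ≤ Bj → |Y| ≤ Bj → |α| ≤ 1 → |β| ≤ 1 →
        |r * α * X + r * β * Y| ≤ 2 * r * Bj := by
      intro X Y α β Bj hX hY hα hβ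
      have h1 : |r * α * X| ≤ r * Bj := by
        rw [mul_assoc, abs_mul, abs_mul, abs_of_nonneg hr]
        apply mul_le_mul_of_nonneg_left _ hr
        calc |α| * |X| ≤ 1 * Bj := mul_le_mul hα hX (abs_nonneg _) zero_le_one
          _ = Bj := one_mul _
      have h2 : |r * β * Y| ≤ r * Bj := by
        rw [mul_assoc, abs_mul, abs_mul, abs_of_nonneg hr]
        apply mul_le_mul_of_nonneg_left _ hr
        calc |β| * |Y| ≤ 1 * Bj := mul_le_mul hβ hY (abs_nonneg _) zero_le_one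
          _ = Bj := one_mul _
      calc _ ≤ |r * α * X| + |r * β * Y| := abs_add_le _ _
        _ ≤ _ := by linarith
    rcases List.eq_nil_or_concat u with h0 | ⟨u', b, hub⟩
    · simp [h0] at hu
    · rw [List.concat_eq_append] at hub
      subst hub
      have hu' : u'.length = j := by simpa using hu
      cases b
      · rw [Dw_append_false]
        have e : ∀ w ∈ {w | aff p r c s w ∈ U}, dy (fun w => f (aff p r c s w)) w
            = r * -s * dx f (aff p r c s w) + r * c * dy f (aff p r c s w) := by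
          intro w hw
          rw [dy_aff (hf.diff hU hw)]; ring
        rw [Dw_congr hVo e u' w hwV, Dw_lin2 hVo _ _ u' (hu' ▸ sx) (hu' ▸ sy) w hwV]
        have := key _ _ (-s) c _ (hx u' hu' w hw) (hy u' hu' w hw) (by rwa [abs_neg]) hc
        refine this.trans (le_of_eq ?_)
        ring
      · rw [Dw_append_true]
        have e : ∀ w ∈ {w | aff p r c s w ∈ U}, dx (fun w => f (aff p r c s w)) w
            = r * c * dx f (aff p r c s w) + r * s * dy f (aff p r c s w) := by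
          intro w hw
          rw [dx_aff (hf.diff hU hw)]; ring
        rw [Dw_congr hVo e u' w hwV, Dw_lin2 hVo _ _ u' (hu' ▸ sx) (hu' ▸ sy) w hwV]
        have := key _ _ c s _ (hx u' hu' w hw) (hy u' hu' w hw) hc hs
        refine this.trans (le_of_eq ?_)
        ring

end aff

/-- everything about `nm` -/
theorem nm_facts {χ : ℝ × ℝ → ℝ} {p : ℝ × ℝ} {r c s : ℝ} (hU : IsOpen U) (hf : Sm 3 U f)
    (hr : 0 < r) (hcs : c ^ 2 + s ^ 2 = 1) (hsub : cdisc p (3 * r) ⊆ U)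
    (hχ : ContDiff ℝ ∞ χ) (hχs : tsupport χ ⊆ {w | aff p r c s w ∈ U})
    (hχ1 : ∀ w ∈ cdisc 0 3, χ w = 1) :
    ContDiff ℝ 3 (nm χ p r c s f) ∧ nm χ p r c s f 0 = 0 ∧
    (∀ w ∈ disc 3, dx (nm χ p r c s f) w
      = c * dx f (aff p r c s w) + s * dy f (aff p r c s w)) ∧
    (∀ w ∈ disc 3, dy (nm χ p r c s f) w
      = -s * dx f (aff p r c s w) + c * dy f (aff p r c s w)) ∧
    dx (dy (nm χ p r c s f)) 0 = r * (-(c * s) * dx (dx f) p + (c ^ 2 - s ^ 2) * dx (dy f) p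
      + c * s * dy (dy f) p) ∧
    dy (dy (nm χ p r c s f)) 0 = r * (s ^ 2 * dx (dx f) p - 2 * (c * s) * dx (dy f) p
      + c ^ 2 * dy (dy f) p) ∧
    ∀ (B : ℝ) (k : ℕ), 1 ≤ k → k ≤ 3 → OrdBd (cdisc p (3 * r)) k B f →
      OrdBd (disc 3) k (2 ^ k * r ^ (k - 1) * B) (nm χ p r c s f) := by
  have hVo : IsOpen {w | aff p r c s w ∈ U} := isOpen_pre hU
  have hmap : ∀ w ∈ cdisc 0 3, aff p r c s w ∈ cdisc p (3 * r) := by
    intro w hw
    have hw' : (w.1 - 0) ^ 2 + (w.2 - 0) ^ 2 ≤ 3 ^ 2 := hw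
    change (p.1 + r * (c * w.1 - s * w.2) - p.1) ^ 2 + (p.2 + r * (s * w.1 + c * w.2) - p.2) ^ 2
      ≤ (3 * r) ^ 2
    have e : (p.1 + r * (c * w.1 - s * w.2) - p.1) ^ 2 + (p.2 + r * (s * w.1 + c * w.2) - p.2) ^ 2
        = r ^ 2 * ((c ^ 2 + s ^ 2) * (w.1 ^ 2 + w.2 ^ 2)) := by ring
    rw [e, hcs]
    simp only [sub_zero] at hw'
    nlinarith [sq_nonneg r]
  have hdV : disc 3 ⊆ {w | aff p r c s w ∈ U} := fun w hw => hsub (hmap w (disc_sub hw))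
  have hd3 : IsOpen (disc 3) := isOpen_disc 3
  have hcomp : Sm 3 (disc 3) (fun w => f (aff p r c s w)) := sm_aff hf (fun w hw => hdV hw)
  have hrep : ∀ w ∈ disc 3, nm χ p r c s f w = 1 / r * f (aff p r c s w) + -(f p) / r * 1 := by
    intro w hw
    rw [nm, hχ1 w (disc_sub hw)]
    ring
  have hc1 : |c| ≤ 1 := by
    rw [abs_le]; constructor <;> nlinarith [sq_nonneg s]
  have hs1 : |s| ≤ 1 := by
    rw [abs_le]; constructor <;> nlinarith [sq_nonneg c]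
  have hDw : ∀ u : List Bool, 1 ≤ u.length → u.length ≤ 3 → ∀ w ∈ disc 3,
      Dw u (nm χ p r c s f) w = 1 / r * Dw u (fun w => f (aff p r c s w)) w := by
    intro u hu hu3 w hw
    rw [Dw_congr hd3 hrep u w hw, Dw_lin2 hd3 _ _ u (hcomp.of_le hu3) (Sm.const 1) w hw,
      Dw_const 1 hu]
    ring
  have hdx : ∀ w ∈ disc 3, dx (nm χ p r c s f) w
      = c * dx f (aff p r c s w) + s * dy f (aff p r c s w) := by
    intro w hw
    have h := hDw [true] (by simp) (by simp) w hw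
    change dx (nm χ p r c s f) w = 1 / r * dx (fun w => f (aff p r c s w)) w at h
    rw [h, dx_aff (hf.diff hU (hdV hw))]
    field_simp
  have hdy : ∀ w ∈ disc 3, dy (nm χ p r c s f) w
      = -s * dx f (aff p r c s w) + c * dy f (aff p r c s w) := by
    intro w hw
    have h := hDw [false] (by simp) (by simp) w hw
    change dy (nm χ p r c s f) w = 1 / r * dy (fun w => f (aff p r c s w)) w at h
    rw [h, dy_aff (hf.diff hU (hdV hw))]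
    field_simp
  have sx : Sm 2 (disc 3) (fun w => dx f (aff p r c s w)) := sm_aff (hf.dx hU) (fun w hw => hdV hw)
  have sy : Sm 2 (disc 3) (fun w => dy f (aff p r c s w)) := sm_aff (hf.dy hU) (fun w hw => hdV hw)
  have h0 := zero_mem_disc
  have hpU : p ∈ U := by have := hdV h0; rwa [mem_ofPred_eq, aff_zero] at this
  have dX := sx.diff hd3 h0
  have dY := sy.diff hd3 h0
  have dfx : DifferentiableAt ℝ (dx f) (aff p r c s 0) := by
    rw [aff_zero]; exact (hf.dx hU).diff hU hpU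
  have dfy : DifferentiableAt ℝ (dy f) (aff p r c s 0) := by
    rw [aff_zero]; exact (hf.dy hU).diff hU hpU
  have hsym := (hf.of_le (by norm_num : 2 ≤ 3)).dx_dy_comm hU hpU
  refine ⟨?_, ?_, hdx, hdy, ?_, ?_, ?_⟩
  · exact contDiff_mul_of_tsupport (n := 3) hVo (hχ.of_le (by exact_mod_cast le_top)) hχs
      ((contDiffOn_const).mul ((sm_aff hf (fun w hw => hw)).sub (Sm.const _)))
  · rw [nm, aff_zero]; simp
  · rw [dx_congr hd3 hdy h0, dx_add (dX.const_mul _) (dY.const_mul _), dx_const_mul _ dX,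
      dx_const_mul _ dY, dx_aff dfx, dx_aff dfy, aff_zero, ← hsym]
    ring
  · rw [dy_congr hd3 hdy h0, dy_add (dX.const_mul _) (dY.const_mul _), dy_const_mul _ dX,
      dy_const_mul _ dY, dy_aff dfx, dy_aff dfy, aff_zero, ← hsym]
    ring
  · intro B k hk hk3 hB u hu w hw
    rw [hDw u (by omega) (by omega) w hw]
    have h := ord_aff hU hr.le hc1 hs1 hsub k f (hf.of_le hk3) hB u hu w (hmap w (disc_sub hw))
    rw [abs_mul, abs_of_pos (by positivity : (0 : ℝ) < 1 / r)]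
    calc 1 / r * |Dw u (fun w => f (aff p r c s w)) w| ≤ 1 / r * ((2 * r) ^ k * B) :=
          mul_le_mul_of_nonneg_left h (by positivity)
      _ = 2 ^ k * r ^ (k - 1) * B := by
        obtain ⟨k', rfl⟩ : ∃ k', k = k' + 1 := ⟨k - 1, by omega⟩
        rw [Nat.add_sub_cancel, mul_pow]
        field_simp
        ring

/-- the normal structure of the second derivatives at `p` -/
theorem second_normal {Ψ ψ F1 F2 F3 : ℝ × ℝ → ℝ} {p : ℝ × ℝ} {r : ℝ} (hU : IsOpen U)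
    (hΨ : ContDiff ℝ ∞ Ψ) (hψ : ContDiff ℝ ∞ ψ) (hrad : Radial ψ) (s1 : Sm 3 U F1) (s2 : Sm 3 U F2)
    (s3 : Sm 3 U F3) (hI : Imm3 U Ψ F1 F2 F3) (hr : 0 < r) (hp : p ∈ U)
    (hloc : ∀ w : ℝ × ℝ, w.1 ^ 2 + w.2 ^ 2 ≤ 9 → Ψ (p.1 + r * w.1, p.2 + r * w.2) = ψ w) :
    (dx F1 p * dx (dx F1) p + dx F2 p * dx (dx F2) p + dx F3 p * dx (dx F3) p = 0 ∧
      dy F1 p * dx (dx F1) p + dy F2 p * dx (dx F2) p + dy F3 p * dx (dx F3) p = 0) ∧
    (dx F1 p * dx (dy F1) p + dx F2 p * dx (dy F2) p + dx F3 p * dx (dy F3) p = 0 ∧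
      dy F1 p * dx (dy F1) p + dy F2 p * dx (dy F2) p + dy F3 p * dx (dy F3) p = 0) ∧
    (dx F1 p * dy (dy F1) p + dx F2 p * dy (dy F2) p + dx F3 p * dy (dy F3) p = 0 ∧
      dy F1 p * dy (dy F1) p + dy F2 p * dy (dy F2) p + dy F3 p * dy (dy F3) p = 0) := by
  have hdΨ : DifferentiableAt ℝ Ψ p := (hΨ.differentiable (by simp)).differentiableAt
  have hdΨ' : DifferentiableAt ℝ Ψ (aff p r 1 0 0) := by rw [aff_zero]; exact hdΨ
  have hcg : ∀ w ∈ disc 3, (fun w => Ψ (aff p r 1 0 w)) w = ψ w := by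
    intro w hw
    have hw' : w.1 ^ 2 + w.2 ^ 2 < 3 ^ 2 := hw
    have := hloc w (by linarith)
    simp only [aff, one_mul, zero_mul, sub_zero, zero_add]
    exact this
  obtain ⟨g1, g2⟩ := radial_grad hψ hrad
  have hΨx : dx Ψ p = 0 := by
    have h1 := dx_aff (w := 0) hdΨ'
    rw [dx_congr (isOpen_disc 3) hcg zero_mem_disc, g1, aff_zero] at h1
    have : r * dx Ψ p = 0 := by linarith
    exact (mul_eq_zero.mp this).resolve_left hr.ne'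
  have hΨy : dy Ψ p = 0 := by
    have h1 := dy_aff (w := 0) hdΨ'
    rw [dy_congr (isOpen_disc 3) hcg zero_mem_disc, g2, aff_zero] at h1
    have : r * dy Ψ p = 0 := by linarith
    exact (mul_eq_zero.mp this).resolve_left hr.ne'
  have hexp : ∀ t : ℝ, HasDerivAt (fun t => Real.exp (2 * t)) (2 * Real.exp (2 * t)) t := by
    intro t
    have := ((hasDerivAt_id t).const_mul 2).exp
    exact this.congr_deriv (by simp; ring)
  have hex : dx (fun z => Real.exp (2 * Ψ z)) p = 0 := by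
    rw [dx_comp (φ := fun t => Real.exp (2 * t)) (hexp _) hdΨ, hΨx, mul_zero]
  have hey : dy (fun z => Real.exp (2 * Ψ z)) p = 0 := by
    rw [dy_comp (φ := fun t => Real.exp (2 * t)) (hexp _) hdΨ, hΨy, mul_zero]
  have x1 := (s1.dx hU).diff hU hp
  have x2 := (s2.dx hU).diff hU hp
  have x3 := (s3.dx hU).diff hU hp
  have y1 := (s1.dy hU).diff hU hp
  have y2 := (s2.dy hU).diff hU hp
  have y3 := (s3.dy hU).diff hU hp
  have c1 := (s1.of_le (by norm_num : 2 ≤ 3)).dx_dy_comm hU hp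
  have c2 := (s2.of_le (by norm_num : 2 ≤ 3)).dx_dy_comm hU hp
  have c3 := (s3.of_le (by norm_num : 2 ≤ 3)).dx_dy_comm hU hp
  have q1 := dx_congr hU (fun z hz => (hI z hz).1) hp
  have q2 := dy_congr hU (fun z hz => (hI z hz).1) hp
  have q3 := dx_congr hU (fun z hz => (hI z hz).2.1) hp
  have q4 := dy_congr hU (fun z hz => (hI z hz).2.1) hp
  have q5 := dx_congr (g := fun _ => 0) hU (fun z hz => (hI z hz).2.2) hp
  have q6 := dy_congr (g := fun _ => 0) hU (fun z hz => (hI z hz).2.2) hp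
  rw [dx_sumsq x1 x2 x3, hex] at q1
  rw [dy_sumsq x1 x2 x3, hey, ← c1, ← c2, ← c3] at q2
  rw [dx_sumsq y1 y2 y3, hex] at q3
  rw [dy_sumsq y1 y2 y3, hey] at q4
  rw [dx_dot x1 x2 x3 y1 y2 y3, dx_const] at q5
  rw [dy_dot x1 x2 x3 y1 y2 y3, dy_const, ← c1, ← c2, ← c3] at q6
  refine ⟨⟨by linarith, by linarith⟩, ⟨by linarith, by linarith⟩, ⟨by linarith, by linarith⟩⟩

theorem ord_cmb (hU : IsOpen U) {F1 F2 F3 : ℝ × ℝ → ℝ} (h1 : Sm 3 U F1) (h2 : Sm 3 U F2) (h3 : Sm 3 U F3)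
    {a1 a2 a3 : ℝ} (ha : a1 ^ 2 + a2 ^ 2 + a3 ^ 2 = 1) {K : Set (ℝ × ℝ)} (hK : K ⊆ U) {k : ℕ} (hk3 : k ≤ 3) {B : ℝ}
    (o1 : OrdBd K k B F1) (o2 : OrdBd K k B F2) (o3 : OrdBd K k B F3) :
    OrdBd K k (3 * B) (cmb a1 a2 a3 F1 F2 F3) := by
  intro u hu z hz
  obtain ⟨b1, b2, b3⟩ := abs_le_one_of ha
  rw [Dw_cmb hU a1 a2 a3 u (h1.of_le (by omega)) (h2.of_le (by omega)) (h3.of_le (by omega)) z (hK hz)]
  have key : ∀ a X : ℝ, |a| ≤ 1 → |X| ≤ B → |a * X| ≤ B := by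
    intro a X ha hX
    rw [abs_mul]
    calc |a| * |X| ≤ 1 * B := mul_le_mul ha hX (abs_nonneg _) zero_le_one
      _ = B := one_mul _
  have e1 := key _ _ b1 (o1 u hu z hz)
  have e2 := key _ _ b2 (o2 u hu z hz)
  have e3 := key _ _ b3 (o3 u hu z hz)
  have := abs_add_three (a1 * Dw u F1 z) (a2 * Dw u F2 z) (a3 * Dw u F3 z)
  linarith

theorem ob_nm {χ : ℝ × ℝ → ℝ} {p : ℝ × ℝ} {r c s M0 : ℝ} (hU : IsOpen U) (hM0 : 1 ≤ M0)
    {F1 F2 F3 : ℝ × ℝ → ℝ} (h1 : Sm 3 U F1) (h2 : Sm 3 U F2) (h3 : Sm 3 U F3)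
    {a1 a2 a3 : ℝ} (ha : a1 ^ 2 + a2 ^ 2 + a3 ^ 2 = 1)
    (hr : 0 < r) (hcs : c ^ 2 + s ^ 2 = 1) (hsub : cdisc p (3 * r) ⊆ U)
    (hχ : ContDiff ℝ ∞ χ) (hχs : tsupport χ ⊆ {w | aff p r c s w ∈ U})
    (hχ1 : ∀ w ∈ cdisc 0 3, χ w = 1)
    (hOB : ∀ k : ℕ, 2 ≤ k → k ≤ 3 → OrdBd (cdisc p (3 * r)) k M0 F1 ∧
      OrdBd (cdisc p (3 * r)) k M0 F2 ∧ OrdBd (cdisc p (3 * r)) k M0 F3) :
    OB (100 * M0) r (nm χ p r c s (cmb a1 a2 a3 F1 F2 F3)) := by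
  have hN := (nm_facts hU (sm_cmb h1 h2 h3 a1 a2 a3) hr hcs hsub hχ hχs hχ1).2.2.2.2.2.2
  have hk : ∀ k : ℕ, 2 ≤ k → k ≤ 3 → OrdBd (disc 3) k (2 ^ k * r ^ (k - 1) * (3 * M0))
      (nm χ p r c s (cmb a1 a2 a3 F1 F2 F3)) := by
    intro k hk2 hk3
    obtain ⟨o1, o2, o3⟩ := hOB k hk2 hk3
    exact hN _ k (by omega) hk3 (ord_cmb hU h1 h2 h3 ha hsub hk3 o1 o2 o3)
  have hrM : 0 ≤ r * M0 := by positivity
  have hrM2 : 0 ≤ r ^ 2 * M0 := by positivity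
  refine ⟨OrdBd_mono (hk 2 le_rfl (by norm_num)) ?_,
    OrdBd_mono (hk 3 (by norm_num) le_rfl) ?_⟩ <;> norm_num <;> nlinarith

end C3NormAux

open NormalizeAux hiding sm_Dw Dw_lin2 sm_cmb Dw_cmb sm_aff ord_aff nm_facts second_normal ord_cmb ob_nm in
open C3NormAux in
theorem normalize (M0 : ℝ) (hM0 : 1 ≤ M0) : ∃ M : ℝ, 1 ≤ M ∧ ∀ (U : Set (ℝ × ℝ))
    (Ψ ψ F1 F2 F3 : ℝ × ℝ → ℝ) (p : ℝ × ℝ) (r : ℝ), IsOpen U → ContDiff ℝ ∞ Ψ → ContDiff ℝ ∞ ψ →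
    Radial ψ → Sm 3 U F1 → Sm 3 U F2 → Sm 3 U F3 → Imm3 U Ψ F1 F2 F3 → 0 < r → r ≤ 1 →
    cdisc p (3 * r) ⊆ U →
    (∀ w : ℝ × ℝ, w.1 ^ 2 + w.2 ^ 2 ≤ 9 → Ψ (p.1 + r * w.1, p.2 + r * w.2) = ψ w) →
    (∀ k : ℕ, 2 ≤ k → k ≤ 3 → OrdBd (cdisc p (3 * r)) k M0 F1 ∧ OrdBd (cdisc p (3 * r)) k M0 F2 ∧
      OrdBd (cdisc p (3 * r)) k M0 F3) →
    (∃ F ∈ ({F1, F2, F3} : Set (ℝ × ℝ → ℝ)), 1 / M0 ≤ |dx (dx F) p| ∨ 1 / M0 ≤ |dx (dy F) p| ∨
      1 / M0 ≤ |dy (dy F) p|) →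
    ψ 0 ≤ 0 → -1 ≤ ψ 0 →
    ∃ T : Tri, Nrm M r (Real.exp (ψ 0)) T ∧ IsImm ψ T := by
  refine ⟨100 * M0, by linarith, ?_⟩
  intro U Ψ ψ F1 F2 F3 p r hU hΨ hψ hrad s1 s2 s3 hI hr hr1 hsub hloc hOB hbig _ _
  have hpc : p ∈ cdisc p (3 * r) := by
    change (p.1 - p.1) ^ 2 + (p.2 - p.2) ^ 2 ≤ (3 * r) ^ 2
    nlinarith
  have hp : p ∈ U := hsub hpc
  obtain ⟨⟨nx1, nx2⟩, ⟨ny1, ny2⟩, ⟨nz1, nz2⟩⟩ :=
    second_normal hU hΨ hψ hrad s1 s2 s3 hI hr hp hloc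
  have he0p : 0 < Real.exp (ψ 0) := Real.exp_pos _
  have hΨp : Ψ p = ψ 0 := by
    have := hloc 0 (by simp)
    simpa using this
  have hexp2 : Real.exp (2 * Ψ p) = Real.exp (ψ 0) ^ 2 := by
    rw [hΨp, ← Real.exp_nat_mul]; norm_num
  obtain ⟨iaa, ibb, iab⟩ := hI p hp
  rw [hexp2] at iaa ibb
  have hbig' := big_of hM0 hbig
  obtain ⟨c, s, t1, t2, t3, u1, u2, u3, v1, v2, v3, hcs, ⟨tt, uu, vv⟩, hpars, ⟨et1, et2⟩,
    ⟨eu1, eu2⟩, ⟨ev1, ev2⟩, hxy, hyy⟩ :=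
    lin_alg he0p hM0 iaa ibb iab nx1 nx2 ny1 ny2 nz1 nz2 hbig'
  -- the cut-off
  have hVo : IsOpen {w | aff p r c s w ∈ U} := isOpen_pre hU
  have hK : cdisc 0 3 ⊆ {w | aff p r c s w ∈ U} := aff_maps hcs hsub
  obtain ⟨χ, hχ, hχs, hχ1⟩ := exists_cut hVo hK
  obtain ⟨ca, oa, dxa, dya, -, -, -⟩ :=
    nm_facts hU (sm_cmb s1 s2 s3 t1 t2 t3) hr hcs hsub hχ hχs hχ1
  obtain ⟨cb, ob, dxb, dyb, -, -, -⟩ :=
    nm_facts hU (sm_cmb s1 s2 s3 u1 u2 u3) hr hcs hsub hχ hχs hχ1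
  obtain ⟨ch, oh, dxh, dyh, dxyh, dyyh, -⟩ :=
    nm_facts hU (sm_cmb s1 s2 s3 v1 v2 v3) hr hcs hsub hχ hχs hχ1
  have d1 : ∀ (q1 q2 q3 : ℝ) (z : ℝ × ℝ), z ∈ U → dx (cmb q1 q2 q3 F1 F2 F3) z
      = q1 * dx F1 z + q2 * dx F2 z + q3 * dx F3 z := fun q1 q2 q3 z hz =>
    Dw_cmb hU q1 q2 q3 [true] (s1.of_le (by simp)) (s2.of_le (by simp)) (s3.of_le (by simp)) z hz
  have d2 : ∀ (q1 q2 q3 : ℝ) (z : ℝ × ℝ), z ∈ U → dy (cmb q1 q2 q3 F1 F2 F3) z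
      = q1 * dy F1 z + q2 * dy F2 z + q3 * dy F3 z := fun q1 q2 q3 z hz =>
    Dw_cmb hU q1 q2 q3 [false] (s1.of_le (by simp)) (s2.of_le (by simp)) (s3.of_le (by simp)) z hz
  have d11 : dx (dx (cmb v1 v2 v3 F1 F2 F3)) p
      = v1 * dx (dx F1) p + v2 * dx (dx F2) p + v3 * dx (dx F3) p :=
    Dw_cmb hU v1 v2 v3 [true, true] (s1.of_le (by simp)) (s2.of_le (by simp)) (s3.of_le (by simp)) p hp
  have d12 : dx (dy (cmb v1 v2 v3 F1 F2 F3)) p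
      = v1 * dx (dy F1) p + v2 * dx (dy F2) p + v3 * dx (dy F3) p :=
    Dw_cmb hU v1 v2 v3 [true, false] (s1.of_le (by simp)) (s2.of_le (by simp)) (s3.of_le (by simp)) p hp
  have d22 : dy (dy (cmb v1 v2 v3 F1 F2 F3)) p
      = v1 * dy (dy F1) p + v2 * dy (dy F2) p + v3 * dy (dy F3) p :=
    Dw_cmb hU v1 v2 v3 [false, false] (s1.of_le (by simp)) (s2.of_le (by simp)) (s3.of_le (by simp)) p hp
  have h0 := zero_mem_disc
  refine ⟨⟨nm χ p r c s (cmb t1 t2 t3 F1 F2 F3), nm χ p r c s (cmb u1 u2 u3 F1 F2 F3),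
    nm χ p r c s (cmb v1 v2 v3 F1 F2 F3), ca, cb, ch⟩, ?_, ?_⟩
  · refine ⟨oa, ob, oh, ?_, ?_, ?_, ?_, ?_, ?_, ?_, ?_, ?_, ?_, ?_⟩
    · rw [dxa 0 h0, aff_zero, d1 _ _ _ p hp, d2 _ _ _ p hp]; exact et1
    · rw [dya 0 h0, aff_zero, d1 _ _ _ p hp, d2 _ _ _ p hp]; exact et2
    · rw [dxb 0 h0, aff_zero, d1 _ _ _ p hp, d2 _ _ _ p hp]; exact eu1
    · rw [dyb 0 h0, aff_zero, d1 _ _ _ p hp, d2 _ _ _ p hp]; exact eu2
    · rw [dxh 0 h0, aff_zero, d1 _ _ _ p hp, d2 _ _ _ p hp]; exact ev1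
    · rw [dyh 0 h0, aff_zero, d1 _ _ _ p hp, d2 _ _ _ p hp]; exact ev2
    · rw [dxyh, d11, d12, d22, hxy, mul_zero]
    · rw [dyyh, d11, d12, d22]
      have := mul_le_mul_of_nonneg_left hyy hr.le
      refine le_trans (le_of_eq ?_) this
      ring
    · exact ob_nm hU hM0 s1 s2 s3 tt hr hcs hsub hχ hχs hχ1 hOB
    · exact ob_nm hU hM0 s1 s2 s3 uu hr hcs hsub hχ hχs hχ1 hOB
    · exact ob_nm hU hM0 s1 s2 s3 vv hr hcs hsub hχ hχs hχ1 hOB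
  · intro z hz
    have hzU : aff p r c s z ∈ U := hK (disc_sub hz)
    obtain ⟨i1, i2, i3⟩ := hI _ hzU
    have hΨz : Ψ (aff p r c s z) = ψ z := by
      have hz' : z.1 ^ 2 + z.2 ^ 2 < 3 ^ 2 := hz
      have e : (c * z.1 - s * z.2) ^ 2 + (s * z.1 + c * z.2) ^ 2 = z.1 ^ 2 + z.2 ^ 2 := by
        linear_combination (z.1 ^ 2 + z.2 ^ 2) * hcs
      have h1 := hloc (c * z.1 - s * z.2, s * z.1 + c * z.2) (by rw [e]; linarith)
      have h2 := hrad (c * z.1 - s * z.2, s * z.1 + c * z.2) z e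
      rw [← h2]
      exact h1
    rw [hΨz] at i1 i2
    simp only
    rw [dxa z hz, dxb z hz, dxh z hz, dya z hz, dyb z hz, dyh z hz]
    simp only [d1 _ _ _ _ hzU, d2 _ _ _ _ hzU]
    exact imm_alg hcs hpars i1 i2 i3

end Vale.Agent.P229.C3
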