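import Vale.Agent.P229.C3.Key
import Vale.Agent.P229.Discs
import Vale.Agent.P229.Sum
import Vale.Agent.P229.C3.Chord
import Vale.Agent.P229.C3.Normalize

/-!
# P229: global construction and the final theorem (`C³` version)
-/

namespace Vale.Agent.P229.C3

open MeasureTheory Set Filter
open scoped ContDiff RealInnerProductSpace

namespace GlobalAux

theorem OrdBd_mono {U V : Set (ℝ × ℝ)} {k : ℕ} {C D : ℝ} {f : ℝ × ℝ → ℝ} (h : OrdBd U k C f)
    (hV : V ⊆ U) (hCD : C ≤ D) : OrdBd V k D f :=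
  fun w hw z hz => (h w hw z (hV hz)).trans hCD

theorem OB_mono {M M' ε : ℝ} {f : ℝ × ℝ → ℝ} (hε : 0 ≤ ε) (hM : M ≤ M') (h : OB M ε f) :
    OB M' ε f :=
  ⟨OrdBd_mono h.1 subset_rfl (mul_le_mul_of_nonneg_right hM hε),
   OrdBd_mono h.2 subset_rfl (mul_le_mul_of_nonneg_right hM (by positivity))⟩

theorem Nrm_mono {M M' ε e0 : ℝ} {T : Tri} (hM0 : 0 < M) (hε : 0 ≤ ε) (hM : M ≤ M')
    (h : Nrm M ε e0 T) : Nrm M' ε e0 T :=
  { h with
    hyy := (div_le_div_of_nonneg_left hε hM0 hM).trans h.hyy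
    oa := OB_mono hε hM h.oa
    ob := OB_mono hε hM h.ob
    oh := OB_mono hε hM h.oh }

theorem OrdBd_succ {K : Set (ℝ × ℝ)} {k : ℕ} {C : ℝ} {f : ℝ × ℝ → ℝ}
    (h1 : OrdBd K k C (dx f)) (h2 : OrdBd K k C (dy f)) : OrdBd K (k + 1) C f := by
  intro w hw z hz
  rcases List.eq_nil_or_concat w with rfl | ⟨w', b, rfl⟩
  · simp at hw
  · have hl : w'.length = k := by simpa using hw
    rw [List.concat_eq_append]
    cases b with
    | true => rw [Dw_append_true]; exact h1 w' hl z hz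
    | false => rw [Dw_append_false]; exact h2 w' hl z hz

theorem exists_OrdBd {U K : Set (ℝ × ℝ)} (hU : IsOpen U) (hK : IsCompact K) (hKU : K ⊆ U) (k : ℕ) :
    ∀ f : ℝ × ℝ → ℝ, Sm k U f → ∃ C : ℝ, OrdBd K k C f := by
  induction k with
  | zero =>
    intro f hf
    obtain ⟨C, hC⟩ := hK.exists_bound_of_continuousOn
      ((ContDiffOn.continuousOn hf).mono hKU)
    refine ⟨C, fun w hw z hz => ?_⟩
    rw [List.length_eq_zero_iff] at hw
    subst hw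
    exact hC z hz
  | succ k ih =>
    intro f hf
    obtain ⟨C1, h1⟩ := ih (dx f) (hf.dx hU)
    obtain ⟨C2, h2⟩ := ih (dy f) (hf.dy hU)
    exact ⟨max C1 C2, OrdBd_succ (OrdBd_mono h1 subset_rfl (le_max_left _ _))
      (OrdBd_mono h2 subset_rfl (le_max_right _ _))⟩

theorem isCompact_cdisc (p : ℝ × ℝ) {R : ℝ} (hR : 0 ≤ R) : IsCompact (cdisc p R) := by
  have hcl : IsClosed (cdisc p R) := by
    unfold cdisc
    exact isClosed_le (by fun_prop) (by fun_prop)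
  refine IsCompact.of_isClosed_subset (isCompact_Icc (a := ((p.1 - R, p.2 - R) : ℝ × ℝ))
    (b := (p.1 + R, p.2 + R))) hcl ?_
  intro z hz
  have h : (z.1 - p.1) ^ 2 + (z.2 - p.2) ^ 2 ≤ R ^ 2 := hz
  have h1 := abs_le.1 (abs_le_of_sq_le_sq (a := z.1 - p.1) (by nlinarith [sq_nonneg (z.2 - p.2)]) hR)
  have h2 := abs_le.1 (abs_le_of_sq_le_sq (a := z.2 - p.2) (by nlinarith [sq_nonneg (z.1 - p.1)]) hR)
  exact ⟨⟨by simp only; linarith [h1.1], by simp only; linarith [h2.1]⟩,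
    ⟨by simp only; linarith [h1.2], by simp only; linarith [h2.2]⟩⟩

theorem cdisc_mono (p : ℝ × ℝ) {R R' : ℝ} (h0 : 0 ≤ R) (h : R ≤ R') : cdisc p R ⊆ cdisc p R' := by
  intro z hz
  have h1 : (z.1 - p.1) ^ 2 + (z.2 - p.2) ^ 2 ≤ R ^ 2 := hz
  show (z.1 - p.1) ^ 2 + (z.2 - p.2) ^ 2 ≤ R' ^ 2
  nlinarith

theorem exists_cdisc_subset {U : Set (ℝ × ℝ)} (hU : IsOpen U) {p : ℝ × ℝ} (hp : p ∈ U) :
    ∃ s : ℝ, 0 < s ∧ cdisc p s ⊆ U := by
  obtain ⟨s, hs, hsub⟩ := Metric.isOpen_iff.1 hU p hp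
  refine ⟨s / 2, by positivity, fun z hz => hsub ?_⟩
  have h : (z.1 - p.1) ^ 2 + (z.2 - p.2) ^ 2 ≤ (s / 2) ^ 2 := hz
  have h1 := abs_le_of_sq_le_sq (a := z.1 - p.1) (by nlinarith [sq_nonneg (z.2 - p.2)])
    (by positivity : 0 ≤ s / 2)
  have h2 := abs_le_of_sq_le_sq (a := z.2 - p.2) (by nlinarith [sq_nonneg (z.1 - p.1)])
    (by positivity : 0 ≤ s / 2)
  rw [Metric.mem_ball, Prod.dist_eq, Real.dist_eq, Real.dist_eq]
  exact max_lt (by linarith) (by linarith)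

/-- main contradiction in terms of three real functions -/
theorem no_imm3 : ∃ Ψ : ℝ × ℝ → ℝ, ContDiff ℝ ∞ Ψ ∧ ∀ U : Set (ℝ × ℝ), IsOpen U →
    (0 : ℝ × ℝ) ∈ U → ∀ F1 F2 F3 : ℝ × ℝ → ℝ, Sm 3 U F1 → Sm 3 U F2 → Sm 3 U F3 →
      ¬ Imm3 U Ψ F1 F2 F3 := by
  have hkey : ∀ j : ℕ, _ := fun j => key_lemma ((j : ℝ) + 1) (by
    have : (0 : ℝ) ≤ j := Nat.cast_nonneg j
    linarith)
  choose e he hkey using hkey
  obtain ⟨p, r, hr, hdis, hzero, hbdry⟩ := discs_exist e he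
  have hψ : ∀ j : ℕ, _ := fun j => hkey j (r j) (hr j).1 (hr j).2.1 j ((r j / 2) ^ j)
    (pow_pos (by linarith [(hr j).1]) j)
  choose ψ hsm hrad hout hle hneg hbd hno using hψ
  obtain ⟨Ψ, hΨ, hloc⟩ := sum_exists p r (fun j => ⟨(hr j).1, (hr j).2.2⟩) hdis ψ hsm hout hbd
  refine ⟨Ψ, hΨ, ?_⟩
  intro U hU h0 F1 F2 F3 s1 s2 s3 hI
  obtain ⟨s, hs, hsU⟩ := exists_cdisc_subset hU h0
  obtain ⟨i, hi⟩ := hzero s hs
  have hDU : cdisc (p i) (3 * r i) ⊆ U := hi.trans hsU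
  have hri := (hr i).1
  -- local formula at a point of the disc
  have hform : ∀ (j : ℕ) (z : ℝ × ℝ), z ∈ cdisc (p j) (3 * r j) →
      Ψ z = ψ j ((z.1 - (p j).1) / r j, (z.2 - (p j).2) / r j) ∧
      ((z.1 - (p j).1) / r j) ^ 2 + ((z.2 - (p j).2) / r j) ^ 2
        = ((z.1 - (p j).1) ^ 2 + (z.2 - (p j).2) ^ 2) / r j ^ 2 := by
    intro j z hz
    have hrj := (hr j).1
    have hz' : (z.1 - (p j).1) ^ 2 + (z.2 - (p j).2) ^ 2 ≤ (3 * r j) ^ 2 := hz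
    have e : ((z.1 - (p j).1) / r j) ^ 2 + ((z.2 - (p j).2) / r j) ^ 2
        = ((z.1 - (p j).1) ^ 2 + (z.2 - (p j).2) ^ 2) / r j ^ 2 := by
      rw [div_pow, div_pow, add_div]
    refine ⟨?_, e⟩
    have h9 : ((z.1 - (p j).1) / r j) ^ 2 + ((z.2 - (p j).2) / r j) ^ 2 ≤ 9 := by
      rw [e, div_le_iff₀ (by positivity)]
      linarith
    have := hloc j ((z.1 - (p j).1) / r j, (z.2 - (p j).2) / r j) h9
    rw [← this]
    congr 1
    ext
    · simp only; field_simp; ring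
    · simp only; field_simp; ring
  obtain ⟨x, hx, F, hF, hne⟩ := chord U hU Ψ F1 F2 F3 hΨ s1 s2 s3 hI (p i) (3 * r i)
    (by positivity) hDU
    (by
      intro z hz
      have hz' : z ∈ cdisc (p i) (3 * r i) := le_of_eq hz
      obtain ⟨h1, h2⟩ := hform i z hz'
      rw [h1]
      refine hout i _ (fun hd => ?_)
      have hd' : ((z.1 - (p i).1) / r i) ^ 2 + ((z.2 - (p i).2) / r i) ^ 2 < 2 ^ 2 := hd
      rw [h2, hz, mul_pow, mul_div_assoc, div_self (by positivity)] at hd'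
      norm_num at hd')
    (by
      intro z hz
      rw [(hform i z hz).1]
      exact hle i _)
    (by
      have h1 : p i ∈ cdisc (p i) (3 * r i) := by
        show ((p i).1 - (p i).1) ^ 2 + ((p i).2 - (p i).2) ^ 2 ≤ (3 * r i) ^ 2
        have : 0 ≤ (3 * r i) ^ 2 := by positivity
        simpa using this
      have h2 := (hform i _ h1).1
      simp only [sub_self, zero_div] at h2
      rw [h2]
      exact hneg i)
  have hxU : x ∈ U := hDU (le_of_eq hx)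
  -- a neighbourhood of `x` with bounds
  have hcont : ∀ G : ℝ × ℝ → ℝ, Sm 1 U G → G x ≠ 0 → ∃ s : ℝ, 0 < s ∧ ∃ c : ℝ, 0 < c ∧
      cdisc x s ⊆ U ∧ ∀ z ∈ cdisc x s, c ≤ |G z| := by
    intro G hG hGx
    have hc : ContinuousAt G x := (ContDiffOn.continuousOn hG).continuousAt (hU.mem_nhds hxU)
    have h2 : ∀ᶠ z in nhds x, |G x| / 2 < |G z| :=
      hc.abs.eventually_const_lt (by have := abs_pos.2 hGx; linarith)
    obtain ⟨V, hV, hVo, hxV⟩ := eventually_nhds_iff.1 (h2.and (hU.mem_nhds hxU))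
    obtain ⟨s, hs, hsub⟩ := exists_cdisc_subset hVo hxV
    exact ⟨s, hs, |G x| / 2, by have := abs_pos.2 hGx; linarith, fun z hz => (hV z (hsub hz)).2,
      fun z hz => (hV z (hsub hz)).1.le⟩
  have sF : Sm 3 U F := by
    rcases hF with rfl | rfl | rfl <;> assumption
  obtain ⟨s', hs', c, hc, hsU', hlow⟩ : ∃ s : ℝ, 0 < s ∧ ∃ c : ℝ, 0 < c ∧
      cdisc x s ⊆ U ∧ ∀ z ∈ cdisc x s, c ≤ |dx (dx F) z| ∨ c ≤ |dx (dy F) z| ∨
        c ≤ |dy (dy F) z| := by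
    rcases hne with h | h | h
    · obtain ⟨s, hs, c, hc, h1, h2⟩ := hcont _ (Sm.dx (n := 1) hU (Sm.dx (n := 2) hU sF)) h
      exact ⟨s, hs, c, hc, h1, fun z hz => Or.inl (h2 z hz)⟩
    · obtain ⟨s, hs, c, hc, h1, h2⟩ := hcont _ (Sm.dx (n := 1) hU (Sm.dy (n := 2) hU sF)) h
      exact ⟨s, hs, c, hc, h1, fun z hz => Or.inr (Or.inl (h2 z hz))⟩
    · obtain ⟨s, hs, c, hc, h1, h2⟩ := hcont _ (Sm.dy (n := 1) hU (Sm.dy (n := 2) hU sF)) h
      exact ⟨s, hs, c, hc, h1, fun z hz => Or.inr (Or.inr (h2 z hz))⟩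
  have hcomp := isCompact_cdisc x hs'.le
  have hB : ∀ G : ℝ × ℝ → ℝ, Sm 3 U G → ∃ C : ℝ, ∀ k : ℕ, 2 ≤ k → k ≤ 3 → OrdBd (cdisc x s') k C G := by
    intro G hG
    obtain ⟨C2, h2⟩ := exists_OrdBd hU hcomp hsU' 2 G (hG.of_le (by norm_num))
    obtain ⟨C3, h3⟩ := exists_OrdBd hU hcomp hsU' 3 G hG
    refine ⟨max C2 C3, fun k hk1 hk2 => ?_⟩
    interval_cases k
    · exact OrdBd_mono h2 subset_rfl (le_max_left _ _)
    · exact OrdBd_mono h3 subset_rfl (le_max_right _ _)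
  obtain ⟨B1, hB1⟩ := hB F1 s1
  obtain ⟨B2, hB2⟩ := hB F2 s2
  obtain ⟨B3, hB3⟩ := hB F3 s3
  obtain ⟨M0, hM0, hM1, hM2, hM3, hM4⟩ : ∃ M0 : ℝ, 1 ≤ M0 ∧ B1 ≤ M0 ∧ B2 ≤ M0 ∧ B3 ≤ M0 ∧
      1 / M0 ≤ c := by
    refine ⟨max (max 1 (1 / c)) (max B1 (max B2 B3)), ?_, ?_, ?_, ?_, ?_⟩
    · exact (le_max_left _ _).trans (le_max_left _ _)
    · exact (le_max_left _ _).trans (le_max_right _ _)
    · exact ((le_max_left _ _).trans (le_max_right _ _)).trans (le_max_right _ _)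
    · exact ((le_max_right _ _).trans (le_max_right _ _)).trans (le_max_right _ _)
    · have h1 : 1 / c ≤ max (max 1 (1 / c)) (max B1 (max B2 B3)) :=
        (le_max_right _ _).trans (le_max_left _ _)
      have h2 : 0 < max (max 1 (1 / c)) (max B1 (max B2 B3)) := lt_of_lt_of_le (by positivity) h1
      rw [div_le_iff₀ h2]
      rw [div_le_iff₀ hc] at h1
      linarith
  obtain ⟨M, hM, hnorm⟩ := normalize M0 hM0
  obtain ⟨J, hJ⟩ := exists_nat_ge M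
  obtain ⟨j, hjJ, hj⟩ := hbdry i x hx s' hs' J
  have hjM : M ≤ (j : ℝ) + 1 := by
    have : (J : ℝ) ≤ j := by exact_mod_cast hjJ
    linarith
  have hpj : p j ∈ cdisc (p j) (3 * r j) := by
    show ((p j).1 - (p j).1) ^ 2 + ((p j).2 - (p j).2) ^ 2 ≤ (3 * r j) ^ 2
    have : 0 ≤ (3 * r j) ^ 2 := by positivity
    simpa using this
  have hψ0 : |ψ j 0| ≤ 1 := by
    have h1 := hbd j 0 (Nat.zero_le j) 0
    rw [norm_iteratedFDeriv_zero, Real.norm_eq_abs] at h1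
    have h2 : (r j / 2) ^ j ≤ 1 := pow_le_one₀ (by linarith [(hr j).1]) (by linarith [(hr j).2.2])
    linarith
  obtain ⟨T, hT1, hT2⟩ := hnorm U Ψ (ψ j) F1 F2 F3 (p j) (r j) hU hΨ (hsm j) (hrad j) s1 s2 s3 hI
    (hr j).1 (hr j).2.2 (hj.trans hsU') (hloc j)
    (fun k hk1 hk2 => ⟨OrdBd_mono (hB1 k hk1 hk2) hj hM1, OrdBd_mono (hB2 k hk1 hk2) hj hM2,
      OrdBd_mono (hB3 k hk1 hk2) hj hM3⟩)
    ⟨F, hF, by
      rcases hlow _ (hj hpj) with h | h | h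
      · exact Or.inl (hM4.trans h)
      · exact Or.inr (Or.inl (hM4.trans h))
      · exact Or.inr (Or.inr (hM4.trans h))⟩
    (hle j 0) (abs_le.1 hψ0).1
  exact hno j T (Nrm_mono (by linarith) (hr j).1.le hjM hT1) hT2

end GlobalAux

open GlobalAux

theorem main : ∃ g : ℝ × ℝ → Matrix (Fin 2) (Fin 2) ℝ,
    (∀ i j, ContDiff ℝ ∞ (fun z => g z i j)) ∧ (∀ z, (g z).PosDef) ∧
    ∀ U : Set (ℝ × ℝ), IsOpen U → (0 : ℝ × ℝ) ∈ U → ¬ ∃ F : ℝ × ℝ → EuclideanSpace ℝ (Fin 3),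
      ContDiffOn ℝ 3 F U ∧ ∀ z ∈ U, ∀ i j : Fin 2,
        ⟪fderiv ℝ F z (![(1, 0), (0, 1)] i), fderiv ℝ F z (![(1, 0), (0, 1)] j)⟫ = g z i j := by
  obtain ⟨Ψ, hΨ, hno⟩ := no_imm3
  have hexp : ContDiff ℝ ∞ (fun z => Real.exp (2 * Ψ z)) :=
    Real.contDiff_exp.comp (contDiff_const.mul hΨ)
  refine ⟨fun z => Real.exp (2 * Ψ z) • (1 : Matrix (Fin 2) (Fin 2) ℝ), ?_, ?_, ?_⟩
  · intro i j
    simp only [Matrix.smul_apply, smul_eq_mul]
    exact hexp.mul contDiff_const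
  · intro z
    exact Matrix.PosDef.one.smul (Real.exp_pos _)
  · rintro U hU h0 ⟨F, hF, hiso⟩
    have hd : ∀ z ∈ U, DifferentiableAt ℝ F z := fun z hz =>
      ((hF z hz).contDiffAt (hU.mem_nhds hz)).differentiableAt (by simp)
    have hsm : ∀ k : Fin 3, Sm 3 U (fun z => F z k) := fun k =>
      (contDiffOn_euclidean.1 hF) k
    have hder : ∀ (k : Fin 3) (z : ℝ × ℝ), z ∈ U → ∀ v : ℝ × ℝ,
        fderiv ℝ (fun w => F w k) z v = fderiv ℝ F z v k := by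
      intro k z hz v
      have h1 : HasFDerivAt (fun w => F w k)
          ((EuclideanSpace.proj k : EuclideanSpace ℝ (Fin 3) →L[ℝ] ℝ).comp (fderiv ℝ F z)) z :=
        (EuclideanSpace.proj k : EuclideanSpace ℝ (Fin 3) →L[ℝ] ℝ).hasFDerivAt.comp z
          (hd z hz).hasFDerivAt
      rw [h1.fderiv]
      rfl
    refine hno U hU h0 (fun z => F z 0) (fun z => F z 1) (fun z => F z 2) (hsm 0) (hsm 1) (hsm 2) ?_
    intro z hz
    have h00 := hiso z hz 0 0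
    have h11 := hiso z hz 1 1
    have h01 := hiso z hz 0 1
    simp only [PiLp.inner_apply, Fin.sum_univ_three, Matrix.cons_val_zero, Matrix.cons_val_one,
      Matrix.smul_apply, Matrix.one_apply_eq, smul_eq_mul, mul_one] at h00 h11 h01
    simp only [dx, dy, hder _ z hz]
    simp at h00 h11 h01
    refine ⟨?_, ?_, ?_⟩
    · exact h00
    · exact h11
    · linarith [h01]

end Vale.Agent.P229.C3
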