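import Vale.Agent.P229.C3.KeyF
import Vale.Agent.P229.Pattern
import Vale.Agent.P229.C3.Cacc
import Vale.Agent.P229.C3.Down
import Vale.Agent.P229.C3.Contra
import Vale.Agent.P229.C3.Close
import Vale.Agent.P229.C3.Entropy
import Vale.Agent.P229.C3.Classes
import Vale.Agent.P229.C3.Basic
import Vale.Agent.P229.C3.Align

/-!
# P229: the key lemma (`C³` version)
-/

namespace Vale.Agent.P229.C3

open MeasureTheory Set Filter
open scoped ContDiff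

namespace KeyAux

theorem exists_k (N1 N2 N3 : ℕ) (q CK X : ℝ) (hq : 0 < q) (hCK : 0 < CK) :
    ∃ k : ℕ, N1 ≤ k ∧ N2 ≤ k ∧ N3 ≤ k ∧ 1 ≤ k ∧ 1 / (k : ℝ) < q ∧ X * (1 / (k : ℝ)) < 1 ∧
      CK * (1 / (k : ℝ)) < 3 / 4 := by
  have t : Tendsto (fun k : ℕ => 1 / (k : ℝ)) atTop (nhds 0) := tendsto_one_div_atTop_nhds_zero_nat
  have t1 : ∀ᶠ k : ℕ in atTop, 1 / (k : ℝ) < q := t.eventually_lt_const hq
  have t2 : ∀ᶠ k : ℕ in atTop, X * (1 / (k : ℝ)) < 1 := by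
    have := t.const_mul X
    rw [mul_zero] at this
    exact this.eventually_lt_const (by norm_num)
  have t3 : ∀ᶠ k : ℕ in atTop, CK * (1 / (k : ℝ)) < 3 / 4 := by
    have := t.const_mul CK
    rw [mul_zero] at this
    exact this.eventually_lt_const (by norm_num)
  obtain ⟨k, h⟩ := (t1.and (t2.and (t3.and (((eventually_ge_atTop N1).and
    (eventually_ge_atTop N2)).and ((eventually_ge_atTop N3).and (eventually_ge_atTop 1)))))).exists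
  exact ⟨k, h.2.2.2.1.1, h.2.2.2.1.2, h.2.2.2.2.1, h.2.2.2.2.2, h.1, h.2.1, h.2.2.1⟩



/-- The heart of the assembly: all constants are fixed, every pattern is realized, and the
conclusion is a contradiction. -/
theorem core {M ε C0 j0 δ n0 C1 CB CK cK CS C2 CE CF A g t0 η b b0 amp : ℝ} {l m c k0 K0 k : ℕ}
    {ψ : Finset ℕ → ℝ × ℝ → ℝ} {T : Finset ℕ → Tri}
    (hM : 1 ≤ M) (hε : 0 < ε) (hC0 : 0 < C0) (hj0 : 0 < j0) (hδ : 0 < δ) (hδ3 : δ ≤ 1 / 200)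
    (hB : ∀ (e0 : ℝ) (T : Tri), 99 / 100 ≤ e0 → e0 ≤ 1 → Nrm M ε e0 T → Basic M ε C0 j0 T)
    (hn0 : 0 < n0) (hκC : Real.sqrt (δ / 2) ≤ C0)
    (hbb : BBProp C0 j0 (ε / (2 * M)) (Real.sqrt (δ / 2)) C1 CB b0)
    (hbc : BCProp M ε C0 j0 (Real.sqrt (δ / 2)) C1 cK CK b0)
    (hCB : 0 < CB) (hcK : 0 < cK) (hCK : 0 < CK) (hCS : 0 < CS) (hC2 : 0 < C2) (hCE : 0 < CE)
    (hsb : ∀ (T T' : Tri) (ψ ψ' : ℝ × ℝ → ℝ) (S0 : ℝ), ContDiff ℝ ∞ ψ →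
      ContDiff ℝ ∞ ψ' → IsImm ψ T → IsImm ψ' T' → Basic M ε C0 j0 (T.mean T') →
      Bd (disc 2) 2 S0 (fun z => Real.exp (2 * ψ z) - Real.exp (2 * ψ' z)) →
      ∀ z ∈ disc 2, |Op (T.mean T').a (Pf (T.mean T')) (kf (T.mean T'))
        (fun w => T.h w - T'.h w) z| ≤ CS * S0)
    (hcl : CloseProp M ε C0 j0 CF)
    (hcm : ∀ (T T' : Tri) (ψ ψ' : ℝ × ℝ → ℝ) (b : ℝ), 0 ≤ b →
      ContDiff ℝ ∞ ψ → ContDiff ℝ ∞ ψ' → IsImm ψ T → IsImm ψ' T' →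
      Basic M ε C0 j0 T → Basic M ε C0 j0 T' → Basic M ε C0 j0 (T.mean T') → Close2 η T T' →
      (∀ z, z ∉ disc b → Real.exp (2 * ψ z) - Real.exp (2 * ψ' z) = 0) →
      ∀ z ∈ disc 2, b ^ 2 < z.1 ^ 2 + z.2 ^ 2 →
        |No (T.mean T').a (Pf (T.mean T')) (kf (T.mean T')) z - No T.a (Pf T) (kf T) z| ≤ CF * η)
    (hl : l = m + 281) (ht0 : t0 = Real.sqrt (δ / 2) / 150) (hgpos : 0 < g)
    (hg1 : (3 * (l : ℝ) + 6) * g ≤ t0) (hg2 : (3 * (l : ℝ) + 6) * g ≤ 1 / 5)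
    (hA : 0 < A) (hcac : CacProp C0 j0 (δ / 6) (n0 / 2) g A)
    (hη : 0 < η) (hη1 : CF * η ≤ g / 2) (hη2 : CF * η ≤ n0 / 2) (hη3 : CF * η ≤ δ / 30)
    (hη4 : CF * η ≤ Real.sqrt (δ / 2) / 3000)
    (hcls : ∀ {ι : Type} (S : Finset ι) (T : ι → Tri) (e0 : ℝ), |e0| ≤ 1 →
      (∀ i ∈ S, Nrm M ε e0 (T i)) →
      ∃ S' ⊆ S, S.card ≤ K0 * S'.card ∧ ∀ i ∈ S', ∀ j ∈ S', Close2 η (T i) (T j))
    (hent : EntProp C0 g A (t0 + g / 2) (7 / 5) CE l c k0)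
    (hk2 : k0 ≤ k) (hk3 : 2 * c + K0 + 1 ≤ k) (hk4 : 1 ≤ k)
    (hk6 : CK * Real.sqrt CB * (2 * CS * C2 + 2 * (Real.sqrt (2 * (1 + A)) * CE ^ l)) *
      (1 / (k : ℝ)) < cK * (27 / 64))
    (hk7 : CK * (1 / (k : ℝ)) < 3 / 4)
    (hamp1 : 1 / (k : ℝ) ^ m ≤ amp)
    (hb : b = 1 / (k : ℝ) ^ 64) (hbb0 : b < b0) (hbC : 2 * C0 * b < t0)
    (hψ : ∀ σ ∈ (Finset.range (k ^ 8)).powerset, ContDiff ℝ ∞ (ψ σ))
    (hdiff : ∀ σ ∈ (Finset.range (k ^ 8)).powerset, ∀ σ' ∈ (Finset.range (k ^ 8)).powerset,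
      σ ≠ σ' → BumpDiff amp (C2 * amp * (k : ℝ) ^ 152) (1 / (k : ℝ) ^ 64)
        (3 / (4 * (k : ℝ) ^ 136))
          (fun z => Real.exp (2 * ψ σ z) - Real.exp (2 * ψ σ' z)))
    (hT : ∀ σ ∈ (Finset.range (k ^ 8)).powerset,
      Nrm M ε (Real.exp (-δ)) (T σ) ∧ IsImm (ψ σ) (T σ))
    (hAF : ∀ σ ∈ (Finset.range (k ^ 8)).powerset, AF δ n0 (T σ)) : False := by
  have hkR : (1 : ℝ) ≤ k := by exact_mod_cast hk4
  have hx0 : 0 < 1 / (k : ℝ) := by positivity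
  have hx1 : 1 / (k : ℝ) ≤ 1 := by
    rw [div_le_one (by linarith)]
    exact hkR
  have hbx : b = (1 / (k : ℝ)) ^ 64 := by rw [hb, one_div_pow]
  have hb0 : 0 < b := by rw [hbx]; positivity
  have hb1 : b ≤ 1 := by rw [hbx]; exact pow_le_one₀ hx0.le hx1
  have hκpos : 0 < Real.sqrt (δ / 2) := Real.sqrt_pos.2 (by linarith)
  have ht0pos : 0 < t0 := by rw [ht0]; positivity
  have he1 : Real.exp (-δ) ≤ 1 := Real.exp_le_one_iff.2 (by linarith)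
  have he0 : 99 / 100 ≤ Real.exp (-δ) := by
    have := Real.add_one_le_exp (-δ)
    linarith
  have hBas : ∀ σ ∈ (Finset.range (k ^ 8)).powerset, Basic M ε C0 j0 (T σ) := fun σ hσ =>
    hB _ _ he0 he1 (hT σ hσ).1
  have hg3 : g ≤ t0 / 6 := by
    have : (0 : ℝ) ≤ (l : ℝ) * g := by positivity
    linarith
  have h2t : 2 * (t0 + g / 2) ≤ C0 := by
    rw [ht0] at hg3 ⊢
    linarith
  -- first pigeonhole: classes
  obtain ⟨S1, hS1, hcard1, hclose⟩ := hcls (Finset.range (k ^ 8)).powerset T (Real.exp (-δ))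
    (by rw [abs_of_pos (Real.exp_pos _)]; exact he1) (fun σ hσ => (hT σ hσ).1)
  rw [Finset.card_powerset, Finset.card_range] at hcard1
  have hS1ne : S1.Nonempty := by
    rw [← Finset.card_pos]
    by_contra h
    have h0 : S1.card = 0 := by omega
    rw [h0, mul_zero] at hcard1
    have : 0 < 2 ^ k ^ 8 := by positivity
    omega
  obtain ⟨σ0, hσ0⟩ := hS1ne
  have hMean : ∀ i ∈ S1, ∀ j ∈ S1, Nrm M ε (Real.exp (-δ)) ((T i).mean (T j)) := fun i hi j hj =>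
    Nrm_mean (hT i (hS1 hi)).1 (hT j (hS1 hj)).1
  have hBm : ∀ i ∈ S1, ∀ j ∈ S1, Basic M ε C0 j0 ((T i).mean (T j)) := fun i hi j hj =>
    hB _ _ he0 he1 (hMean i hi j hj)
  have hout : ∀ i ∈ S1, ∀ j ∈ S1, ∀ z, z ∉ disc b →
      Real.exp (2 * ψ i z) - Real.exp (2 * ψ j z) = 0 := by
    intro i hi j hj z hz
    by_cases hij : i = j
    · rw [hij]; ring
    · rw [hb] at hz
      exact (hdiff i (hS1 hi) j (hS1 hj) hij).out z hz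
  have hop : ∀ i ∈ S1, ∀ j ∈ S1, ∀ z ∈ disc 2, z ∉ disc b →
      Op ((T i).mean (T j)).a (Pf ((T i).mean (T j))) (kf ((T i).mean (T j)))
        (fun w => (T i).h w - (T j).h w) z = 0 :=
    fun i hi j hj => source_zero M ε C0 j0 hM hε hC0 hj0 (T i) (T j) (ψ i) (ψ j) (hψ i (hS1 hi))
      (hψ j (hS1 hj)) (hT i (hS1 hi)).2 (hT j (hS1 hj)).2 (hBm i hi j hj) b hb0.le
      (hout i hi j hj)
  have MD : ∀ i ∈ S1, ∀ j ∈ S1, MeanData C0 j0 (δ / 6) (n0 / 2) g (t0 + g / 2) (Real.sqrt (δ / 2))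
      (ε / (2 * M)) b (Pf (T σ0)) ((T i).mean (T j)).a (Pf ((T i).mean (T j)))
      (kf ((T i).mean (T j))) (fun w => (T i).h w - (T j).h w) := by
    intro i hi j hj
    rw [ht0]
    refine meanData hδ hη.le hj0 hcl hη1 hη2 hη3 hη4 (hMean i hi j hj) (hBas i (hS1 hi))
      (hBas σ0 (hS1 hσ0)) (hBm i hi j hj) (hAF i (hS1 hi)) ?_ ?_
      (hcm (T i) (T j) (ψ i) (ψ j) b hb0.le (hψ i (hS1 hi)) (hψ j (hS1 hj)) (hT i (hS1 hi)).2
        (hT j (hS1 hj)).2 (hBas i (hS1 hi)) (hBas j (hS1 hj)) (hBm i hi j hj)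
        (hclose i hi j hj) (hout i hi j hj)) ((T i).hh.sub (T j).hh)
      (hop i hi j hj) hb0.le (by rw [← ht0]; exact hbC) hC0 hgpos
    · exact Close2_mean (hclose i hi i hi) (hclose j hj i hi)
    · exact Close2_mean (hclose i hi σ0 hσ0) (hclose j hj σ0 hσ0)
  -- entropy
  obtain ⟨i, hi, j, hj, hij, hU, hL⟩ := two_entropy hent hk2 hk3 S1 hcard1 (fun i => (T i).h)
    (Pf (T σ0)) ((hBas σ0 (hS1 hσ0)).reg.sP.of_le (by norm_num))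
    (fun z hz => ((hBas σ0 (hS1 hσ0)).reg.bP z hz).2) (fun i _ => (T i).hh.of_le (by norm_num))
    (fun i hi z hz => (hBas i (hS1 hi)).bdh.1 z hz)
    (fun m hm i hi j hj => chain_step h2t hgpos hA ht0pos hg1 hg2 hm.le hcac (MD i hi j hj).up)
    (fun m hm i hi j hj => chain_step h2t hgpos hA ht0pos hg1 hg2 hm.le hcac (MD i hi j hj).lo)
  have hU' := last_step h2t hgpos hA ht0pos hg1 hg2 hcac (MD i hi j hj).up hU
  have hL' := last_step h2t hgpos hA ht0pos hg1 hg2 hcac (MD i hi j hj).lo hL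
  have hlg : 0 ≤ (l : ℝ) * g := by positivity
  have hsm := small_all (MD i hi j hj) (tf := t0 + g / 2 + (3 * l + 2) * g)
    (Rf := 7 / 5 - (3 * l + 2) * g) (by rw [ht0] at hg1 ⊢; linarith) hκpos (by linarith)
    (by linarith) hU' hL'
  -- the size `d`
  have hDeq : 2 * ((1 + A) * (CE / (k : ℝ) ^ 3) ^ (2 * l))
      = (Real.sqrt (2 * (1 + A)) * CE ^ l * (1 / (k : ℝ)) ^ (3 * l)) ^ 2 := by
    have hs : Real.sqrt (2 * (1 + A)) ^ 2 = 2 * (1 + A) := Real.sq_sqrt (by linarith)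
    rw [mul_pow, mul_pow, hs, ← pow_mul, ← pow_mul, div_pow, one_div_pow, ← pow_mul]
    have e1 : 3 * (2 * l) = 3 * l * 2 := by ring
    have e2 : 2 * l = l * 2 := by ring
    rw [e1, e2]
    ring
  rw [hDeq] at hsm
  have hBD := hdiff i (hS1 hi) j (hS1 hj) hij
  have hamp0 : 0 < amp := lt_of_lt_of_le (by positivity) hamp1
  have hS0 : 0 ≤ C2 * amp * (k : ℝ) ^ 152 := by positivity
  rw [← hb] at hBD
  have hβpos : (0 : ℝ) < 3 / (4 * (k : ℝ) ^ 136) := by positivity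
  have hβx : 3 / (4 * (k : ℝ) ^ 136) = 3 / 4 * (1 / (k : ℝ)) ^ 136 := by
    rw [one_div_pow]; field_simp
  have hCKb : CK * b ^ 2 ≤ 3 / (4 * (k : ℝ) ^ 136) / b := by
    rw [hβx, hbx]
    have e1 : 3 / 4 * (1 / (k : ℝ)) ^ 136 / (1 / (k : ℝ)) ^ 64 = 3 / 4 * (1 / (k : ℝ)) ^ 72 := by
      have h := pow_ne_zero 64 hx0.ne'
      rw [div_eq_iff h]
      ring
    rw [e1]
    have e2 : ((1 / (k : ℝ)) ^ 64) ^ 2 ≤ (1 / (k : ℝ)) * (1 / (k : ℝ)) ^ 72 := by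
      rw [← pow_mul, ← pow_succ']
      exact pow_le_pow_of_le_one hx0.le hx1 (by norm_num)
    calc CK * ((1 / (k : ℝ)) ^ 64) ^ 2 ≤ CK * ((1 / (k : ℝ)) * (1 / (k : ℝ)) ^ 72) :=
          mul_le_mul_of_nonneg_left e2 hCK.le
      _ = CK * (1 / (k : ℝ)) * (1 / (k : ℝ)) ^ 72 := by ring
      _ ≤ 3 / 4 * (1 / (k : ℝ)) ^ 72 := mul_le_mul_of_nonneg_right hk7.le (by positivity)
  have hBd2 : Bd (disc 2) 2 (C2 * amp * (k : ℝ) ^ 152)
      (fun z => Real.exp (2 * ψ i z) - Real.exp (2 * ψ j z)) :=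
    Bd.mono hBD.bd (subset_univ _) le_rfl
  have fin := pair_final hbb hbc hCS.le hCB.le hS0 (by positivity) hamp0.le (hψ i (hS1 hi))
    (hψ j (hS1 hj)) (hT i (hS1 hi)).2 (hT j (hS1 hj)).2 (hMean i hi j hj) (hBm i hi j hj) he0 he1
    (hsb (T i) (T j) (ψ i) (ψ j) _ (hψ i (hS1 hi)) (hψ j (hS1 hj)) (hT i (hS1 hi)).2
      (hT j (hS1 hj)).2 (hBm i hi j hj) hBd2)
    (hop i hi j hj) (MD i hi j hj) hBD hb0 hbb0 hb1 hβpos hCKb hsm
  have num := numeric (cK := cK) (CK := CK) (CB := CB) (CS := CS) (C2 := C2)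
    (Dc := Real.sqrt (2 * (1 + A)) * CE ^ l) (amp := amp) (x := 1 / (k : ℝ)) (m := m) (l := l)
    hx0 hx1 (by omega) hcK hCK hCB hCS hC2 (by positivity) (by rw [one_div_pow]; exact hamp1) hk6
  rw [hβx, hbx] at fin
  have e152 : (k : ℝ) ^ 152 = (1 / (1 / (k : ℝ))) ^ 152 := by rw [one_div_one_div]
  rw [e152] at fin
  exact absurd fin (not_le.2 num)

end KeyAux

open KeyAux

theorem key_lemma (M : ℝ) (hM : 1 ≤ M) : ∃ ε0 : ℝ, 0 < ε0 ∧ ∀ ε, 0 < ε → ε < ε0 →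
    ∀ (N : ℕ) (τ : ℝ), 0 < τ → ∃ ψ : ℝ × ℝ → ℝ, ContDiff ℝ ∞ ψ ∧ Radial ψ ∧
      (∀ z, z ∉ disc 2 → ψ z = 0) ∧ (∀ z, ψ z ≤ 0) ∧ ψ 0 < 0 ∧
      (∀ i ≤ N, ∀ z, ‖iteratedFDeriv ℝ i ψ z‖ ≤ τ) ∧
      ∀ T : Tri, Nrm M ε (Real.exp (ψ 0)) T → ¬ IsImm ψ T := by
  obtain ⟨Cs, hCs, hpat⟩ := patterns
  obtain ⟨ε1, hε1, hal⟩ := align Cs M hCs hM
  obtain ⟨ε2, hε2, hbas⟩ := basic_facts M hM
  refine ⟨min (min ε1 ε2) 1, by positivity, ?_⟩
  intro ε hε hεlt N τ hτ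
  have hM0 : 0 < M := by linarith
  have hεa : ε < ε1 := lt_of_lt_of_le hεlt ((min_le_left _ _).trans (min_le_left _ _))
  have hεb : ε < ε2 := lt_of_lt_of_le hεlt ((min_le_left _ _).trans (min_le_right _ _))
  have hεc : ε ≤ 1 := (lt_of_lt_of_le hεlt (min_le_right _ _)).le
  obtain ⟨C0, j0, hC0, hj0, hB⟩ := hbas ε hε hεb
  obtain ⟨δa, hδa, hal⟩ := hal ε hε hεa C0 j0 hC0 hj0
  obtain ⟨δb, hδb, hpat⟩ := hpat N τ hτ
  -- choice of `δ`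
  obtain ⟨δ, hδ, hδ1, hδ2, hδ3, hδ4, hδ5⟩ : ∃ δ : ℝ, 0 < δ ∧ δ < δa ∧ δ < δb ∧ δ ≤ 1 / 200 ∧
      δ / 2 ≤ (ε / M) ^ 2 ∧ δ / 2 ≤ C0 ^ 2 := by
    have h1 : 0 < (ε / M) ^ 2 := by positivity
    have h2 : 0 < C0 ^ 2 := by positivity
    refine ⟨min (min (δa / 2) (δb / 2)) (min (1 / 200) (min ((ε / M) ^ 2) (C0 ^ 2))),
      by positivity, ?_, ?_, ?_, ?_, ?_⟩
    · exact lt_of_le_of_lt ((min_le_left _ _).trans (min_le_left _ _)) (by linarith)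
    · exact lt_of_le_of_lt ((min_le_left _ _).trans (min_le_right _ _)) (by linarith)
    · exact (min_le_right _ _).trans (min_le_left _ _)
    · have : min (min (δa / 2) (δb / 2)) (min (1 / 200) (min ((ε / M) ^ 2) (C0 ^ 2)))
          ≤ (ε / M) ^ 2 := (min_le_right _ _).trans ((min_le_right _ _).trans (min_le_left _ _))
      linarith
    · have : min (min (δa / 2) (δb / 2)) (min (1 / 200) (min ((ε / M) ^ 2) (C0 ^ 2)))
          ≤ C0 ^ 2 := (min_le_right _ _).trans ((min_le_right _ _).trans (min_le_right _ _))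
      linarith
  obtain ⟨k0p, m, C2, hC2, hpat⟩ := hpat δ hδ hδ2
  obtain ⟨n0, b0a, hn0, hb0a, hal⟩ := hal δ hδ hδ1
  set κ0 := Real.sqrt (δ / 2) with hκ0
  have hκpos : 0 < κ0 := Real.sqrt_pos.2 (by linarith)
  have hκsq : κ0 ^ 2 = δ / 2 := Real.sq_sqrt (by linarith)
  have hκ1 : κ0 ≤ 1 := by nlinarith
  have hκρ : κ0 ≤ 2 * (ε / (2 * M)) := by
    have : 2 * (ε / (2 * M)) = ε / M := by field_simp
    rw [this]
    exact abs_le_of_sq_le_sq' (by rw [hκsq]; exact hδ4) (by positivity) |>.2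
  have hκC : κ0 ≤ C0 := abs_le_of_sq_le_sq' (by rw [hκsq]; exact hδ5) hC0.le |>.2
  have hρ : 0 < ε / (2 * M) := by positivity
  obtain ⟨C1, CB, b0b, hC1, hCB, hb0b, hbb⟩ :=
    bump_bound C0 j0 (ε / (2 * M)) κ0 hC0 hj0 hρ hκpos hκ1 hκρ
  obtain ⟨cK, CK, b0c, hcK, hCK, hb0c, hbc⟩ :=
    bump_contra M ε C0 j0 κ0 C1 hM hε hC0 hj0 hκpos hC1
  obtain ⟨CS, hCS, hsb⟩ := source_bound M ε C0 j0 hM hε hC0 hj0
  obtain ⟨CFa, hCFa, hcl⟩ := close_facts M ε C0 j0 hM hε hC0 hj0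
  obtain ⟨CFb, hCFb, hcm⟩ := close_mean M ε C0 j0 hM hε hC0 hj0
  obtain ⟨CF, hCFdef⟩ : ∃ CF : ℝ, CF = max CFa CFb := ⟨_, rfl⟩
  have hCFab : CFa ≤ CF := by rw [hCFdef]; exact le_max_left _ _
  have hCFbb : CFb ≤ CF := by rw [hCFdef]; exact le_max_right _ _
  have hCF : 0 < CF := lt_of_lt_of_le hCFa hCFab
  obtain ⟨l, hl⟩ : ∃ l : ℕ, l = m + 281 := ⟨_, rfl⟩
  obtain ⟨t0, ht0⟩ : ∃ t0 : ℝ, t0 = κ0 / 150 := ⟨_, rfl⟩
  have ht0pos : 0 < t0 := by rw [ht0]; positivity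
  obtain ⟨g, hg⟩ : ∃ g : ℝ, g = min t0 (1 / 5) / (3 * l + 6) := ⟨_, rfl⟩
  have hl1 : 1 ≤ l := by omega
  have hlR : (0 : ℝ) < 3 * l + 6 := by positivity
  have hgpos : 0 < g := by rw [hg]; positivity
  have hg1 : (3 * l + 6) * g ≤ t0 := by
    rw [hg, mul_div_cancel₀ _ hlR.ne']
    exact min_le_left _ _
  have hg2 : (3 * l + 6) * g ≤ 1 / 5 := by
    rw [hg, mul_div_cancel₀ _ hlR.ne']
    exact min_le_right _ _
  obtain ⟨A, hA, hcac⟩ := caccioppoli C0 j0 (δ / 6) (n0 / 2) g hC0 hj0 (by linarith) (by linarith)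
    hgpos
  -- choice of `η`
  obtain ⟨η, hη, hηle1, hη1, hη2, hη3, hη4⟩ : ∃ η : ℝ, 0 < η ∧ η ≤ 1 ∧ CF * η ≤ g / 2 ∧
      CF * η ≤ n0 / 2 ∧ CF * η ≤ δ / 30 ∧ CF * η ≤ κ0 / 3000 := by
    have hm : 0 < min (min (g / 2) (n0 / 2)) (min (δ / 30) (κ0 / 3000)) := by positivity
    have hle : ∀ X : ℝ, min (min (g / 2) (n0 / 2)) (min (δ / 30) (κ0 / 3000)) ≤ X →
        CF * min 1 (min (min (g / 2) (n0 / 2)) (min (δ / 30) (κ0 / 3000)) / CF) ≤ X := by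
      intro X hX
      calc CF * min 1 (min (min (g / 2) (n0 / 2)) (min (δ / 30) (κ0 / 3000)) / CF)
          ≤ CF * (min (min (g / 2) (n0 / 2)) (min (δ / 30) (κ0 / 3000)) / CF) :=
            mul_le_mul_of_nonneg_left (min_le_right _ _) hCF.le
        _ = min (min (g / 2) (n0 / 2)) (min (δ / 30) (κ0 / 3000)) := mul_div_cancel₀ _ hCF.ne'
        _ ≤ X := hX
    refine ⟨min 1 (min (min (g / 2) (n0 / 2)) (min (δ / 30) (κ0 / 3000)) / CF), by positivity,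
      min_le_left _ _, hle _ ?_, hle _ ?_, hle _ ?_, hle _ ?_⟩
    · exact (min_le_left _ _).trans (min_le_left _ _)
    · exact (min_le_left _ _).trans (min_le_right _ _)
    · exact (min_le_right _ _).trans (min_le_left _ _)
    · exact (min_le_right _ _).trans (min_le_right _ _)
  obtain ⟨K0, hcls⟩ := classes M ε η hM hε hεc hη
  obtain ⟨CE, c, k0e, hCE, hent⟩ := entropy_chain C0 g A (t0 + g / 2) (7 / 5) l hl1 hC0 hgpos hA
    (by norm_num) (by push_cast; nlinarith)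
  -- choice of `k`
  set q := min (min (min b0a b0b) b0c) (min 1 (t0 / (2 * C0))) with hq
  have hqpos : 0 < q := by positivity
  obtain ⟨X, hX⟩ : ∃ X : ℝ, X = CK * Real.sqrt CB *
      (2 * CS * C2 + 2 * (Real.sqrt (2 * (1 + A)) * CE ^ l)) / (cK * (27 / 64)) := ⟨_, rfl⟩
  obtain ⟨k, hk1, hk2, hk3, hk4, hk5, hk6, hk7⟩ :=
    exists_k k0p k0e (2 * c + K0 + 1) q CK X hqpos hCK
  obtain ⟨amp, ψ, hamp1, hamp2, hψ, hdiff⟩ := hpat k hk1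
  by_contra hcon
  push Not at hcon
  have hkR : (1 : ℝ) ≤ k := by exact_mod_cast hk4
  have hx0 : 0 < 1 / (k : ℝ) := by positivity
  have hx1 : 1 / (k : ℝ) ≤ 1 := by
    rw [div_le_one (by linarith)]
    exact hkR
  obtain ⟨b, hb⟩ : ∃ b : ℝ, b = 1 / (k : ℝ) ^ 64 := ⟨_, rfl⟩
  have hbx : b = (1 / (k : ℝ)) ^ 64 := by rw [hb, one_div_pow]
  have hb0 : 0 < b := by rw [hbx]; positivity
  have hbx' : b ≤ 1 / (k : ℝ) := by
    rw [hbx]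
    calc (1 / (k : ℝ)) ^ 64 ≤ (1 / (k : ℝ)) ^ 1 := pow_le_pow_of_le_one hx0.le hx1 (by norm_num)
      _ = 1 / (k : ℝ) := pow_one _
  have hbq : b < q := lt_of_le_of_lt hbx' hk5
  have hba : b < b0a := lt_of_lt_of_le hbq
    ((min_le_left _ _).trans ((min_le_left _ _).trans (min_le_left _ _)))
  have hbb0 : b < min b0b b0c := lt_min
    (lt_of_lt_of_le hbq ((min_le_left _ _).trans ((min_le_left _ _).trans (min_le_right _ _))))
    (lt_of_lt_of_le hbq ((min_le_left _ _).trans (min_le_right _ _)))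
  have hbC : 2 * C0 * b < t0 := by
    have : b < t0 / (2 * C0) := lt_of_lt_of_le hbq ((min_le_right _ _).trans (min_le_right _ _))
    rw [lt_div_iff₀ (by positivity)] at this
    linarith
  -- every pattern is realized
  have hex : ∀ σ ∈ (Finset.range (k ^ 8)).powerset, ∃ T : Tri,
      Nrm M ε (Real.exp (-δ)) T ∧ IsImm (ψ σ) T := by
    intro σ hσ
    rw [Finset.mem_powerset] at hσ
    obtain ⟨hI, hrad, h2, hNτ⟩ := hψ σ hσ
    have := hcon (ψ σ) hI.sm hrad h2 hI.le0 (by rw [hI.at0]; linarith) hNτ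
    obtain ⟨T, hT1, hT2⟩ := this
    rw [hI.at0] at hT1
    exact ⟨T, hT1, hT2⟩
  choose! T hT using hex
  have he1 : Real.exp (-δ) ≤ 1 := Real.exp_le_one_iff.2 (by linarith)
  have he0 : 99 / 100 ≤ Real.exp (-δ) := by
    have := Real.add_one_le_exp (-δ)
    linarith
  have hAF : ∀ σ ∈ (Finset.range (k ^ 8)).powerset, AF δ n0 (T σ) := by
    intro σ hσ
    have hI := (hψ σ (Finset.mem_powerset.1 hσ)).1
    rw [← hb] at hI
    obtain ⟨a1, a2, a3, a4, a5⟩ := hal b (ψ σ) (T σ) hb0 hba hI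
      (hT σ hσ).1 (hB _ _ he0 he1 (hT σ hσ).1) (hT σ hσ).2
    exact ⟨a1, a2, a3, a4, a5⟩
  have hk6' : CK * Real.sqrt CB * (2 * CS * C2 + 2 * (Real.sqrt (2 * (1 + A)) * CE ^ l)) *
      (1 / (k : ℝ)) < cK * (27 / 64) := by
    have hc : 0 < cK * (27 / 64) := by positivity
    rw [hX, div_mul_eq_mul_div, div_lt_one hc] at hk6
    exact hk6
  refine core (ψ := ψ) (T := T) (b0 := min b0b b0c) (C1 := C1) hM hε hC0 hj0 hδ hδ3 hB hn0 hκC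
    ?_ ?_ hCB hcK hCK hCS hC2 hCE hsb ?_ ?_ hl ht0 hgpos hg1 hg2 hA hcac hη hη1 hη2 hη3 hη4 hcls
    hent hk2 hk3 hk4 hk6' hk7 hamp1 hb hbb0 hbC
    (fun σ hσ => (hψ σ (Finset.mem_powerset.1 hσ)).1.sm)
    (fun σ hσ σ' hσ' => hdiff σ (Finset.mem_powerset.1 hσ) σ' (Finset.mem_powerset.1 hσ')) hT hAF
  · intro u P κ v b d S hb h1
    exact hbb u P κ v b d S hb (lt_of_lt_of_le h1 (min_le_left _ _))
  · intro T e0 v w0 b β amp S0 V1 V2 h1 h2 h3 h4 h5 h6 h7 h8 h9 h10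
    exact hbc T e0 v w0 b β amp S0 V1 V2 h1 h2 h3 h4 h5 h6 h7 h8 h9
      (lt_of_lt_of_le h10 (min_le_right _ _))
  · intro T T' η' hη' h1 h2 h3 z hz
    obtain ⟨q1, q2⟩ := hcl T T' η' hη' h1 h2 h3 z hz
    have : CFa * η' ≤ CF * η' := mul_le_mul_of_nonneg_right hCFab hη'
    exact ⟨q1.trans this, q2.trans this⟩
  · intro T T' ψ1 ψ2 b' hb' s1 s2 i1 i2 b1 b2 b3 c1 ho z hz hz'
    have := hcm T T' ψ1 ψ2 η b' hη.le hηle1 hb' s1 s2 i1 i2 b1 b2 b3 c1 ho z hz hz'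
    exact this.trans (mul_le_mul_of_nonneg_right hCFbb hη.le)

end Vale.Agent.P229.C3
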