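import Vale.Agent.P229.C3.Surf
import Vale.Agent.P229.KeyA

/-!
# P229: lemmas for the assembly (means, integrals over regions)
-/

namespace Vale.Agent.P229.C3

open MeasureTheory Set
open scoped ContDiff

namespace KeyAux

theorem Dw_mean (f g : ℝ × ℝ → ℝ) (w : List Bool) (hf : ContDiff ℝ w.length f)
    (hg : ContDiff ℝ w.length g) :
    Dw w (fun z => (f z + g z) / 2) = fun z => (Dw w f z + Dw w g z) / 2 := by
  induction w with
  | nil => rfl
  | cons b w ih =>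
    have hl : (b :: w).length = 1 + w.length := by simp; ring
    rw [hl] at hf hg
    have c1 : ContDiff ℝ (1 : ℕ) (Dw w f) := contDiff_Dw w hf
    have c2 : ContDiff ℝ (1 : ℕ) (Dw w g) := contDiff_Dw w hg
    have ih := ih (hf.of_le (by norm_cast; omega)) (hg.of_le (by norm_cast; omega))
    have d1 : ∀ z, DifferentiableAt ℝ (Dw w f) z := fun z => c1.differentiable (by simp) z
    have d2 : ∀ z, DifferentiableAt ℝ (Dw w g) z := fun z => c2.differentiable (by simp) z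
    have e : (fun z => (Dw w f z + Dw w g z) / 2) = fun z => (1/2) * (Dw w f z + Dw w g z) := by
      ext z; ring
    cases b with
    | true =>
      show dx (Dw w _) = fun z => (dx (Dw w f) z + dx (Dw w g) z) / 2
      rw [ih, e]
      ext z
      have d3 : DifferentiableAt ℝ (fun z => Dw w f z + Dw w g z) z := (d1 z).add (d2 z)
      rw [dx_const_mul _ d3, dx_add (d1 z) (d2 z)]; ring
    | false =>
      show dy (Dw w _) = fun z => (dy (Dw w f) z + dy (Dw w g) z) / 2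
      rw [ih, e]
      ext z
      have d3 : DifferentiableAt ℝ (fun z => Dw w f z + Dw w g z) z := (d1 z).add (d2 z)
      rw [dy_const_mul _ d3, dy_add (d1 z) (d2 z)]; ring

theorem OrdBd_mean {U : Set (ℝ × ℝ)} {k : ℕ} {C : ℝ} {f g : ℝ × ℝ → ℝ} (hf : ContDiff ℝ k f)
    (hg : ContDiff ℝ k g) (h1 : OrdBd U k C f) (h2 : OrdBd U k C g) :
    OrdBd U k C (fun z => (f z + g z) / 2) := by
  intro w hw z hz
  rw [Dw_mean f g w (by rw [hw]; exact hf) (by rw [hw]; exact hg)]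
  have a := abs_le.1 (h1 w hw z hz)
  have b := abs_le.1 (h2 w hw z hz)
  exact abs_le.2 ⟨by linarith [a.1, b.1], by linarith [a.2, b.2]⟩

theorem OB_mean {M ε : ℝ} {f g : ℝ × ℝ → ℝ} (hf : ContDiff ℝ 3 f)
    (hg : ContDiff ℝ 3 g) (h1 : OB M ε f) (h2 : OB M ε g) : OB M ε (fun z => (f z + g z) / 2) :=
  ⟨OrdBd_mean (hf.of_le (by norm_num)) (hg.of_le (by norm_num)) h1.1 h2.1,
    OrdBd_mean hf hg h1.2 h2.2⟩

theorem Nrm_mean {M ε e0 : ℝ} {T T' : Tri} (h : Nrm M ε e0 T) (h' : Nrm M ε e0 T') :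
    Nrm M ε e0 (T.mean T') := by
  have e1 : ∀ f g : ℝ × ℝ → ℝ, ContDiff ℝ 3 f → ContDiff ℝ 3 g → ∀ z,
      dx (fun z => (f z + g z) / 2) z = (dx f z + dx g z) / 2 := fun f g hf hg z =>
    congrFun (Dw_mean f g [true] (hf.of_le (by norm_num)) (hg.of_le (by norm_num))) z
  have e2 : ∀ f g : ℝ × ℝ → ℝ, ContDiff ℝ 3 f → ContDiff ℝ 3 g → ∀ z,
      dy (fun z => (f z + g z) / 2) z = (dy f z + dy g z) / 2 := fun f g hf hg z =>
    congrFun (Dw_mean f g [false] (hf.of_le (by norm_num)) (hg.of_le (by norm_num))) z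
  refine ⟨?_, ?_, ?_, ?_, ?_, ?_, ?_, ?_, ?_, ?_, ?_, ?_, ?_, ?_⟩
  · show (T.a 0 + T'.a 0) / 2 = 0
    rw [h.a0, h'.a0]; ring
  · show (T.b 0 + T'.b 0) / 2 = 0
    rw [h.b0, h'.b0]; ring
  · show (T.h 0 + T'.h 0) / 2 = 0
    rw [h.h0, h'.h0]; ring
  · show dx (fun z => (T.a z + T'.a z) / 2) 0 = e0
    rw [e1 _ _ T.ha T'.ha, h.ax, h'.ax]; ring
  · show dy (fun z => (T.a z + T'.a z) / 2) 0 = 0
    rw [e2 _ _ T.ha T'.ha, h.ay, h'.ay]; ring
  · show dx (fun z => (T.b z + T'.b z) / 2) 0 = 0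
    rw [e1 _ _ T.hb T'.hb, h.bx, h'.bx]; ring
  · show dy (fun z => (T.b z + T'.b z) / 2) 0 = e0
    rw [e2 _ _ T.hb T'.hb, h.by', h'.by']; ring
  · show dx (fun z => (T.h z + T'.h z) / 2) 0 = 0
    rw [e1 _ _ T.hh T'.hh, h.hx, h'.hx]; ring
  · show dy (fun z => (T.h z + T'.h z) / 2) 0 = 0
    rw [e2 _ _ T.hh T'.hh, h.hy, h'.hy]; ring
  · show Dw [true, false] (fun z => (T.h z + T'.h z) / 2) 0 = 0
    rw [Dw_mean _ _ _ (T.hh.of_le (by norm_num)) (T'.hh.of_le (by norm_num))]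
    show (dx (dy T.h) 0 + dx (dy T'.h) 0) / 2 = 0
    rw [h.hxy, h'.hxy]; ring
  · show ε / M ≤ Dw [false, false] (fun z => (T.h z + T'.h z) / 2) 0
    rw [Dw_mean _ _ _ (T.hh.of_le (by norm_num)) (T'.hh.of_le (by norm_num))]
    show ε / M ≤ (dy (dy T.h) 0 + dy (dy T'.h) 0) / 2
    linarith [h.hyy, h'.hyy]
  · exact OB_mean T.ha T'.ha h.oa h'.oa
  · exact OB_mean T.hb T'.hb h.ob h'.ob
  · exact OB_mean T.hh T'.hh h.oh h'.oh

theorem Bd_avg {U : Set (ℝ × ℝ)} {k : ℕ} {C : ℝ} {f g : ℝ × ℝ → ℝ}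
    (hf : ContDiff ℝ k f) (hg : ContDiff ℝ k g) (h1 : Bd U k C f) (h2 : Bd U k C g) :
    Bd U k C (fun z => (f z + g z) / 2) := by
  have key' : ∀ (f g : ℝ × ℝ → ℝ) z, |f z| ≤ C → |g z| ≤ C → |(f z + g z) / 2| ≤ C := by
    intro f g z h1 h2
    have a := abs_le.1 h1
    have b := abs_le.1 h2
    exact abs_le.2 ⟨by linarith [a.1, b.1], by linarith [a.2, b.2]⟩
  induction k generalizing f g with
  | zero => intro z hz; exact key' _ _ z (h1 z hz) (h2 z hz)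
  | succ k ih =>
    have e1 : dx (fun z => (f z + g z) / 2) = fun z => (dx f z + dx g z) / 2 :=
      Dw_mean f g [true] (hf.of_le (by norm_cast; simp)) (hg.of_le (by norm_cast; simp))
    have e2 : dy (fun z => (f z + g z) / 2) = fun z => (dy f z + dy g z) / 2 :=
      Dw_mean f g [false] (hf.of_le (by norm_cast; simp)) (hg.of_le (by norm_cast; simp))
    refine ⟨fun z hz => key' _ _ z (h1.1 z hz) (h2.1 z hz), ?_, ?_⟩
    · rw [e1]
      exact ih (contDiff_dx hf) (contDiff_dx hg) h1.2.1 h2.2.1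
    · rw [e2]
      exact ih (contDiff_dy hf) (contDiff_dy hg) h1.2.2 h2.2.2

/-- if `T`, `T'` are both `η`-close to `T0`, so is their mean -/
theorem Close2_mean {η : ℝ} {T T' T0 : Tri} (h : Close2 η T T0) (h' : Close2 η T' T0) :
    Close2 η (T.mean T') T0 := by
  refine ⟨?_, ?_, ?_⟩
  · refine P229.KeyAux.Bd_congr (isOpen_disc 2) (fun z _ => ?_)
      (Bd_avg ((T.ha.sub T0.ha).of_le (by norm_num)) ((T'.ha.sub T0.ha).of_le (by norm_num)) h.1 h'.1)
    show (T.a z - T0.a z + (T'.a z - T0.a z)) / 2 = (T.a z + T'.a z) / 2 - T0.a z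
    ring
  · refine P229.KeyAux.Bd_congr (isOpen_disc 2) (fun z _ => ?_)
      (Bd_avg ((T.hb.sub T0.hb).of_le (by norm_num)) ((T'.hb.sub T0.hb).of_le (by norm_num)) h.2.1 h'.2.1)
    show (T.b z - T0.b z + (T'.b z - T0.b z)) / 2 = (T.b z + T'.b z) / 2 - T0.b z
    ring
  · refine P229.KeyAux.Bd_congr (isOpen_disc 2) (fun z _ => ?_)
      (Bd_avg ((T.hh.sub T0.hh).of_le (by norm_num)) ((T'.hh.sub T0.hh).of_le (by norm_num)) h.2.2 h'.2.2)
    show (T.h z - T0.h z + (T'.h z - T0.h z)) / 2 = (T.h z + T'.h z) / 2 - T0.h z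
    ring

export P229.KeyAux (disc_subset_Icc volume_disc_le integrableOn_disc setIntegral_disc_le
  setIntegral_mono_region)

end KeyAux

end Vale.Agent.P229.C3
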