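import Vale.Agent.P229.C3.KeyB
import Vale.Agent.P229.Reflect
import Vale.Agent.P229.KeyC
import Vale.Agent.P229.C3.BdAlg
import Vale.Agent.P229.C3.Reflect

/-!
# P229 (`C³` version): from the class facts to the step data and the geometric package
-/

namespace Vale.Agent.P229.C3

open MeasureTheory Set
open scoped ContDiff

namespace KeyAux



/-- facts provided by `align` -/
structure AF (δ n0 : ℝ) (T : Tri) : Prop where
  line : ∀ x : ℝ, |x| < 3 / 2 → |Pf T (x, 0)| ≤ Real.sqrt (δ / 2) / 3000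
  kneg : ∀ z ∈ disc (3 / 5), kf T z ≤ -(3 / 5) * δ
  kpos : ∀ z ∈ disc (3 / 2), z ∉ disc (11 / 10) → δ / 5 ≤ kf T z
  up : ∀ z ∈ disc (3 / 2), Real.sqrt (δ / 2) / 150 ≤ Pf T z → n0 ≤ No T.a (Pf T) (kf T) z
  lo : ∀ z ∈ disc (3 / 2), Pf T z ≤ -(Real.sqrt (δ / 2) / 150) →
        No T.a (Pf T) (kf T) z ≤ -n0

/-- conclusion of `close_facts` -/
def CloseProp (M ε C0 j0 C : ℝ) : Prop := ∀ (T T' : Tri) (η : ℝ), 0 ≤ η → Basic M ε C0 j0 T →
      Basic M ε C0 j0 T' →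
      Close2 η T T' → ∀ z ∈ disc 2, |Pf T z - Pf T' z| ≤ C * η ∧ |kf T z - kf T' z| ≤ C * η

export P229.KeyAux (rf_mem rf_rf)

variable {M ε C0 j0 CF δ n0 g η b : ℝ} {T T' T0 : Tri}

/-- everything about the mean `Tb` of a pair which is needed later -/
structure MeanData (C0 j0 k1 n1 g t1 κ0 ρ0 b : ℝ) (Ps u P κ v : ℝ × ℝ → ℝ) : Prop where
  up : StepData C0 j0 k1 n1 g t1 Ps u P κ v
  lo : StepData C0 j0 k1 n1 g t1 (fun w => - Ps (rf w)) (fun w => u (rf w))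
    (fun w => - P (rf w)) (fun w => κ (rf w)) (fun w => v (rf w))
  geo : Geo ρ0 κ0 u P κ

theorem meanData (hδ : 0 < δ) (hη : 0 ≤ η) (hj : 0 < j0)
    (hCF : CloseProp M ε C0 j0 CF) (hs1 : CF * η ≤ g / 2) (hs2 : CF * η ≤ n0 / 2)
    (hs3 : CF * η ≤ δ / 30) (hs4 : CF * η ≤ Real.sqrt (δ / 2) / 3000)
    {e0 : ℝ} (hNm : Nrm M ε e0 (T.mean T'))
    (hB : Basic M ε C0 j0 T) (hB0 : Basic M ε C0 j0 T0) (hBm : Basic M ε C0 j0 (T.mean T'))
    (hA : AF δ n0 T) (c1 : Close2 η (T.mean T') T) (c0 : Close2 η (T.mean T') T0)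
    (hN : ∀ z ∈ disc 2, b ^ 2 < z.1 ^ 2 + z.2 ^ 2 →
      |No (T.mean T').a (Pf (T.mean T')) (kf (T.mean T')) z - No T.a (Pf T) (kf T) z| ≤ CF * η)
    {v : ℝ × ℝ → ℝ} (hv : ContDiff ℝ 3 v)
    (hop : ∀ z ∈ disc 2, z ∉ disc b → Op (T.mean T').a (Pf (T.mean T')) (kf (T.mean T')) v z = 0)
    (hb : 0 ≤ b) (hbs : 2 * C0 * b < Real.sqrt (δ / 2) / 150) (hC0 : 0 < C0)
    (hg : 0 < g) :
    MeanData C0 j0 (δ / 6) (n0 / 2) g (Real.sqrt (δ / 2) / 150 + g / 2) (Real.sqrt (δ / 2))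
      (ε / (2 * M)) b (Pf T0) (T.mean T').a (Pf (T.mean T')) (kf (T.mean T')) v := by
  set Tb := T.mean T' with hTb
  have f1 := hCF Tb T η hη hBm hB c1
  have f0 := hCF Tb T0 η hη hBm hB0 c0
  have d32 : disc (3 / 2) ⊆ disc 2 := disc_mono (by norm_num) (by norm_num)
  have d35 : disc (3 / 5) ⊆ disc 2 := disc_mono (by norm_num) (by norm_num)
  have hP0 : Pf Tb 0 = 0 := by
    have h1 : Pf Tb 0 = br Tb.a Tb.h 0 / br Tb.a Tb.b 0 := rfl
    rw [h1]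
    have h2 : br Tb.a Tb.h 0 = 0 := by
      simp only [br, hNm.hx, hNm.hy]; ring
    rw [h2, zero_div]
  -- smallness of `P` on the closed disc of radius `b`
  have hPb : ∀ z ∈ disc 2, z.1 ^ 2 + z.2 ^ 2 ≤ b ^ 2 → |Pf Tb z| < Real.sqrt (δ / 2) / 150 := by
    intro z hz2 hz
    have h0 : (0 : ℝ × ℝ) ∈ disc 2 := by simp [disc]
    have hm := abs_sub_le_disc (R := 2) (hBm.reg.sP.of_le (by norm_num))
      (fun z hz => (hBm.reg.bP z hz).2.1)
      (fun z hz => (hBm.reg.bP z hz).2.2) z hz2 0 h0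
    rw [hP0] at hm
    have a1 : |z.1| ≤ b := abs_le_of_sq_le_sq (by nlinarith [sq_nonneg z.2]) hb
    have a2 : |z.2| ≤ b := abs_le_of_sq_le_sq (by nlinarith [sq_nonneg z.1]) hb
    simp only [sub_zero, Prod.fst_zero, Prod.snd_zero] at hm
    have : C0 * |z.1| + C0 * |z.2| ≤ 2 * C0 * b := by nlinarith
    linarith
  have hPb' : ∀ z ∈ disc 2, Real.sqrt (δ / 2) / 150 ≤ |Pf Tb z| → b ^ 2 < z.1 ^ 2 + z.2 ^ 2 := by
    intro z hz2 hP
    by_contra hcon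
    have := hPb z hz2 (not_lt.1 hcon)
    linarith
  refine ⟨⟨hBm.reg, hv, ?_, ?_, ?_, ?_⟩, ⟨Reg_rf hBm.reg, ?_, ?_, ?_, ?_, ?_⟩, ⟨hNm.a0, hP0, hBm.au, hBm.Py,
    hBm.Px, ?_, ?_⟩⟩
  · intro z hz
    exact (f0 z hz).1.trans hs1
  · intro z hz hz'
    have h1 := hA.kpos z hz hz'
    have h2 := (abs_le.1 ((f1 z (d32 hz)).2)).1
    linarith
  · intro z hz hP
    have h2 := (abs_le.1 ((f1 z (d32 hz)).1)).2
    have h3 := (abs_le.1 (hN z (d32 hz) (hPb' z (d32 hz)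
      (le_trans (by linarith) (le_abs_self _))))).1
    have h4 := hA.up z hz (by linarith)
    linarith
  · intro z hz hP
    refine hop z (d32 hz) (fun hzb => ?_)
    have := hPb' z (d32 hz) (le_trans (by linarith) (le_abs_self _))
    have hzb' : z.1 ^ 2 + z.2 ^ 2 < b ^ 2 := hzb
    linarith
  · have : ContDiff ℝ 3 (fun w : ℝ × ℝ => rf w) := by
      unfold rf
      fun_prop
    exact hv.comp this
  · intro z hz
    have h := (f0 (rf z) (rf_mem.2 hz)).1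
    have e : - Pf Tb (rf z) - - Pf T0 (rf z) = -(Pf Tb (rf z) - Pf T0 (rf z)) := by ring
    show |- Pf Tb (rf z) - - Pf T0 (rf z)| ≤ g / 2
    rw [e, abs_neg]
    exact h.trans hs1
  · intro z hz hz'
    have hz1 : rf z ∈ disc (3 / 2) := rf_mem.2 hz
    have hz2 : rf z ∉ disc (11 / 10) := fun h => hz' (rf_mem.1 h)
    have h1 := hA.kpos _ hz1 hz2
    have h2 := (abs_le.1 ((f1 _ (d32 hz1)).2)).1
    show δ / 6 ≤ kf Tb (rf z)
    linarith
  · intro z hz hP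
    have hz1 : rf z ∈ disc (3 / 2) := rf_mem.2 hz
    rw [No_rf hj hBm.reg z (d32 hz)]
    have h2 := (abs_le.1 ((f1 _ (d32 hz1)).1)).1
    have h3 := (abs_le.1 (hN _ (d32 hz1) (hPb' _ (d32 hz1)
      (le_trans (by linarith) (neg_le_abs _))))).2
    have h4 := hA.lo _ hz1 (by linarith)
    linarith
  · intro z hz hP
    have hz1 : rf z ∈ disc (3 / 2) := rf_mem.2 hz
    rw [Op_rf hj hBm.reg hv z (d32 hz)]
    refine hop _ (d32 hz1) (fun hzb => ?_)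
    have := hPb' _ (d32 hz1) (le_trans (by linarith) (neg_le_abs _))
    have hzb' : (rf z).1 ^ 2 + (rf z).2 ^ 2 < b ^ 2 := hzb
    linarith
  · intro x hx
    have hx2 : ((x, 0) : ℝ × ℝ) ∈ disc 2 := by
      show x ^ 2 + (0 : ℝ) ^ 2 < 2 ^ 2
      have := abs_lt.1 hx
      nlinarith
    have h1 := (f1 _ hx2).1
    have h2 := hA.line x hx
    have h3 : |Pf Tb (x, 0)| ≤ |Pf Tb (x, 0) - Pf T (x, 0)| + |Pf T (x, 0)| := by
      have := abs_add_le (Pf Tb (x, 0) - Pf T (x, 0)) (Pf T (x, 0))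
      simpa using this
    linarith
  · intro z hz
    have h1 := hA.kneg z hz
    have h2 := (abs_le.1 ((f1 z (d35 hz)).2)).2
    have h3 : Real.sqrt (δ / 2) ^ 2 = δ / 2 := Real.sq_sqrt (by linarith)
    rw [h3]
    linarith

end KeyAux

end Vale.Agent.P229.C3
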