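import Vale.Agent.P229.Pair
import Vale.Agent.P229.C3.BdAlg

/-! P229, `C³` version, module G: the linearised equation for a pair of immersions. -/

namespace Vale.Agent.P229.C3

open MeasureTheory Set
open scoped ContDiff

namespace PairAux3

open P229.PairAux (br_eq metric_rel disc23 zero_mem_disc2 integrable_cs)

/-- an operator that behaves as a derivation on functions smooth on `U` -/
structure Der (U : Set (ℝ × ℝ)) (D : (ℝ × ℝ → ℝ) → (ℝ × ℝ → ℝ)) : Prop where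
  sm2 : ∀ {f : ℝ × ℝ → ℝ}, Sm 3 U f → Sm 2 U (D f)
  sm1 : ∀ {f : ℝ × ℝ → ℝ}, Sm 2 U f → Sm 1 U (D f)
  sm0 : ∀ {f : ℝ × ℝ → ℝ}, Sm 1 U f → Sm 0 U (D f)
  cg : ∀ (f g : ℝ × ℝ → ℝ), (∀ w ∈ U, f w = g w) → ∀ z ∈ U, D f z = D g z
  add : ∀ {f g : ℝ × ℝ → ℝ}, Sm 1 U f → Sm 1 U g → ∀ z ∈ U,
    D (fun w => f w + g w) z = D f z + D g z
  cmul : ∀ (c : ℝ) {f : ℝ × ℝ → ℝ}, Sm 1 U f → ∀ z ∈ U, D (fun w => c * f w) z = c * D f z
  mul : ∀ {f g : ℝ × ℝ → ℝ}, Sm 1 U f → Sm 1 U g → ∀ z ∈ U,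
    D (fun w => f w * g w) z = D f z * g z + f z * D g z

variable {U : Set (ℝ × ℝ)} {D E : (ℝ × ℝ → ℝ) → (ℝ × ℝ → ℝ)} {f g : ℝ × ℝ → ℝ} {z : ℝ × ℝ}

theorem s21 (h : Sm 2 U f) : Sm 1 U f := h.of_le (by norm_num)
theorem s31 (h : Sm 3 U f) : Sm 1 U f := h.of_le (by norm_num)
theorem s32 (h : Sm 3 U f) : Sm 2 U f := h.of_le (by norm_num)
theorem cd3 (h : ContDiff ℝ 3 f) : Sm 3 U f := Sm.of_contDiff (by exact_mod_cast h)
theorem cdi {n : ℕ} (h : ContDiff ℝ ∞ f) : Sm n U f :=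
  Sm.of_contDiff (h.of_le (by exact_mod_cast le_top))

theorem Der.sub (hD : Der U D) (sf : Sm 1 U f) (sg : Sm 1 U g) (hz : z ∈ U) :
    D (fun w => f w - g w) z = D f z - D g z := by
  have h1 := hD.cg (fun w => f w - g w) (fun w => f w + (-1) * g w)
    (fun w _ => by ring) z hz
  rw [h1, hD.add sf ((Sm.const (-1)).mul sg) z hz, hD.cmul (-1) sg z hz]
  ring

theorem Der.zero (hD : Der U D) (hz : z ∈ U) : D (fun _ => 0) z = 0 := by
  have h1 := hD.cg (fun _ => 0) (fun w => (0 : ℝ) * (fun _ => (0 : ℝ)) w)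
    (fun w _ => by ring) z hz
  rw [h1, hD.cmul 0 (Sm.const 0) z hz, zero_mul]

theorem Der.mul2 (hD : Der U D) (hE : Der U E) (sf : Sm 2 U f) (sg : Sm 2 U g) (hz : z ∈ U) :
    D (E (fun w => f w * g w)) z =
      D (E f) z * g z + E f z * D g z + (D f z * E g z + f z * D (E g) z) := by
  rw [hD.cg _ (fun w => E f w * g w + f w * E g w) (fun w hw => hE.mul (s21 sf) (s21 sg) w hw) z hz,
    hD.add ((hE.sm1 sf).mul (s21 sg)) ((s21 sf).mul (hE.sm1 sg)) z hz,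
    hD.mul (hE.sm1 sf) (s21 sg) z hz, hD.mul (s21 sf) (hE.sm1 sg) z hz]

theorem Der.add2 (hD : Der U D) (hE : Der U E) (sf : Sm 2 U f) (sg : Sm 2 U g) (hz : z ∈ U) :
    D (E (fun w => f w + g w)) z = D (E f) z + D (E g) z := by
  rw [hD.cg _ (fun w => E f w + E g w) (fun w hw => hE.add (s21 sf) (s21 sg) w hw) z hz,
    hD.add (hE.sm1 sf) (hE.sm1 sg) z hz]

theorem Der.cmul2 (hD : Der U D) (hE : Der U E) (c : ℝ) (sf : Sm 2 U f) (hz : z ∈ U) :
    D (E (fun w => c * f w)) z = c * D (E f) z := by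
  rw [hD.cg _ (fun w => c * E f w) (fun w hw => hE.cmul c (s21 sf) w hw) z hz,
    hD.cmul c (hE.sm1 sf) z hz]

theorem Der.cg2 (hD : Der U D) (hE : Der U E) (f g : ℝ × ℝ → ℝ) (h : ∀ w ∈ U, f w = g w)
    (hz : z ∈ U) : D (E f) z = D (E g) z :=
  hD.cg _ _ (fun w hw => hE.cg f g h w hw) z hz

theorem derLo {a b : ℝ × ℝ → ℝ} (hU : IsOpen U) (sa : Sm 3 U a) (sb : Sm 3 U b)
    (h0 : ∀ z ∈ U, br a b z ≠ 0) : Der U (Lo a b) where
  sm2 := fun sf => Sm.Lo hU sa sb sf h0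
  sm1 := fun sf => Sm.Lo hU (s32 sa) (s32 sb) sf h0
  sm0 := fun sf => Sm.Lo hU (s31 sa) (s31 sb) sf h0
  cg := fun f g h z hz => by simp only [Lo, br, dx_congr hU h hz, dy_congr hU h hz]
  add := fun sf sg z hz => Lo_add (Sm.diff (n := 0) hU sf hz) (Sm.diff (n := 0) hU sg hz)
  cmul := fun c _ sf z hz => Lo_const_mul c (Sm.diff (n := 0) hU sf hz)
  mul := fun sf sg z hz => Lo_mul (Sm.diff (n := 0) hU sf hz) (Sm.diff (n := 0) hU sg hz)

theorem derNo {a b : ℝ × ℝ → ℝ} (hU : IsOpen U) (sa : Sm 3 U a) (sb : Sm 3 U b)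
    (h0 : ∀ z ∈ U, br a b z ≠ 0) : Der U (No a b) where
  sm2 := fun sf => Sm.No hU sa sb sf h0
  sm1 := fun sf => Sm.No hU (s32 sa) (s32 sb) sf h0
  sm0 := fun sf => Sm.No hU (s31 sa) (s31 sb) sf h0
  cg := fun f g h z hz => by simp only [No, br, dx_congr hU h hz, dy_congr hU h hz]
  add := fun sf sg z hz => No_add (Sm.diff (n := 0) hU sf hz) (Sm.diff (n := 0) hU sg hz)
  cmul := fun c _ sf z hz => No_const_mul c (Sm.diff (n := 0) hU sf hz)
  mul := fun sf sg z hz => No_mul (Sm.diff (n := 0) hU sf hz) (Sm.diff (n := 0) hU sg hz)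

end PairAux3

open PairAux3
open P229.PairAux (br_eq metric_rel disc23 zero_mem_disc2 integrable_cs)

theorem Op_eq_Mo (T : Tri) {U : Set (ℝ × ℝ)} (hU : IsOpen U) (h0 : ∀ z ∈ U, br T.a T.b z ≠ 0)
    (hJ : ∀ z ∈ U, br T.a (Pf T) z ≠ 0) (v : ℝ × ℝ → ℝ) (hv : Sm 3 U v) :
    ∀ z ∈ U, br T.a (Pf T) z * Op T.a (Pf T) (kf T) v z = br T.a T.b z * Mo T v z := by
  have sa : Sm 3 U T.a := cd3 T.ha
  have sb : Sm 3 U T.b := cd3 T.hb
  have sh : Sm 3 U T.h := cd3 T.hh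
  have d1 := derLo hU sa sb h0
  have d2 := derNo hU sa sb h0
  have cm : ∀ {f : ℝ × ℝ → ℝ}, Sm 2 U f → ∀ z ∈ U,
      Lo T.a T.b (No T.a T.b f) z = No T.a T.b (Lo T.a T.b f) z :=
    fun sf z hz => Lo_No_comm hU (s32 sa) (s32 sb) sf h0 hz
  have sp : Sm 2 U (pf T) := d1.sm2 sh
  have sP : Sm 2 U (Pf T) := d2.sm2 sh
  have pP : ∀ z ∈ U, Lo T.a T.b (Pf T) z = No T.a T.b (pf T) z := fun z hz => cm (s32 sh) z hz
  have s22 : Sm 1 U (No T.a T.b (Pf T)) := d2.sm1 sP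
  have s12 : Sm 1 U (Lo T.a T.b (Pf T)) := d1.sm1 sP
  have s11 : Sm 1 U (Lo T.a T.b (pf T)) := d1.sm1 sp
  have hJ0 : ∀ z ∈ U, br T.a (Pf T) z = br T.a T.b z * No T.a T.b (Pf T) z := by
    intro z hz
    rw [br_eq (h0 z hz) T.a (Pf T), Lo_u (h0 z hz), No_u]
    ring
  have n22 : ∀ z ∈ U, No T.a T.b (Pf T) z ≠ 0 := by
    intro z hz h
    apply hJ z hz
    rw [hJ0 z hz, h, mul_zero]
  obtain ⟨m, hm⟩ : ∃ m : ℝ × ℝ → ℝ, m = fun w => Lo T.a T.b (Pf T) w / No T.a T.b (Pf T) w :=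
    ⟨_, rfl⟩
  have sm : Sm 1 U m := by rw [hm]; exact s12.div s22 n22
  have hm1 : ∀ w ∈ U, m w * No T.a T.b (Pf T) w = Lo T.a T.b (Pf T) w := by
    intro w hw
    rw [hm]
    have := n22 w hw
    field_simp
  have hL : ∀ f : ℝ × ℝ → ℝ, ∀ z ∈ U, Lo T.a (Pf T) f z =
      Lo T.a T.b f z - m z * No T.a T.b f z := by
    intro f z hz
    have e1 : Lo T.a (Pf T) f z = br f (Pf T) z / br T.a (Pf T) z := rfl
    have e2 := hm1 z hz
    rw [e1, hJ0 z hz, br_eq (h0 z hz) f (Pf T), ← e2]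
    have := n22 z hz
    have := h0 z hz
    field_simp
  have hN : ∀ f : ℝ × ℝ → ℝ, ∀ z ∈ U, No T.a (Pf T) f z =
      No T.a T.b f z / No T.a T.b (Pf T) z := by
    intro f z hz
    have e1 : No T.a (Pf T) f z = br T.a f z / br T.a (Pf T) z := rfl
    rw [e1, hJ0 z hz, br_eq (h0 z hz) T.a f, Lo_u (h0 z hz), No_u]
    have := n22 z hz
    have := h0 z hz
    field_simp
    ring
  have hk : ∀ z ∈ U, kf T z = Lo T.a T.b (pf T) z * No T.a T.b (Pf T) z -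
      Lo T.a T.b (Pf T) z * Lo T.a T.b (Pf T) z := by
    intro z hz
    have e1 : kf T z = br (pf T) (Pf T) z / br T.a T.b z := rfl
    rw [e1, br_eq (h0 z hz) (pf T) (Pf T), ← pP z hz]
    have := h0 z hz
    field_simp
  intro z hz
  have hz0 := n22 z hz
  -- first order consequences
  have f1 := d1.cg _ _ hm1 z hz
  rw [d1.mul sm s22 z hz] at f1
  have f2 := d2.cg _ _ hm1 z hz
  rw [d2.mul sm s22 z hz] at f2
  have c1 : Lo T.a T.b (Lo T.a T.b (Pf T)) z = No T.a T.b (Lo T.a T.b (pf T)) z := by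
    rw [d1.cg _ _ pP z hz, cm sp z hz]
  have c2 : Lo T.a T.b (No T.a T.b (Pf T)) z = No T.a T.b (Lo T.a T.b (Pf T)) z := cm sP z hz
  have v1 : Sm 1 U (Lo T.a T.b v) := s21 (d1.sm2 hv)
  have v2 : Sm 1 U (No T.a T.b v) := s21 (d2.sm2 hv)
  -- L L v
  have g1 : Lo T.a (Pf T) (Lo T.a (Pf T) v) z =
      (Lo T.a T.b (Lo T.a T.b v) z - (Lo T.a T.b m z * No T.a T.b v z +
        m z * Lo T.a T.b (No T.a T.b v) z)) -
      m z * (No T.a T.b (Lo T.a T.b v) z - (No T.a T.b m z * No T.a T.b v z +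
        m z * No T.a T.b (No T.a T.b v) z)) := by
    rw [hL _ z hz, d1.cg _ _ (hL v) z hz, d2.cg _ _ (hL v) z hz,
      d1.sub v1 (sm.mul v2) hz, d2.sub v1 (sm.mul v2) hz,
      d1.mul sm v2 z hz, d2.mul sm v2 z hz]
  -- N (κ N v)
  obtain ⟨q, hq⟩ : ∃ q : ℝ × ℝ → ℝ, q = fun w => Lo T.a T.b (pf T) w -
      m w * Lo T.a T.b (Pf T) w := ⟨_, rfl⟩
  have sq' : Sm 1 U q := by rw [hq]; exact s11.sub (sm.mul s12)
  have hq1 : ∀ w ∈ U, kf T w * No T.a (Pf T) v w = q w * No T.a T.b v w := by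
    intro w hw
    have e2 := hm1 w hw
    rw [hk w hw, hN v w hw, hq]
    have := n22 w hw
    simp only
    rw [← e2]
    field_simp
  have g2 : No T.a (Pf T) (fun w => kf T w * No T.a (Pf T) v w) z =
      (No T.a T.b q z * No T.a T.b v z + q z * No T.a T.b (No T.a T.b v) z) /
        No T.a T.b (Pf T) z := by
    rw [hN _ z hz, d2.cg _ _ hq1 z hz, d2.mul sq' v2 z hz]
  have g3 : No T.a T.b q z = No T.a T.b (Lo T.a T.b (pf T)) z -
      (No T.a T.b m z * Lo T.a T.b (Pf T) z + m z * No T.a T.b (Lo T.a T.b (Pf T)) z) := by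
    rw [hq, d2.sub s11 (sm.mul s12) hz, d2.mul sm s12 z hz]
  have c3 := cm (s32 hv) z hz
  have e2 := hm1 z hz
  have hqz : q z = Lo T.a T.b (pf T) z - m z * Lo T.a T.b (Pf T) z := by rw [hq]
  rw [hJ0 z hz]
  simp only [Op, Mo]
  rw [g1, g2, g3, hqz, ← c3]
  rw [c1] at f1
  rw [c2] at f1
  generalize Lo T.a T.b (Lo T.a T.b v) z = v11 at *
  generalize Lo T.a T.b (No T.a T.b v) z = v12 at *
  generalize No T.a T.b (No T.a T.b v) z = v22 at *
  generalize No T.a T.b v z = v2 at *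
  generalize Lo T.a T.b m z = m1 at *
  generalize No T.a T.b m z = m2 at *
  generalize No T.a T.b (Lo T.a T.b (pf T)) z = h112 at *
  generalize No T.a T.b (Lo T.a T.b (Pf T)) z = h122 at *
  generalize No T.a T.b (No T.a T.b (Pf T)) z = h222 at *
  generalize Lo T.a T.b (pf T) z = h11 at *
  generalize Lo T.a T.b (Pf T) z = h12 at *
  generalize No T.a T.b (Pf T) z = h22 at *
  generalize br T.a T.b z = J at *
  generalize m z = mz at *
  subst e2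
  field_simp
  linear_combination (-J * v2) * f1

namespace PairAux3

/-- cancellation of the third order terms -/
theorem Mo_key (T : Tri) {U : Set (ℝ × ℝ)} (hU : IsOpen U) (h0 : ∀ z ∈ U, br T.a T.b z ≠ 0)
    {x1 x2 v E11 E12 E22 : ℝ × ℝ → ℝ} (s1 : Sm 3 U x1) (s2 : Sm 3 U x2) (sv : Sm 3 U v)
    (hα : ∀ z ∈ U, Lo T.a T.b x1 z + pf T z * Lo T.a T.b v z = E11 z)
    (hβ : ∀ z ∈ U, No T.a T.b x2 z + Pf T z * No T.a T.b v z = E22 z)
    (hγ : ∀ z ∈ U, (Lo T.a T.b x2 z + No T.a T.b x1 z) +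
      (pf T z * No T.a T.b v z + Pf T z * Lo T.a T.b v z) = E12 z) :
    ∀ z ∈ U, Mo T v z = -(No T.a T.b (No T.a T.b E11) z - Lo T.a T.b (No T.a T.b E12) z
      + Lo T.a T.b (Lo T.a T.b E22) z) := by
  intro z hz
  have sa : Sm 3 U T.a := cd3 T.ha
  have sb : Sm 3 U T.b := cd3 T.hb
  have sh : Sm 3 U T.h := cd3 T.hh
  have d1 := derLo hU sa sb h0
  have d2 := derNo hU sa sb h0
  have cm : ∀ {f : ℝ × ℝ → ℝ}, Sm 2 U f → ∀ z ∈ U,
      Lo T.a T.b (No T.a T.b f) z = No T.a T.b (Lo T.a T.b f) z :=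
    fun sf z hz => Lo_No_comm hU (s32 sa) (s32 sb) sf h0 hz
  have sp : Sm 2 U (pf T) := d1.sm2 sh
  have sP : Sm 2 U (Pf T) := d2.sm2 sh
  have pP : ∀ z ∈ U, Lo T.a T.b (Pf T) z = No T.a T.b (pf T) z := fun z hz => cm (s32 sh) z hz
  -- third order commutations
  have t1 : ∀ {f : ℝ × ℝ → ℝ}, Sm 3 U f → No T.a T.b (No T.a T.b (Lo T.a T.b f)) z =
      Lo T.a T.b (No T.a T.b (No T.a T.b f)) z := by
    intro f sf
    rw [← d2.cg _ _ (cm (s32 sf)) z hz, cm (d2.sm2 sf) z hz]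
  have t2 : ∀ {f : ℝ × ℝ → ℝ}, Sm 3 U f → Lo T.a T.b (Lo T.a T.b (No T.a T.b f)) z =
      Lo T.a T.b (No T.a T.b (Lo T.a T.b f)) z := fun sf => d1.cg _ _ (cm (s32 sf)) z hz
  have A := d2.cg2 d2 _ _ hα hz
  rw [d2.add2 d2 (d1.sm2 s1) (sp.mul (d1.sm2 sv)) hz, d2.mul2 d2 sp (d1.sm2 sv) hz, t1 s1,
    t1 sv] at A
  have B := d1.cg2 d1 _ _ hβ hz
  rw [d1.add2 d1 (d2.sm2 s2) (sP.mul (d2.sm2 sv)) hz, d1.mul2 d1 sP (d2.sm2 sv) hz, t2 s2,
    t2 sv] at B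
  have C := d1.cg2 d2 _ _ hγ hz
  rw [d1.add2 d2 ((d1.sm2 s2).add (d2.sm2 s1)) ((sp.mul (d2.sm2 sv)).add (sP.mul (d1.sm2 sv))) hz,
    d1.add2 d2 (d1.sm2 s2) (d2.sm2 s1) hz,
    d1.add2 d2 (sp.mul (d2.sm2 sv)) (sP.mul (d1.sm2 sv)) hz,
    d1.mul2 d2 sp (d2.sm2 sv) hz, d1.mul2 d2 sP (d1.sm2 sv) hz] at C
  have e1 : No T.a T.b (No T.a T.b (pf T)) z = Lo T.a T.b (No T.a T.b (Pf T)) z := by
    rw [← d2.cg _ _ pP z hz, cm sP z hz]
  have e2 : Lo T.a T.b (No T.a T.b (pf T)) z = Lo T.a T.b (Lo T.a T.b (Pf T)) z := by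
    rw [← d1.cg _ _ pP z hz]
  rw [← A, ← B, ← C, e1, e2, ← cm (s32 sv) z hz, ← pP z hz]
  simp only [Mo]
  ring

end PairAux3

theorem Mo_diff (T T' : Tri) (ψ ψ' : ℝ × ℝ → ℝ) (hψ : ContDiff ℝ ∞ ψ) (hψ' : ContDiff ℝ ∞ ψ')
    (hI : IsImm ψ T) (hI' : IsImm ψ' T')
    (h0 : ∀ z ∈ disc 2, br (T.mean T').a (T.mean T').b z ≠ 0) :
    ∀ z ∈ disc 2, Mo (T.mean T') (fun w => T.h w - T'.h w) z =
      -(1 / 2) * (No (T.mean T').a (T.mean T').b (No (T.mean T').a (T.mean T').b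
          (fun w => (Real.exp (2 * ψ w) - Real.exp (2 * ψ' w)) * g11 (T.mean T') w)) z
        - 2 * Lo (T.mean T').a (T.mean T').b (No (T.mean T').a (T.mean T').b
          (fun w => (Real.exp (2 * ψ w) - Real.exp (2 * ψ' w)) * g12 (T.mean T') w)) z
        + Lo (T.mean T').a (T.mean T').b (Lo (T.mean T').a (T.mean T').b
          (fun w => (Real.exp (2 * ψ w) - Real.exp (2 * ψ' w)) * g22 (T.mean T') w)) z) := by
  have hU := isOpen_disc 2
  have sa : Sm 3 (disc 2) (T.mean T').a := cd3 (T.mean T').ha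
  have sb : Sm 3 (disc 2) (T.mean T').b := cd3 (T.mean T').hb
  have da : ∀ {f : ℝ × ℝ → ℝ}, ContDiff ℝ 3 f → ∀ z, DifferentiableAt ℝ f z :=
    fun hf z => hf.differentiable (by simp) z
  have hmx : ∀ {f g : ℝ × ℝ → ℝ}, ContDiff ℝ 3 f → ContDiff ℝ 3 g → ∀ z,
      dx (fun w => (f w + g w) / 2) z = (dx f z + dx g z) / 2 := by
    intro f g hf hg z
    have e : (fun w => (f w + g w) / 2) = fun w => (1 / 2 : ℝ) * (f w + g w) := by
      funext w; ring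
    rw [e, dx_const_mul (f := fun w => f w + g w) _ ((da hf z).add (da hg z)), dx_add (da hf z) (da hg z)]
    ring
  have hmy : ∀ {f g : ℝ × ℝ → ℝ}, ContDiff ℝ 3 f → ContDiff ℝ 3 g → ∀ z,
      dy (fun w => (f w + g w) / 2) z = (dy f z + dy g z) / 2 := by
    intro f g hf hg z
    have e : (fun w => (f w + g w) / 2) = fun w => (1 / 2 : ℝ) * (f w + g w) := by
      funext w; ring
    rw [e, dy_const_mul (f := fun w => f w + g w) _ ((da hf z).add (da hg z)), dy_add (da hf z) (da hg z)]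
    ring
  have hrel : ∀ z ∈ disc 2, _ := fun z hz => by
    have h1 := hI z (disc23 hz)
    have h2 := hI' z (disc23 hz)
    exact metric_rel (J := br (T.mean T').a (T.mean T').b z)
      (ax := dx (T.mean T').a z) (ay := dy (T.mean T').a z)
      (bx := dx (T.mean T').b z) (by' := dy (T.mean T').b z)
      (hx := dx (T.mean T').h z) (hy := dy (T.mean T').h z)
      (x1x := dx (fun w => T.a w - T'.a w) z) (x1y := dy (fun w => T.a w - T'.a w) z)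
      (x2x := dx (fun w => T.b w - T'.b w) z) (x2y := dy (fun w => T.b w - T'.b w) z)
      (vx := dx (fun w => T.h w - T'.h w) z) (vy := dy (fun w => T.h w - T'.h w) z)
      (w := Real.exp (2 * ψ z) - Real.exp (2 * ψ' z)) (h0 z hz) rfl
      (by
        simp only [Tri.mean, hmx T.ha T'.ha, hmx T.hb T'.hb, hmx T.hh T'.hh,
          dx_sub (da T.ha z) (da T'.ha z), dx_sub (da T.hb z) (da T'.hb z),
          dx_sub (da T.hh z) (da T'.hh z)]
        linear_combination (1 / 2) * h1.1 - (1 / 2) * h2.1)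
      (by
        simp only [Tri.mean, hmy T.ha T'.ha, hmy T.hb T'.hb, hmy T.hh T'.hh,
          dy_sub (da T.ha z) (da T'.ha z), dy_sub (da T.hb z) (da T'.hb z),
          dy_sub (da T.hh z) (da T'.hh z)]
        linear_combination (1 / 2) * h1.2.1 - (1 / 2) * h2.2.1)
      (by
        simp only [Tri.mean, hmy T.ha T'.ha, hmy T.hb T'.hb, hmy T.hh T'.hh,
          dy_sub (da T.ha z) (da T'.ha z), dy_sub (da T.hb z) (da T'.hb z),
          dy_sub (da T.hh z) (da T'.hh z), hmx T.ha T'.ha, hmx T.hb T'.hb, hmx T.hh T'.hh,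
          dx_sub (da T.ha z) (da T'.ha z), dx_sub (da T.hb z) (da T'.hb z),
          dx_sub (da T.hh z) (da T'.hh z)]
        linear_combination h1.2.2 - h2.2.2)
  intro z hz
  have hw : ContDiff ℝ ∞ (fun w => Real.exp (2 * ψ w) - Real.exp (2 * ψ' w)) :=
    ((contDiff_const.mul hψ).exp).sub ((contDiff_const.mul hψ').exp)
  have sw : Sm 2 (disc 2) (fun w => Real.exp (2 * ψ w) - Real.exp (2 * ψ' w)) := cdi hw
  have sJ : Sm 2 (disc 2) (br (T.mean T').a (T.mean T').b) := Sm.br hU sa sb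
  have sg11 : Sm 2 (disc 2) (g11 (T.mean T')) :=
    (((sb.dy hU).pow 2).add ((sb.dx hU).pow 2)).div (sJ.pow 2) (fun z hz => pow_ne_zero 2 (h0 z hz))
  have sg22 : Sm 2 (disc 2) (g22 (T.mean T')) :=
    (((sa.dy hU).pow 2).add ((sa.dx hU).pow 2)).div (sJ.pow 2) (fun z hz => pow_ne_zero 2 (h0 z hz))
  have d1 := derLo hU sa sb h0
  have d2 := derNo hU sa sb h0
  have key := Mo_key (T.mean T') hU h0
    (x1 := fun w => T.a w - T'.a w) (x2 := fun w => T.b w - T'.b w) (v := fun w => T.h w - T'.h w)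
    (E11 := fun w => 1 / 2 * ((Real.exp (2 * ψ w) - Real.exp (2 * ψ' w)) * g11 (T.mean T') w))
    (E22 := fun w => 1 / 2 * ((Real.exp (2 * ψ w) - Real.exp (2 * ψ' w)) * g22 (T.mean T') w))
    (E12 := fun w => (Real.exp (2 * ψ w) - Real.exp (2 * ψ' w)) * g12 (T.mean T') w)
    (cd3 (T.ha.sub T'.ha)) (cd3 (T.hb.sub T'.hb)) (cd3 (T.hh.sub T'.hh))
    (fun z hz => (hrel z hz).1) (fun z hz => (hrel z hz).2.1) (fun z hz => (hrel z hz).2.2) z hz
  rw [key, d2.cmul2 d2 _ (sw.mul sg11) hz, d1.cmul2 d1 _ (sw.mul sg22) hz]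
  ring

namespace PairAux3

/-- a first order operator with `C¹` coefficients, skew-adjoint for the density `J` -/
structure VF (U : Set (ℝ × ℝ)) (J : ℝ × ℝ → ℝ) (X : (ℝ × ℝ → ℝ) → (ℝ × ℝ → ℝ)) : Prop where
  coef : ∃ α β : ℝ × ℝ → ℝ, Sm 1 U α ∧ Sm 1 U β ∧ ∀ f z, X f z = dx f z * α z + dy f z * β z
  ibp : ∀ f φ : ℝ × ℝ → ℝ, ContDiff ℝ 1 f → HasCompactSupport f → tsupport f ⊆ U → Sm 1 U φ →
    ∫ z, J z * (X f z * φ z) = - ∫ z, J z * (f z * X φ z)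

variable {U : Set (ℝ × ℝ)} {J f w φ : ℝ × ℝ → ℝ} {X Y : (ℝ × ℝ → ℝ) → (ℝ × ℝ → ℝ)}

theorem VF.c1 (hU : IsOpen U) (hX : VF U J X) (hw : ContDiff ℝ 2 w) (hs : tsupport w ⊆ U) :
    ContDiff ℝ 1 (X w) := by
  obtain ⟨α, β, sα, sβ, h⟩ := hX.coef
  have e : X w = fun z => dx w z * α z + dy w z * β z := by funext z; exact h w z
  have c1 : ContDiff ℝ 1 (dx w) := by
    have : ContDiff ℝ 1 (fun z => fderiv ℝ w z (1, 0)) :=
      (hw.fderiv_right (m := 1) (by norm_num)).clm_apply contDiff_const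
    exact this
  have c2 : ContDiff ℝ 1 (dy w) := by
    have : ContDiff ℝ 1 (fun z => fderiv ℝ w z (0, 1)) :=
      (hw.fderiv_right (m := 1) (by norm_num)).clm_apply contDiff_const
    exact this
  have t1 : tsupport (dx w) ⊆ U := (tsupport_fderiv_apply_subset ℝ (1, 0)).trans hs
  have t2 : tsupport (dy w) ⊆ U := (tsupport_fderiv_apply_subset ℝ (0, 1)).trans hs
  rw [e]
  exact (contDiff_mul_of_tsupport (n := 1) hU c1 t1 sα).add
    (contDiff_mul_of_tsupport (n := 1) hU c2 t2 sβ)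

theorem VF.zero_off (hX : VF U J X) {z : ℝ × ℝ} (hz : z ∉ tsupport f) : X f z = 0 := by
  obtain ⟨α, β, sα, sβ, h⟩ := hX.coef
  rw [h, dx_eq_zero_of_notMem hz, dy_eq_zero_of_notMem hz]
  ring

theorem VF.tsupport_sub (hX : VF U J X) : tsupport (X f) ⊆ tsupport f := by
  refine closure_minimal ?_ (isClosed_tsupport f)
  intro z hz
  by_contra h
  exact hz (hX.zero_off h)

theorem VF.contOn (hX : VF U J X) (hf : ContDiff ℝ 1 f) : ContinuousOn (X f) U := by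
  obtain ⟨α, β, sα, sβ, h⟩ := hX.coef
  have e : X f = fun z => dx f z * α z + dy f z * β z := by funext z; exact h f z
  rw [e]
  exact ((continuous_dx hf).continuousOn.mul sα.continuousOn).add
    ((continuous_dy hf).continuousOn.mul sβ.continuousOn)

theorem VF.ibp2 (hU : IsOpen U) (hX : VF U J X) (hY : VF U J Y) (dX : Der U X)
    (hw : ContDiff ℝ 2 w) (hc : HasCompactSupport w) (hs : tsupport w ⊆ U) (sφ : Sm 2 U φ) :
    ∫ z, J z * (X (Y w) z * φ z) = ∫ z, J z * (w z * Y (X φ) z) := by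
  have hc' : HasCompactSupport (Y w) := hc.mono' (subset_trans subset_closure hY.tsupport_sub)
  rw [hX.ibp (Y w) φ (hY.c1 hU hw hs) hc' (hY.tsupport_sub.trans hs) (s21 sφ),
    hY.ibp w (X φ) (hw.of_le (by norm_num)) hc hs (dX.sm1 sφ), neg_neg]

theorem VF.int2 (hU : IsOpen U) (hX : VF U J X) (hY : VF U J Y) (hJ : ContinuousOn J U)
    (hw : ContDiff ℝ 2 w) (hc : HasCompactSupport w) (hs : tsupport w ⊆ U)
    (sφ : ContinuousOn φ U) : Integrable (fun z => J z * (X (Y w) z * φ z)) := by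
  refine integrable_cs hU hc.isCompact hs ?_ ?_
  · exact hJ.mul ((hX.contOn (hY.c1 hU hw hs)).mul sφ)
  · intro z hz
    have h1 : z ∉ tsupport (Y w) := fun h => hz (hY.tsupport_sub h)
    rw [hX.zero_off h1]
    ring

theorem VF.int1 (hU : IsOpen U) (hX : VF U J X) (hJ : ContinuousOn J U)
    (hw : ContDiff ℝ 2 w) (hc : HasCompactSupport w) (hs : tsupport w ⊆ U)
    (sφ : ContinuousOn φ U) : Integrable (fun z => J z * (X w z * φ z)) := by
  refine integrable_cs hU hc.isCompact hs ?_ ?_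
  · exact hJ.mul ((hX.contOn (hw.of_le (by norm_num))).mul sφ)
  · intro z hz
    rw [hX.zero_off hz]
    ring

theorem int0 (hU : IsOpen U) (hJ : ContinuousOn J U) (hw : Continuous w)
    (hc : HasCompactSupport w) (hs : tsupport w ⊆ U) (sφ : ContinuousOn φ U) :
    Integrable (fun z => J z * (w z * φ z)) := by
  refine integrable_cs hU hc.isCompact hs ?_ ?_
  · exact hJ.mul (hw.continuousOn.mul sφ)
  · intro z hz
    rw [image_eq_zero_of_notMem_tsupport hz]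
    ring

theorem comb {X1 X2 : (ℝ × ℝ → ℝ) → (ℝ × ℝ → ℝ)} (hU : IsOpen U) (h1 : VF U J X1)
    (h2 : VF U J X2) (d1 : Der U X1) (d2 : Der U X2)
    (cm : ∀ {f : ℝ × ℝ → ℝ}, Sm 2 U f → ∀ z ∈ U, X1 (X2 f) z = X2 (X1 f) z)
    (hJ : ContinuousOn J U)
    (hw : ContDiff ℝ 2 w) (hc : HasCompactSupport w) (hs : tsupport w ⊆ U)
    {φ1 φ2 φ3 : ℝ × ℝ → ℝ} (s1 : Sm 2 U φ1) (s2 : Sm 2 U φ2) (s3 : Sm 2 U φ3) :
    ∫ z, J z * (φ1 z * X1 (X1 w) z - 2 * φ2 z * X1 (X2 w) z + φ3 z * X2 (X2 w) z) =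
      ∫ z, J z * (w z * (X1 (X1 φ1) z - 2 * X1 (X2 φ2) z + X2 (X2 φ3) z)) := by
  have i1 := h1.int2 hU h1 hJ hw hc hs s1.continuousOn
  have i2 := h1.int2 hU h2 hJ hw hc hs s2.continuousOn
  have i3 := h2.int2 hU h2 hJ hw hc hs s3.continuousOn
  have j1 := int0 hU hJ hw.continuous hc hs (d1.sm0 (d1.sm1 s1)).continuousOn
  have j2 := int0 hU hJ hw.continuous hc hs (d2.sm0 (d1.sm1 s2)).continuousOn
  have j3 := int0 hU hJ hw.continuous hc hs (d2.sm0 (d2.sm1 s3)).continuousOn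
  have k1 := h1.ibp2 hU h1 d1 hw hc hs s1
  have k2 := h1.ibp2 hU h2 d1 hw hc hs s2
  have k3 := h2.ibp2 hU h2 d2 hw hc hs s3
  have eL : ∀ z, J z * (φ1 z * X1 (X1 w) z - 2 * φ2 z * X1 (X2 w) z + φ3 z * X2 (X2 w) z) =
      (J z * (X1 (X1 w) z * φ1 z) - 2 * (J z * (X1 (X2 w) z * φ2 z))) +
        J z * (X2 (X2 w) z * φ3 z) := fun z => by ring
  have eR : ∀ z, J z * (w z * (X1 (X1 φ1) z - 2 * X1 (X2 φ2) z + X2 (X2 φ3) z)) =
      (J z * (w z * X1 (X1 φ1) z) - 2 * (J z * (w z * X2 (X1 φ2) z))) +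
        J z * (w z * X2 (X2 φ3) z) := by
    intro z
    by_cases hz : z ∈ tsupport w
    · rw [cm s2 z (hs hz)]
      ring
    · rw [image_eq_zero_of_notMem_tsupport hz]
      ring
  have l1 : Integrable (fun z => J z * (X1 (X1 w) z * φ1 z) -
      2 * (J z * (X1 (X2 w) z * φ2 z))) := i1.sub (i2.const_mul 2)
  have l2 : Integrable (fun z => J z * (w z * X1 (X1 φ1) z) -
      2 * (J z * (w z * X2 (X1 φ2) z))) := j1.sub (j2.const_mul 2)
  simp only [eL, eR]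
  rw [integral_add l1 i3, integral_sub i1 (i2.const_mul 2),
    integral_const_mul, integral_add l2 j3,
    integral_sub j1 (j2.const_mul 2), integral_const_mul, k1, k2, k3]

/-- self-adjointness of `F₂₂ X₁X₁ - 2 F₁₂ X₁X₂ + F₁₁ X₂X₂` with only `C¹` coefficients -/
theorem selfadj {X1 X2 : (ℝ × ℝ → ℝ) → (ℝ × ℝ → ℝ)} (hU : IsOpen U) (h1 : VF U J X1)
    (h2 : VF U J X2) (d1 : Der U X1) (d2 : Der U X2)
    (cm : ∀ {f : ℝ × ℝ → ℝ}, Sm 2 U f → ∀ z ∈ U, X1 (X2 f) z = X2 (X1 f) z)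
    (hJ : ContinuousOn J U)
    (hw : ContDiff ℝ 2 w) (hc : HasCompactSupport w) (hs : tsupport w ⊆ U)
    {F22 F12 F11 v : ℝ × ℝ → ℝ} (s22 : Sm 1 U F22) (s12 : Sm 1 U F12) (s11 : Sm 1 U F11)
    (sv : Sm 2 U v) (r1 : ∀ z ∈ U, X1 F22 z = X2 F12 z) (r2 : ∀ z ∈ U, X1 F12 z = X2 F11 z) :
    ∫ z, J z * (v z * (F22 z * X1 (X1 w) z - 2 * F12 z * X1 (X2 w) z + F11 z * X2 (X2 w) z)) =
      ∫ z, J z * (w z *
        (F22 z * X1 (X1 v) z - 2 * F12 z * X1 (X2 v) z + F11 z * X2 (X2 v) z)) := by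
  have sv1 : Sm 1 U v := s21 sv
  have sA : Sm 1 U (fun z => F22 z * v z) := s22.mul sv1
  have sB : Sm 1 U (fun z => F12 z * v z) := s12.mul sv1
  have sC : Sm 1 U (fun z => F11 z * v z) := s11.mul sv1
  obtain ⟨G1, hG1⟩ : ∃ G : ℝ × ℝ → ℝ, G = fun z => F22 z * X1 v z - F12 z * X2 v z := ⟨_, rfl⟩
  obtain ⟨G2, hG2⟩ : ∃ G : ℝ × ℝ → ℝ, G = fun z => F11 z * X2 v z - F12 z * X1 v z := ⟨_, rfl⟩
  have sG1 : Sm 1 U G1 := by
    rw [hG1]; exact (s22.mul (d1.sm1 sv)).sub (s12.mul (d2.sm1 sv))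
  have sG2 : Sm 1 U G2 := by
    rw [hG2]; exact (s11.mul (d2.sm1 sv)).sub (s12.mul (d1.sm1 sv))
  have wc : ∀ {Y : (ℝ × ℝ → ℝ) → (ℝ × ℝ → ℝ)}, VF U J Y → HasCompactSupport (Y w) :=
    fun hY => hc.mono' (subset_trans subset_closure hY.tsupport_sub)
  have ib : ∀ {X Y : (ℝ × ℝ → ℝ) → (ℝ × ℝ → ℝ)} {φ : ℝ × ℝ → ℝ}, VF U J X → VF U J Y →
      Sm 1 U φ → ∫ z, J z * (X (Y w) z * φ z) = -∫ z, J z * (Y w z * X φ z) :=
    fun hX hY sφ => hX.ibp _ _ (hY.c1 hU hw hs) (wc hY) (hY.tsupport_sub.trans hs) sφ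
  have ib0 : ∀ {X : (ℝ × ℝ → ℝ) → (ℝ × ℝ → ℝ)} {φ : ℝ × ℝ → ℝ}, VF U J X →
      Sm 1 U φ → ∫ z, J z * (X w z * φ z) = -∫ z, J z * (w z * X φ z) :=
    fun hX sφ => hX.ibp _ _ (hw.of_le (by norm_num)) hc hs sφ
  have iA := h1.int2 hU h1 hJ hw hc hs sA.continuousOn
  have iB := h1.int2 hU h2 hJ hw hc hs sB.continuousOn
  have iB' := h2.int2 hU h1 hJ hw hc hs sB.continuousOn
  have iC := h2.int2 hU h2 hJ hw hc hs sC.continuousOn
  have kA := ib h1 h1 sA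
  have kB := ib h1 h2 sB
  have kB' := ib h2 h1 sB
  have kC := ib h2 h2 sC
  have jA := h1.int1 hU hJ hw hc hs (d1.sm0 sA).continuousOn
  have jB := h2.int1 hU hJ hw hc hs (d1.sm0 sB).continuousOn
  have jB' := h1.int1 hU hJ hw hc hs (d2.sm0 sB).continuousOn
  have jC := h2.int1 hU hJ hw hc hs (d2.sm0 sC).continuousOn
  have jG1 := h1.int1 hU hJ hw hc hs sG1.continuousOn
  have jG2 := h2.int1 hU hJ hw hc hs sG2.continuousOn
  have kG1 := ib0 h1 sG1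
  have kG2 := ib0 h2 sG2
  have lG1 := int0 hU hJ hw.continuous hc hs (d1.sm0 sG1).continuousOn
  have lG2 := int0 hU hJ hw.continuous hc hs (d2.sm0 sG2).continuousOn
  -- step 1
  have e1 : ∀ z, J z * (v z * (F22 z * X1 (X1 w) z - 2 * F12 z * X1 (X2 w) z +
      F11 z * X2 (X2 w) z)) =
      (J z * (X1 (X1 w) z * (F22 z * v z)) - J z * (X1 (X2 w) z * (F12 z * v z))) +
      (J z * (X2 (X2 w) z * (F11 z * v z)) - J z * (X2 (X1 w) z * (F12 z * v z))) := by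
    intro z
    by_cases hz : z ∈ tsupport w
    · rw [← cm (Sm.of_contDiff hw) z (hs hz)]
      ring
    · have n1 : z ∉ tsupport (X1 w) := fun h => hz (h1.tsupport_sub h)
      have n2 : z ∉ tsupport (X2 w) := fun h => hz (h2.tsupport_sub h)
      rw [h1.zero_off n1, h1.zero_off n2, h2.zero_off n1, h2.zero_off n2]
      ring
  have e2 : ∀ z, (J z * (X1 w z * X2 (fun z => F12 z * v z) z) -
      J z * (X1 w z * X1 (fun z => F22 z * v z) z)) +
      (J z * (X2 w z * X1 (fun z => F12 z * v z) z) -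
      J z * (X2 w z * X2 (fun z => F11 z * v z) z)) =
      -(J z * (X1 w z * G1 z)) + -(J z * (X2 w z * G2 z)) := by
    intro z
    by_cases hz : z ∈ tsupport w
    · have hz' := hs hz
      rw [d2.mul s12 sv1 z hz', d1.mul s22 sv1 z hz', d1.mul s12 sv1 z hz', d2.mul s11 sv1 z hz',
        r1 z hz', r2 z hz', hG1, hG2]
      ring
    · rw [h1.zero_off hz, h2.zero_off hz]
      ring
  have e3 : ∀ z, J z * (w z * X1 G1 z) + J z * (w z * X2 G2 z) = J z * (w z *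
        (F22 z * X1 (X1 v) z - 2 * F12 z * X1 (X2 v) z + F11 z * X2 (X2 v) z)) := by
    intro z
    by_cases hz : z ∈ tsupport w
    · have hz' := hs hz
      have t1 := s22.mul (d1.sm1 sv)
      have t2 := s12.mul (d2.sm1 sv)
      have t3 := s11.mul (d2.sm1 sv)
      have t4 := s12.mul (d1.sm1 sv)
      rw [hG1, hG2, d1.sub t1 t2 hz', d2.sub t3 t4 hz', d1.mul s22 (d1.sm1 sv) z hz',
        d1.mul s12 (d2.sm1 sv) z hz', d2.mul s11 (d2.sm1 sv) z hz',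
        d2.mul s12 (d1.sm1 sv) z hz', r1 z hz', r2 z hz', ← cm sv z hz']
      ring
    · rw [image_eq_zero_of_notMem_tsupport hz]
      ring
  have S1 : ∫ z, J z * (v z * (F22 z * X1 (X1 w) z - 2 * F12 z * X1 (X2 w) z +
      F11 z * X2 (X2 w) z)) =
      ∫ z, (-(J z * (X1 w z * G1 z)) + -(J z * (X2 w z * G2 z))) := by
    simp only [e1]
    rw [← integral_congr_ae (Filter.Eventually.of_forall e2)]
    have a1 := integral_sub iA iB
    have a2 := integral_sub iC iB'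
    have a3 := integral_add (iA.sub iB) (iC.sub iB')
    have b1 := integral_sub jB' jA
    have b2 := integral_sub jB jC
    have b3 := integral_add (jB'.sub jA) (jB.sub jC)
    simp only [Pi.sub_apply] at a3 b3
    rw [a3, a1, a2, b3, b1, b2, kA, kB, kC, kB']
    ring
  have a4 := integral_add jG1.neg jG2.neg
  simp only [Pi.neg_apply] at a4
  rw [S1, a4, integral_neg, integral_neg, kG1, kG2, neg_neg, neg_neg, ← integral_add lG1 lG2]
  exact integral_congr_ae (Filter.Eventually.of_forall e3)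

theorem vfLo {a b : ℝ × ℝ → ℝ} (hU : IsOpen U) (sa : Sm 3 U a) (sb : Sm 3 U b)
    (h0 : ∀ z ∈ U, br a b z ≠ 0) : VF U (br a b) (Lo a b) where
  coef := by
    refine ⟨fun z => dy b z / br a b z, fun z => -dx b z / br a b z,
      s21 ((sb.dy hU).div (Sm.br hU sa sb) h0), s21 ((sb.dx hU).neg.div (Sm.br hU sa sb) h0),
      fun f z => ?_⟩
    have e : Lo a b f z = (dx f z * dy b z - dy f z * dx b z) / br a b z := rfl
    rw [e]
    ring
  ibp := by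
    intro f φ hf hc hs sφ
    have key := integral_mul_br hU hf hc hs (by exact_mod_cast sφ) (s32 sb)
    have e1 : ∀ z, br a b z * (Lo a b f z * φ z) = br f b z * φ z := by
      intro z
      by_cases hz : z ∈ tsupport f
      · have := h0 z (hs hz)
        simp only [Lo]
        field_simp
      · have e : Lo a b f z = br f b z / br a b z := rfl
        have e' : br f b z = 0 := by
          simp only [br, dx_eq_zero_of_notMem hz, dy_eq_zero_of_notMem hz]; ring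
        rw [e, e']
        simp
    have e2 : ∀ z, br a b z * (f z * Lo a b φ z) = f z * br φ b z := by
      intro z
      by_cases hz : z ∈ tsupport f
      · have := h0 z (hs hz)
        simp only [Lo]
        field_simp
      · rw [image_eq_zero_of_notMem_tsupport hz]
        ring
    simp only [e1, e2]
    rw [key, neg_neg]

theorem vfNo {a b : ℝ × ℝ → ℝ} (hU : IsOpen U) (sa : Sm 3 U a) (sb : Sm 3 U b)
    (h0 : ∀ z ∈ U, br a b z ≠ 0) : VF U (br a b) (No a b) where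
  coef := by
    refine ⟨fun z => -dy a z / br a b z, fun z => dx a z / br a b z,
      s21 ((sa.dy hU).neg.div (Sm.br hU sa sb) h0), s21 ((sa.dx hU).div (Sm.br hU sa sb) h0),
      fun f z => ?_⟩
    have e : No a b f z = (dx a z * dy f z - dy a z * dx f z) / br a b z := rfl
    rw [e]
    ring
  ibp := by
    intro f φ hf hc hs sφ
    have key := integral_mul_br hU hf hc hs (by exact_mod_cast sφ) (s32 sa)
    have e1 : ∀ z, br a b z * (No a b f z * φ z) = -(br f a z * φ z) := by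
      intro z
      by_cases hz : z ∈ tsupport f
      · have := h0 z (hs hz)
        rw [br_antisymm (f := f)]
        simp only [No]
        field_simp
      · have e : No a b f z = br a f z / br a b z := rfl
        have e' : br a f z = 0 := by
          simp only [br, dx_eq_zero_of_notMem hz, dy_eq_zero_of_notMem hz]; ring
        have e'' : br f a z = 0 := by rw [br_antisymm, e', neg_zero]
        rw [e, e', e'']
        simp
    have e2 : ∀ z, br a b z * (f z * No a b φ z) = -(f z * br φ a z) := by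
      intro z
      by_cases hz : z ∈ tsupport f
      · have := h0 z (hs hz)
        rw [br_antisymm (f := φ)]
        simp only [No]
        field_simp
      · rw [image_eq_zero_of_notMem_tsupport hz]
        ring
    simp only [e1, e2]
    rw [integral_neg, integral_neg, key, neg_neg]

theorem smg {T : Tri} (hU : IsOpen U) (h0 : ∀ z ∈ U, br T.a T.b z ≠ 0) :
    Sm 2 U (g11 T) ∧ Sm 2 U (g12 T) ∧ Sm 2 U (g22 T) := by
  have sa : Sm 3 U T.a := cd3 T.ha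
  have sb : Sm 3 U T.b := cd3 T.hb
  have sJ : Sm 2 U (br T.a T.b) := Sm.br hU sa sb
  have hn : ∀ z ∈ U, br T.a T.b z ^ 2 ≠ 0 := fun z hz => pow_ne_zero 2 (h0 z hz)
  exact ⟨(((sb.dy hU).pow 2).add ((sb.dx hU).pow 2)).div (sJ.pow 2) hn,
    ((((sb.dy hU).mul (sa.dy hU)).add ((sb.dx hU).mul (sa.dx hU))).neg).div (sJ.pow 2) hn,
    (((sa.dy hU).pow 2).add ((sa.dx hU).pow 2)).div (sJ.pow 2) hn⟩

end PairAux3

theorem weak_form (T T' : Tri) (ψ ψ' : ℝ × ℝ → ℝ) (hψ : ContDiff ℝ ∞ ψ) (hψ' : ContDiff ℝ ∞ ψ')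
    (hI : IsImm ψ T) (hI' : IsImm ψ' T')
    (h0 : ∀ z ∈ disc 2, br (T.mean T').a (T.mean T').b z ≠ 0) (w : ℝ × ℝ → ℝ)
    (hw : ContDiff ℝ 2 w) (hc : HasCompactSupport w) (hs : tsupport w ⊆ disc 2) :
    ∫ z, br (T.mean T').a (T.mean T').b z * ((T.h z - T'.h z) * Mo (T.mean T') w z) =
      -(1 / 2) * ∫ z, br (T.mean T').a (T.mean T').b z *
        ((Real.exp (2 * ψ z) - Real.exp (2 * ψ' z)) *
          (g11 (T.mean T') z * No (T.mean T').a (T.mean T').b (No (T.mean T').a (T.mean T').b w) z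
           - 2 * g12 (T.mean T') z * Lo (T.mean T').a (T.mean T').b
              (No (T.mean T').a (T.mean T').b w) z
           + g22 (T.mean T') z * Lo (T.mean T').a (T.mean T').b
              (Lo (T.mean T').a (T.mean T').b w) z)) := by
  have hU := isOpen_disc 2
  have key := Mo_diff T T' ψ ψ' hψ hψ' hI hI' h0
  have sv : Sm 3 (disc 2) (fun w => T.h w - T'.h w) := cd3 (T.hh.sub T'.hh)
  have se : Sm 2 (disc 2) (fun w => Real.exp (2 * ψ w) - Real.exp (2 * ψ' w)) :=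
    cdi (((contDiff_const.mul hψ).exp).sub ((contDiff_const.mul hψ').exp))
  generalize hTm : T.mean T' = Q at *
  have sa : Sm 3 (disc 2) Q.a := cd3 Q.ha
  have sb : Sm 3 (disc 2) Q.b := cd3 Q.hb
  have sh : Sm 3 (disc 2) Q.h := cd3 Q.hh
  have sJ : Sm 2 (disc 2) (br Q.a Q.b) := Sm.br hU sa sb
  have d1 := derLo hU sa sb h0
  have d2 := derNo hU sa sb h0
  have v1 := vfLo hU sa sb h0
  have v2 := vfNo hU sa sb h0
  have sp : Sm 2 (disc 2) (pf Q) := d1.sm2 sh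
  have sP : Sm 2 (disc 2) (Pf Q) := d2.sm2 sh
  have cm : ∀ {f : ℝ × ℝ → ℝ}, Sm 2 (disc 2) f → ∀ z ∈ disc 2,
      Lo Q.a Q.b (No Q.a Q.b f) z = No Q.a Q.b (Lo Q.a Q.b f) z :=
    fun sf z hz => Lo_No_comm hU (s32 sa) (s32 sb) sf h0 hz
  have pP : ∀ z ∈ disc 2, Lo Q.a Q.b (Pf Q) z = No Q.a Q.b (pf Q) z :=
    fun z hz => cm (s32 sh) z hz
  have a1 : ∀ z ∈ disc 2, Lo Q.a Q.b (No Q.a Q.b (Pf Q)) z = No Q.a Q.b (Lo Q.a Q.b (Pf Q)) z :=
    cm sP
  have a2 : ∀ z ∈ disc 2, Lo Q.a Q.b (Lo Q.a Q.b (Pf Q)) z =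
      No Q.a Q.b (Lo Q.a Q.b (pf Q)) z := by
    intro z hz
    rw [d1.cg _ _ pP z hz, cm sp z hz]
  obtain ⟨sg1, sg2, sg3⟩ := smg (T := Q) hU h0
  have c1 := selfadj hU v1 v2 d1 d2 cm sJ.continuousOn hw hc hs
    (d2.sm1 sP) (d1.sm1 sP) (d1.sm1 sp) (s32 sv) a1 a2
  have c2 := comb hU v1 v2 d1 d2 cm sJ.continuousOn hw hc hs
    (se.mul sg3) (se.mul sg2) (se.mul sg1)
  have e2 : ∀ z, br Q.a Q.b z * ((Real.exp (2 * ψ z) - Real.exp (2 * ψ' z)) *
          (g11 Q z * No Q.a Q.b (No Q.a Q.b w) z - 2 * g12 Q z * Lo Q.a Q.b (No Q.a Q.b w) z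
           + g22 Q z * Lo Q.a Q.b (Lo Q.a Q.b w) z)) =
      br Q.a Q.b z * ((Real.exp (2 * ψ z) - Real.exp (2 * ψ' z)) * g22 Q z *
          Lo Q.a Q.b (Lo Q.a Q.b w) z -
        2 * ((Real.exp (2 * ψ z) - Real.exp (2 * ψ' z)) * g12 Q z) *
          Lo Q.a Q.b (No Q.a Q.b w) z +
        (Real.exp (2 * ψ z) - Real.exp (2 * ψ' z)) * g11 Q z *
          No Q.a Q.b (No Q.a Q.b w) z) := by
    intro z
    ring
  simp only [e2]
  have c1' : ∫ z, br Q.a Q.b z * ((T.h z - T'.h z) * Mo Q w z) =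
      ∫ z, br Q.a Q.b z * (w z * Mo Q (fun w => T.h w - T'.h w) z) := c1
  rw [c1', c2, ← integral_const_mul]
  refine integral_congr_ae (Filter.Eventually.of_forall fun z => ?_)
  simp only
  by_cases hz : z ∈ tsupport w
  · have hz' := hs hz
    rw [key z hz']
    ring
  · rw [image_eq_zero_of_notMem_tsupport hz]
    ring

namespace PairAux3

open BdAux3 in
theorem LN_bd (k : ℕ) (C c : ℝ) (hC : 0 < C) (hc : 0 < c) : ∃ D : ℝ, 0 < D ∧
    ∀ (U : Set (ℝ × ℝ)) (a b f : ℝ × ℝ → ℝ) (E : ℝ), IsOpen U → Sm (k + 1) U a →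
      Sm (k + 1) U b → Sm (k + 1) U f →
      Bd U (k + 1) C a → Bd U (k + 1) C b → (∀ z ∈ U, c ≤ br a b z) → Bd U (k + 1) E f →
      Bd U k (D * E) (Lo a b f) ∧ Bd U k (D * E) (No a b f) := by
  obtain ⟨D, hD, h⟩ := div' k (2 * (2 ^ k * C * C)) c hc
  refine ⟨D * (2 * (2 ^ k * C)), by positivity, fun U a b f E hU sa sb sf ha hb h0 hf => ?_⟩
  have hJ := Bd_br hU sa sb ha hb
  have h1 := h U _ _ _ hU (Sm.br hU sf sb) (Sm.br hU sa sb) (Bd_br hU sf sb hf hb) hJ h0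
  have h2 := h U _ _ _ hU (Sm.br hU sa sf) (Sm.br hU sa sb) (Bd_br hU sa sf ha hf) hJ h0
  constructor
  · refine Bd.mono h1 subset_rfl (le_of_eq (by ring))
  · refine Bd.mono h2 subset_rfl (le_of_eq (by ring))

theorem g_bd (C c : ℝ) (hC : 0 < C) (hc : 0 < c) : ∃ D : ℝ, 0 < D ∧
    ∀ (U : Set (ℝ × ℝ)) (T : Tri), IsOpen U → Bd U 3 C T.a → Bd U 3 C T.b →
      (∀ z ∈ U, c ≤ br T.a T.b z) →
      Bd U 2 D (g11 T) ∧ Bd U 2 D (g12 T) ∧ Bd U 2 D (g22 T) := by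
  obtain ⟨D, hD, h⟩ := Bd_div 2 (8 * C ^ 2 + 256 * C ^ 4) (c * c) (by positivity)
  refine ⟨D, hD, fun U T hU ha hb h0 => ?_⟩
  have sa : Sm 3 U T.a := cd3 T.ha
  have sb : Sm 3 U T.b := cd3 T.hb
  have sJ : Sm 2 U (br T.a T.b) := Sm.br hU sa sb
  have hJ := Bd_br hU sa sb ha hb
  have hJJ := (Bd_mul hU sJ sJ hJ hJ).mono (D := 8 * C ^ 2 + 256 * C ^ 4) subset_rfl
    (by have : 0 ≤ C ^ 2 := by positivity
        nlinarith)
  have hcc : ∀ z ∈ U, c * c ≤ br T.a T.b z * br T.a T.b z := fun z hz =>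
    mul_le_mul (h0 z hz) (h0 z hz) hc.le (hc.le.trans (h0 z hz))
  have q : ∀ {p q r s : ℝ × ℝ → ℝ}, Sm 2 U p → Sm 2 U q → Sm 2 U r → Sm 2 U s → Bd U 2 C p →
      Bd U 2 C q → Bd U 2 C r → Bd U 2 C s → Bd U 2 (8 * C ^ 2 + 256 * C ^ 4)
        (fun z => p z * q z + r z * s z) := by
    intro p q r s sp sq sr ss hp hq hr hs
    refine (Bd_add hU (sp.mul sq) (sr.mul ss) (Bd_mul hU sp sq hp hq)
      (Bd_mul hU sr ss hr hs)).mono subset_rfl ?_
    have : 0 ≤ C ^ 4 := by positivity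
    nlinarith
  have bx : Sm 2 U (dx T.b) := sb.dx hU
  have by' : Sm 2 U (dy T.b) := sb.dy hU
  have ax : Sm 2 U (dx T.a) := sa.dx hU
  have ay : Sm 2 U (dy T.a) := sa.dy hU
  have e2 : ∀ x : ℝ, x ^ 2 = x * x := fun x => by ring
  refine ⟨?_, ?_, ?_⟩
  · refine Bd.congr hU (fun z hz => ?_) (h U _ _ hU ((by'.mul by').add (bx.mul bx)) (sJ.mul sJ)
      (q by' by' bx bx hb.dy hb.dy hb.dx hb.dx) hJJ hcc)
    simp only [g11, e2]
  · refine Bd.congr hU (fun z hz => ?_) (h U _ _ hU ((by'.mul ay).add (bx.mul ax)).neg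
      (sJ.mul sJ) (q by' ay bx ax hb.dy ha.dy hb.dx ha.dx).neg hJJ hcc)
    simp only [g12, e2]
  · refine Bd.congr hU (fun z hz => ?_) (h U _ _ hU ((ay.mul ay).add (ax.mul ax)) (sJ.mul sJ)
      (q ay ay ax ax ha.dy ha.dy ha.dx ha.dx) hJJ hcc)
    simp only [g22, e2]

/-- `J * Op v = J0 * Mo v` and the value of `Mo v` -/
theorem Op_val {M ε C0 j0 : ℝ} (hj : 0 < j0) (T T' : Tri) (ψ ψ' : ℝ × ℝ → ℝ)
    (hψ : ContDiff ℝ ∞ ψ) (hψ' : ContDiff ℝ ∞ ψ')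
    (hI : IsImm ψ T) (hI' : IsImm ψ' T') (hB : Basic M ε C0 j0 (T.mean T')) :
    ∀ z ∈ disc 2, br (T.mean T').a (Pf (T.mean T')) z *
        Op (T.mean T').a (Pf (T.mean T')) (kf (T.mean T')) (fun w => T.h w - T'.h w) z =
      br (T.mean T').a (T.mean T').b z *
      (-(1 / 2) * (No (T.mean T').a (T.mean T').b (No (T.mean T').a (T.mean T').b
          (fun w => (Real.exp (2 * ψ w) - Real.exp (2 * ψ' w)) * g11 (T.mean T') w)) z
        - 2 * Lo (T.mean T').a (T.mean T').b (No (T.mean T').a (T.mean T').b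
          (fun w => (Real.exp (2 * ψ w) - Real.exp (2 * ψ' w)) * g12 (T.mean T') w)) z
        + Lo (T.mean T').a (T.mean T').b (Lo (T.mean T').a (T.mean T').b
          (fun w => (Real.exp (2 * ψ w) - Real.exp (2 * ψ' w)) * g22 (T.mean T') w)) z)) := by
  intro z hz
  have h0 : ∀ z ∈ disc 2, br (T.mean T').a (T.mean T').b z ≠ 0 := fun z hz =>
    ((by norm_num : (0 : ℝ) < 9 / 10).trans_le (hB.J0l z hz)).ne'
  have hJ : ∀ z ∈ disc 2, br (T.mean T').a (Pf (T.mean T')) z ≠ 0 := fun z hz =>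
    (hj.trans_le (hB.reg.J z hz)).ne'
  have e1 := Op_eq_Mo (T.mean T') (isOpen_disc 2) h0 hJ (fun w => T.h w - T'.h w)
    (cd3 (T.hh.sub T'.hh)) z hz
  rw [e1, Mo_diff T T' ψ ψ' hψ hψ' hI hI' h0 z hz]

end PairAux3

theorem source_bound (M ε C0 j0 : ℝ) (hM : 1 ≤ M) (hε : 0 < ε) (hC : 0 < C0) (hj : 0 < j0) :
    ∃ C : ℝ, 0 < C ∧ ∀ (T T' : Tri) (ψ ψ' : ℝ × ℝ → ℝ) (S0 : ℝ), ContDiff ℝ ∞ ψ →
      ContDiff ℝ ∞ ψ' → IsImm ψ T → IsImm ψ' T' → Basic M ε C0 j0 (T.mean T') →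
      Bd (disc 2) 2 S0 (fun z => Real.exp (2 * ψ z) - Real.exp (2 * ψ' z)) →
      ∀ z ∈ disc 2, |Op (T.mean T').a (Pf (T.mean T')) (kf (T.mean T'))
        (fun w => T.h w - T'.h w) z| ≤ C * S0 := by
  obtain ⟨G, hG, hg⟩ := g_bd C0 (9 / 10) hC (by norm_num)
  obtain ⟨D1, hD1, h1⟩ := LN_bd 1 C0 (9 / 10) hC (by norm_num)
  obtain ⟨D0, hD0, h2⟩ := LN_bd 0 C0 (9 / 10) hC (by norm_num)
  refine ⟨11 / 10 * 8 * D0 * D1 * G / j0, by positivity,
    fun T T' ψ ψ' S0 hψ hψ' hI hI' hB hw z hz => ?_⟩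
  have hU := isOpen_disc 2
  have key := Op_val hj T T' ψ ψ' hψ hψ' hI hI' hB z hz
  have hS0 : 0 ≤ S0 := (abs_nonneg _).trans (hw.bound zero_mem_disc2)
  have se : Sm 2 (disc 2) (fun w => Real.exp (2 * ψ w) - Real.exp (2 * ψ' w)) :=
    cdi (((contDiff_const.mul hψ).exp).sub ((contDiff_const.mul hψ').exp))
  have hJz := hB.reg.J z hz
  have hJ0 := hB.J0l
  have hJ0u := hB.J0u z hz
  have ba := hB.bda
  have bb := hB.bdb
  generalize Op (T.mean T').a (Pf (T.mean T')) (kf (T.mean T'))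
        (fun w => T.h w - T'.h w) z = O at *
  generalize br (T.mean T').a (Pf (T.mean T')) z = J at *
  generalize hTm : T.mean T' = Q at *
  have h0 : ∀ z ∈ disc 2, br Q.a Q.b z ≠ 0 := fun z hz =>
    ((by norm_num : (0 : ℝ) < 9 / 10).trans_le (hJ0 z hz)).ne'
  have sa : Sm 3 (disc 2) Q.a := cd3 Q.ha
  have sb : Sm 3 (disc 2) Q.b := cd3 Q.hb
  have d1 := derLo hU sa sb h0
  have d2 := derNo hU sa sb h0
  obtain ⟨sg1, sg2, sg3⟩ := smg (T := Q) hU h0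
  obtain ⟨b1, b2, b3⟩ := hg (disc 2) Q hU ba bb hJ0
  have c1 := Bd_mul hU se sg1 hw b1
  have c2 := Bd_mul hU se sg2 hw b2
  have c3 := Bd_mul hU se sg3 hw b3
  have ba2 := ba.of_le (m := 2) (by norm_num)
  have bb2 := bb.of_le (m := 2) (by norm_num)
  have ba1 := ba.of_le (m := 1) (by norm_num)
  have bb1 := bb.of_le (m := 1) (by norm_num)
  have e1 := (h1 (disc 2) Q.a Q.b _ _ hU (s32 sa) (s32 sb) (se.mul sg1) ba2 bb2 hJ0 c1).2
  have e2 := (h1 (disc 2) Q.a Q.b _ _ hU (s32 sa) (s32 sb) (se.mul sg2) ba2 bb2 hJ0 c2).2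
  have e3 := (h1 (disc 2) Q.a Q.b _ _ hU (s32 sa) (s32 sb) (se.mul sg3) ba2 bb2 hJ0 c3).1
  have f1 := (h2 (disc 2) Q.a Q.b _ _ hU (s31 sa) (s31 sb) (d2.sm1 (se.mul sg1)) ba1 bb1 hJ0
    e1).2 z hz
  have f2 := (h2 (disc 2) Q.a Q.b _ _ hU (s31 sa) (s31 sb) (d2.sm1 (se.mul sg2)) ba1 bb1 hJ0
    e2).1 z hz
  have f3 := (h2 (disc 2) Q.a Q.b _ _ hU (s31 sa) (s31 sb) (d1.sm1 (se.mul sg3)) ba1 bb1 hJ0
    e3).1 z hz
  generalize No Q.a Q.b (No Q.a Q.b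
    (fun w => (Real.exp (2 * ψ w) - Real.exp (2 * ψ' w)) * g11 Q w)) z = A1 at *
  generalize Lo Q.a Q.b (No Q.a Q.b
    (fun w => (Real.exp (2 * ψ w) - Real.exp (2 * ψ' w)) * g12 Q w)) z = A2 at *
  generalize Lo Q.a Q.b (Lo Q.a Q.b
    (fun w => (Real.exp (2 * ψ w) - Real.exp (2 * ψ' w)) * g22 Q w)) z = A3 at *
  have hJ0z := hJ0 z hz
  generalize br Q.a Q.b z = J0 at *
  have hJpos : 0 < J := hj.trans_le hJz
  have hB1 : |A1 - 2 * A2 + A3| ≤ 4 * (D0 * (D1 * (2 ^ 2 * S0 * G))) := by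
    rw [abs_le] at *
    constructor <;> linarith [f1.1, f1.2, f2.1, f2.2, f3.1, f3.2]
  have hB2 : |J * O| ≤ 11 / 10 * (8 * (D0 * D1 * G * S0)) := by
    rw [key, abs_mul, abs_mul, abs_of_pos (by linarith : 0 < J0)]
    have e : |(-(1 / 2) : ℝ)| = 1 / 2 := by norm_num
    rw [e]
    have h8 : 1 / 2 * |A1 - 2 * A2 + A3| ≤ 8 * (D0 * D1 * G * S0) := by nlinarith
    exact mul_le_mul hJ0u h8 (by positivity) (by norm_num)
  rw [abs_mul, abs_of_pos hJpos] at hB2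
  have hB3 : j0 * |O| ≤ 11 / 10 * (8 * (D0 * D1 * G * S0)) :=
    (mul_le_mul_of_nonneg_right hJz (abs_nonneg _)).trans hB2
  have hB4 : |O| ≤ (11 / 10 * (8 * (D0 * D1 * G * S0))) / j0 := by
    rw [le_div_iff₀ hj]
    linarith
  refine hB4.trans (le_of_eq (by ring))

theorem source_zero (M ε C0 j0 : ℝ) (hM : 1 ≤ M) (hε : 0 < ε) (hC : 0 < C0) (hj : 0 < j0)
    (T T' : Tri) (ψ ψ' : ℝ × ℝ → ℝ) (hψ : ContDiff ℝ ∞ ψ) (hψ' : ContDiff ℝ ∞ ψ')
    (hI : IsImm ψ T) (hI' : IsImm ψ' T') (hB : Basic M ε C0 j0 (T.mean T')) (b : ℝ) (hb : 0 ≤ b)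
    (h : ∀ z, z ∉ disc b → Real.exp (2 * ψ z) - Real.exp (2 * ψ' z) = 0) :
    ∀ z ∈ disc 2, z ∉ disc b → Op (T.mean T').a (Pf (T.mean T')) (kf (T.mean T'))
        (fun w => T.h w - T'.h w) z = 0 := by
  intro z hz hzb
  have hU := isOpen_disc 2
  have key := Op_val hj T T' ψ ψ' hψ hψ' hI hI' hB z hz
  have se : Sm 2 (disc 2) (fun w => Real.exp (2 * ψ w) - Real.exp (2 * ψ' w)) :=
    cdi (((contDiff_const.mul hψ).exp).sub ((contDiff_const.mul hψ').exp))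
  have hJz : br (T.mean T').a (Pf (T.mean T')) z ≠ 0 := (hj.trans_le (hB.reg.J z hz)).ne'
  have hJ0 := hB.J0l
  generalize Op (T.mean T').a (Pf (T.mean T')) (kf (T.mean T'))
        (fun w => T.h w - T'.h w) z = O at *
  generalize br (T.mean T').a (Pf (T.mean T')) z = J at *
  generalize hTm : T.mean T' = Q at *
  have h0 : ∀ z ∈ disc 2, br Q.a Q.b z ≠ 0 := fun z hz =>
    ((by norm_num : (0 : ℝ) < 9 / 10).trans_le (hJ0 z hz)).ne'
  have sa : Sm 3 (disc 2) Q.a := cd3 Q.ha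
  have sb : Sm 3 (disc 2) Q.b := cd3 Q.hb
  have d1 := derLo hU sa sb h0
  have d2 := derNo hU sa sb h0
  obtain ⟨sg1, sg2, sg3⟩ := smg (T := Q) hU h0
  -- the open set on which everything vanishes
  obtain ⟨S, hS⟩ : ∃ S : Set (ℝ × ℝ), S = {w | w ∈ disc 2 ∧ b ^ 2 < w.1 ^ 2 + w.2 ^ 2} := ⟨_, rfl⟩
  have hSo : IsOpen S := by
    rw [hS]
    have h2 : IsOpen {w : ℝ × ℝ | b ^ 2 < w.1 ^ 2 + w.2 ^ 2} :=
      isOpen_lt continuous_const (by fun_prop)
    exact hU.inter h2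
  have hS2 : S ⊆ disc 2 := by rw [hS]; exact fun w hw => hw.1
  have e1 := derLo hSo (sa.mono hS2) (sb.mono hS2) (fun z hz => h0 z (hS2 hz))
  have e2 := derNo hSo (sa.mono hS2) (sb.mono hS2) (fun z hz => h0 z (hS2 hz))
  have hzero : ∀ (g : ℝ × ℝ → ℝ), ∀ w ∈ S,
      (Real.exp (2 * ψ w) - Real.exp (2 * ψ' w)) * g w = (fun _ => (0 : ℝ)) w := by
    intro g w hw
    rw [hS] at hw
    have : w ∉ disc b := by
      unfold disc
      simp only [Set.mem_ofPred_eq, not_lt]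
      exact hw.2.le
    rw [h w this, zero_mul]
  have van : ∀ (D E : (ℝ × ℝ → ℝ) → (ℝ × ℝ → ℝ)) (g : ℝ × ℝ → ℝ), Der S D → Der S E →
      Der (disc 2) D → Der (disc 2) E → Sm 2 (disc 2) g →
      D (E (fun w => (Real.exp (2 * ψ w) - Real.exp (2 * ψ' w)) * g w)) z = 0 := by
    intro D E g dD dE dD' dE' sg
    have hS0 : ∀ w ∈ S, D (E (fun w => (Real.exp (2 * ψ w) - Real.exp (2 * ψ' w)) * g w)) w
        = 0 := by
      intro w hw
      rw [dD.cg2 dE _ _ (hzero g) hw,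
        dD.cg _ (fun _ => 0) (fun w hw => dE.zero hw) w hw, dD.zero hw]
    have hcont : ContinuousAt
        (D (E (fun w => (Real.exp (2 * ψ w) - Real.exp (2 * ψ' w)) * g w))) z :=
      ((dD'.sm0 (dE'.sm1 (se.mul sg))).continuousOn z hz).continuousAt (hU.mem_nhds hz)
    obtain ⟨σ, hσ1, hσ2⟩ : ∃ σ : ℝ, σ ^ 2 = 1 ∧ 0 ≤ σ * z.1 := by
      rcases le_total 0 z.1 with h | h
      · exact ⟨1, by norm_num, by linarith⟩
      · exact ⟨-1, by norm_num, by linarith⟩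
    have hγ : ContinuousAt (fun t : ℝ => ((z.1 + t * σ, z.2) : ℝ × ℝ)) 0 := by fun_prop
    have hγ0 : ((z.1 + 0 * σ, z.2) : ℝ × ℝ) = z := by simp
    have hlim : Filter.Tendsto (fun t : ℝ => D (E (fun w => (Real.exp (2 * ψ w) -
        Real.exp (2 * ψ' w)) * g w)) (z.1 + t * σ, z.2)) (nhdsWithin 0 (Ioi 0))
        (nhds (D (E (fun w => (Real.exp (2 * ψ w) - Real.exp (2 * ψ' w)) * g w)) z)) := by
      have h1 : Filter.Tendsto (fun t : ℝ => ((z.1 + t * σ, z.2) : ℝ × ℝ)) (nhds 0) (nhds z) := by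
        have := hγ.tendsto
        rwa [hγ0] at this
      exact (hcont.tendsto.comp h1).mono_left nhdsWithin_le_nhds
    have hev : ∀ᶠ t : ℝ in nhdsWithin 0 (Ioi 0), D (E (fun w => (Real.exp (2 * ψ w) -
        Real.exp (2 * ψ' w)) * g w)) (z.1 + t * σ, z.2) = 0 := by
      have h1 : Filter.Tendsto (fun t : ℝ => ((z.1 + t * σ, z.2) : ℝ × ℝ))
          (nhdsWithin 0 (Ioi 0)) (nhds z) := by
        have := hγ.tendsto
        rw [hγ0] at this
        exact this.mono_left nhdsWithin_le_nhds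
      filter_upwards [h1.eventually (hU.mem_nhds hz), self_mem_nhdsWithin] with t ht ht0
      apply hS0
      rw [hS]
      refine ⟨ht, ?_⟩
      have hzb' : b ^ 2 ≤ z.1 ^ 2 + z.2 ^ 2 := by
        unfold disc at hzb
        simpa only [Set.mem_ofPred_eq, not_lt] using hzb
      have ht0' : 0 < t := ht0
      have : 0 < t ^ 2 := by positivity
      have h3 : (z.1 + t * σ) ^ 2 = z.1 ^ 2 + 2 * t * (σ * z.1) + t ^ 2 * σ ^ 2 := by ring
      simp only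
      rw [h3, hσ1]
      have h4 : 0 ≤ 2 * t * (σ * z.1) := by positivity
      linarith
    have hlim2 : Filter.Tendsto (fun t : ℝ => D (E (fun w => (Real.exp (2 * ψ w) -
        Real.exp (2 * ψ' w)) * g w)) (z.1 + t * σ, z.2)) (nhdsWithin 0 (Ioi 0)) (nhds 0) :=
      (tendsto_const_nhds).congr' (hev.mono fun t ht => ht.symm)
    exact tendsto_nhds_unique hlim hlim2
  rw [van _ _ _ e2 e2 d2 d2 sg1, van _ _ _ e1 e2 d1 d2 sg2, van _ _ _ e1 e1 d1 d1 sg3] at key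
  have : J * O = 0 := by rw [key]; ring
  exact (mul_eq_zero.mp this).resolve_left hJz

end Vale.Agent.P229.C3
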