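import Vale.Agent.P229.C3.KeyD
import Vale.Agent.P229.C3.Pair
import Vale.Agent.P229.KeyE

/-!
# P229: the contradiction for one pair, and numerics
-/

namespace Vale.Agent.P229.C3

open MeasureTheory Set
open scoped ContDiff

namespace KeyAux



instance : Nonempty Tri := ⟨⟨0, 0, 0, contDiff_const, contDiff_const, contDiff_const⟩⟩

/-- conclusion of `bump_bound` -/
def BBProp (C0 j0 ρ0 κ0 C1 C b0 : ℝ) : Prop := ∀ (u P κ v : ℝ × ℝ → ℝ) (b d S : ℝ),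
      0 < b → b < b0 → 0 ≤ d → 0 ≤ S → Reg C0 j0 u P κ → Geo ρ0 κ0 u P κ → ContDiff ℝ 3 v →
      (∀ z ∈ disc 1, z ∉ disc b → Op u P κ v z = 0) →
      (∫ z in disc b, Op u P κ v z ^ 2 ≤ S ^ 2) →
      (∫ z in {z | z ∈ disc 1 ∧ κ0 / 75 < |P z|}, (v z ^ 2 + dx v z ^ 2 + dy v z ^ 2) ≤ d ^ 2) →
      (∫ z in disc (C1 * b), v z ^ 2 ≤ C * (b ^ 4 * S ^ 2 + d ^ 2 / b ^ 2)) ∧
      (∫ z in {z | z ∈ disc (1 / 10) ∧ z ∉ disc (C1 * b)}, v z ^ 2 ≤ C * (d ^ 2 / b ^ 2))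

/-- conclusion of `bump_contra` -/
def BCProp (M ε C0 j0 κ0 C1 c C b0 : ℝ) : Prop := ∀ (T : Tri) (e0 : ℝ) (v w0 : ℝ × ℝ → ℝ)
      (b β amp S0 V1 V2 : ℝ), Basic M ε C0 j0 T → Nrm M ε e0 T → 99 / 100 ≤ e0 → e0 ≤ 1 →
      kf T 0 ≤ -κ0 ^ 2 → ContDiff ℝ 3 v → BumpDiff amp S0 b β w0 →
      (∀ w : ℝ × ℝ → ℝ, ContDiff ℝ 2 w → HasCompactSupport w → tsupport w ⊆ disc 2 →
        ∫ z, br T.a T.b z * (v z * Mo T w z) =
          -(1 / 2) * ∫ z, br T.a T.b z * (w0 z *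
            (g11 T z * No T.a T.b (No T.a T.b w) z - 2 * g12 T z * Lo T.a T.b (No T.a T.b w) z
              + g22 T z * Lo T.a T.b (Lo T.a T.b w) z))) →
      0 < b → b < b0 → 0 < β → C * b ^ 2 ≤ β / b → 0 ≤ amp → 0 ≤ V1 → 0 ≤ V2 →
      (∫ z in disc (C1 * b), v z ^ 2 ≤ V1 ^ 2) →
      (∫ z in {z | z ∈ disc (1 / 10) ∧ z ∉ disc (C1 * b)}, v z ^ 2 ≤ V2 ^ 2) →
      c * amp * (β / b) ^ 3 ≤ C * (b ^ 3 * V1 + V2)

/-- from the smallness `d` away from the bump to the final inequality -/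
theorem pair_final {C0 j0 k1 n1 g t1 κ0 C1 CB CK cK CS b b0 M ε e0 d β amp S0 : ℝ}
    {T T' : Tri} {ψ ψ' Ps : ℝ × ℝ → ℝ}
    (hbb : BBProp C0 j0 (ε / (2 * M)) κ0 C1 CB b0) (hbc : BCProp M ε C0 j0 κ0 C1 cK CK b0)
    (hCS : 0 ≤ CS) (hCB : 0 ≤ CB) (hS0 : 0 ≤ S0) (hd : 0 ≤ d) (hamp : 0 ≤ amp)
    (hψ : ContDiff ℝ ∞ ψ) (hψ' : ContDiff ℝ ∞ ψ') (hI : IsImm ψ T) (hI' : IsImm ψ' T')
    (hNm : Nrm M ε e0 (T.mean T')) (hBm : Basic M ε C0 j0 (T.mean T')) (he : 99 / 100 ≤ e0)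
    (he1 : e0 ≤ 1)
    (hsrc : ∀ z ∈ disc 2, |Op (T.mean T').a (Pf (T.mean T')) (kf (T.mean T'))
        (fun w => T.h w - T'.h w) z| ≤ CS * S0)
    (hop : ∀ z ∈ disc 2, z ∉ disc b → Op (T.mean T').a (Pf (T.mean T')) (kf (T.mean T'))
        (fun w => T.h w - T'.h w) z = 0)
    (MD : MeanData C0 j0 k1 n1 g t1 κ0 (ε / (2 * M)) b Ps (T.mean T').a (Pf (T.mean T'))
      (kf (T.mean T')) (fun w => T.h w - T'.h w))
    (hBD : BumpDiff amp S0 b β (fun z => Real.exp (2 * ψ z) - Real.exp (2 * ψ' z)))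
    (hb : 0 < b) (hbb0 : b < b0) (hb1 : b ≤ 1) (hβ : 0 < β) (hCKb : CK * b ^ 2 ≤ β / b)
    (hsmall : ∫ z in {z | z ∈ disc 1 ∧ κ0 / 75 < |Pf (T.mean T') z|},
      ((T.h z - T'.h z) ^ 2 + dx (fun w => T.h w - T'.h w) z ^ 2
        + dy (fun w => T.h w - T'.h w) z ^ 2) ≤ d ^ 2) :
    cK * amp * (β / b) ^ 3 ≤ CK * (b ^ 3 * (Real.sqrt CB * (b ^ 2 * (2 * (CS * S0) * b) + d / b))
      + Real.sqrt CB * (d / b)) := by
  have hv : ContDiff ℝ 3 (fun w => T.h w - T'.h w) := T.hh.sub T'.hh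
  have hS : ∫ z in disc b, Op (T.mean T').a (Pf (T.mean T')) (kf (T.mean T'))
      (fun w => T.h w - T'.h w) z ^ 2 ≤ (2 * (CS * S0) * b) ^ 2 := by
    have h1 : ∀ z ∈ disc b, |Op (T.mean T').a (Pf (T.mean T')) (kf (T.mean T'))
      (fun w => T.h w - T'.h w) z ^ 2| ≤ (CS * S0) ^ 2 := by
      intro z hz
      have h2 := hsrc z (disc_mono hb.le (by linarith) hz)
      rw [abs_pow]
      exact pow_le_pow_left₀ (abs_nonneg _) h2 2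
    have := setIntegral_disc_le (K := (CS * S0) ^ 2) hb.le (by positivity) h1
    refine this.trans (le_of_eq ?_)
    ring
  have key := hbb _ _ _ _ b d (2 * (CS * S0) * b) hb hbb0 hd (by positivity) hBm.reg MD.geo hv
    (fun z hz hz' => hop z (disc_mono (by norm_num) (by norm_num) hz) hz') hS hsmall
  have sB : Real.sqrt CB ^ 2 = CB := Real.sq_sqrt hCB
  have sB0 : 0 ≤ Real.sqrt CB := Real.sqrt_nonneg _
  have hdb : 0 ≤ d / b := by positivity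
  have hk0 : kf (T.mean T') 0 ≤ -κ0 ^ 2 := MD.geo.kneg 0 (by simp [disc])
  have h0 : ∀ z ∈ disc 2, br (T.mean T').a (T.mean T').b z ≠ 0 := fun z hz => by
    have := hBm.J0l z hz
    linarith
  refine hbc (T.mean T') e0 (fun w => T.h w - T'.h w) _ b β amp S0 _ _ hBm hNm he he1 hk0 hv hBD
    (fun w hw hc hs => weak_form T T' ψ ψ' hψ hψ' hI hI' h0 w hw hc hs) hb hbb0 hβ hCKb hamp
    (by positivity) (by positivity) (key.1.trans ?_) (key.2.trans ?_)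
  · have e0 : ∀ Y : ℝ, (Real.sqrt CB * Y) ^ 2 = CB * Y ^ 2 := fun Y => by rw [mul_pow, sB]
    rw [e0]
    refine mul_le_mul_of_nonneg_left ?_ hCB
    have e : d ^ 2 / b ^ 2 = (d / b) ^ 2 := by rw [div_pow]
    rw [e]
    have h1 : 0 ≤ b ^ 2 * (2 * (CS * S0) * b) := by positivity
    nlinarith [mul_nonneg h1 hdb]
  · rw [mul_pow, sB, div_pow]

export P229.KeyAux (numeric count_lt)

end KeyAux

end Vale.Agent.P229.C3
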