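import Vale.Agent.P229.C3.KeyE
import Vale.Agent.P229.KeyF

/-!
# P229: pigeonhole stage and final stage
-/

namespace Vale.Agent.P229.C3

open MeasureTheory Set Filter
open scoped ContDiff

namespace KeyAux



export P229.KeyAux (thr)

/-- step inequality along the chain -/
theorem chain_step {C0 j0 k1 n0 g A t0 : ℝ} {l mm : ℕ} (hC0 : 2 * (t0 + g / 2) ≤ C0) (hg : 0 < g)
    (hA : 0 < A) (ht0 : 0 < t0) (h1 : (3 * (l : ℝ) + 6) * g ≤ t0)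
    (h2 : (3 * (l : ℝ) + 6) * g ≤ 1 / 5) (hm : mm ≤ l)
    (hcac : CacProp C0 j0 k1 n0 g A) {Ps u P κ v : ℝ × ℝ → ℝ}
    (D : StepData C0 j0 k1 n0 g (t0 + g / 2) Ps u P κ v) :
    ∫ z in Om Ps (t0 + g / 2 + (3 * mm + 2) * g) (7 / 5 - (3 * mm + 2) * g),
      (dx v z ^ 2 + dy v z ^ 2)
      ≤ A * ∫ z in Om Ps (t0 + g / 2 + 3 * mm * g) (7 / 5 - 3 * mm * g), v z ^ 2 := by
  obtain ⟨a1, a2, a3, a4⟩ := thr hg h1 h2 hm
  have := step hC0 hg hA (by linarith) hcac D a1 a2 a3 a4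
  have e1 : t0 + g / 2 + (3 * mm + 2) * g = t0 + g / 2 + 3 * mm * g + 2 * g := by ring
  have e2 : 7 / 5 - (3 * mm + 2) * g = 7 / 5 - 3 * (mm : ℝ) * g - 2 * g := by ring
  rw [e1, e2]
  exact this

/-- conclusion of `entropy_chain` -/
def EntProp (C0 g A t R C : ℝ) (l c k0 : ℕ) : Prop := ∀ {ι : Type} (S : Finset ι)
      (f : ι → ℝ × ℝ → ℝ)
      (Ps : ℝ × ℝ → ℝ) (k : ℕ), k0 ≤ k → Sm 1 (disc 2) Ps →
      (∀ z ∈ disc 2, |dx Ps z| ≤ C0 ∧ |dy Ps z| ≤ C0) →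
      (∀ i ∈ S, ContDiff ℝ 1 (f i)) → (∀ i ∈ S, ∀ z ∈ disc 2, |f i z| ≤ C0) →
      (∀ m < l, ∀ i ∈ S, ∀ j ∈ S,
        ∫ z in Om Ps (t + (3 * m + 2) * g) (R - (3 * m + 2) * g),
          ((dx (f i) z - dx (f j) z) ^ 2 + (dy (f i) z - dy (f j) z) ^ 2)
        ≤ A * ∫ z in Om Ps (t + 3 * m * g) (R - 3 * m * g), (f i z - f j z) ^ 2) →
      ∃ S' ⊆ S, S.card ≤ S'.card * k ^ (c * k ^ 6) ∧ ∀ i ∈ S', ∀ j ∈ S',
        ∫ z in Om Ps (t + 3 * l * g) (R - 3 * l * g), (f i z - f j z) ^ 2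
          ≤ (C / (k : ℝ) ^ 3) ^ (2 * l)

theorem contDiff_rf {n : ℕ} : ContDiff ℝ n (fun w : ℝ × ℝ => rf w) := by
  unfold rf
  fun_prop

/-- two pigeonholes (upper and lower) produce two different indices -/
theorem two_entropy {C0 g A t R CE : ℝ} {l c k0 K0 k : ℕ} (hent : EntProp C0 g A t R CE l c k0)
    (hk : k0 ≤ k) (hkc : 2 * c + K0 + 1 ≤ k) (S1 : Finset (Finset ℕ))
    (hS1 : 2 ^ (k ^ 8) ≤ K0 * S1.card) (f : Finset ℕ → ℝ × ℝ → ℝ) (Ps : ℝ × ℝ → ℝ)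
    (sP : Sm 1 (disc 2) Ps) (bP : ∀ z ∈ disc 2, |dx Ps z| ≤ C0 ∧ |dy Ps z| ≤ C0)
    (sf : ∀ i ∈ S1, ContDiff ℝ 1 (f i)) (bf : ∀ i ∈ S1, ∀ z ∈ disc 2, |f i z| ≤ C0)
    (stepU : ∀ m < l, ∀ i ∈ S1, ∀ j ∈ S1,
        ∫ z in Om Ps (t + (3 * m + 2) * g) (R - (3 * m + 2) * g),
          (dx (fun w => f i w - f j w) z ^ 2 + dy (fun w => f i w - f j w) z ^ 2)
        ≤ A * ∫ z in Om Ps (t + 3 * m * g) (R - 3 * m * g), (f i z - f j z) ^ 2)
    (stepL : ∀ m < l, ∀ i ∈ S1, ∀ j ∈ S1,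
        ∫ z in Om (fun w => - Ps (rf w)) (t + (3 * m + 2) * g) (R - (3 * m + 2) * g),
          (dx (fun w => f i (rf w) - f j (rf w)) z ^ 2
            + dy (fun w => f i (rf w) - f j (rf w)) z ^ 2)
        ≤ A * ∫ z in Om (fun w => - Ps (rf w)) (t + 3 * m * g) (R - 3 * m * g),
          (f i (rf z) - f j (rf z)) ^ 2) :
    ∃ i ∈ S1, ∃ j ∈ S1, i ≠ j ∧
      ∫ z in Om Ps (t + 3 * l * g) (R - 3 * l * g), (f i z - f j z) ^ 2
          ≤ (CE / (k : ℝ) ^ 3) ^ (2 * l) ∧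
      ∫ z in Om (fun w => - Ps (rf w)) (t + 3 * l * g) (R - 3 * l * g),
        (f i (rf z) - f j (rf z)) ^ 2 ≤ (CE / (k : ℝ) ^ 3) ^ (2 * l) := by
  have hd : ∀ i ∈ S1, ∀ z, DifferentiableAt ℝ (f i) z := fun i hi z =>
    (sf i hi).differentiable (by simp) z
  have sfr : ∀ i ∈ S1, ContDiff ℝ 1 (fun w => f i (rf w)) := fun i hi =>
    (sf i hi).comp (contDiff_rf (n := 1))
  have hdr : ∀ i ∈ S1, ∀ z, DifferentiableAt ℝ (fun w => f i (rf w)) z := fun i hi z =>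
    (sfr i hi).differentiable (by simp) z
  obtain ⟨S2, hS2, hc2, h2⟩ := hent S1 f Ps k hk sP bP sf bf (by
    intro m hm i hi j hj
    refine le_trans (le_of_eq ?_) (stepU m hm i hi j hj)
    refine integral_congr_ae (Filter.Eventually.of_forall fun z => ?_)
    show _ = dx (fun w => f i w - f j w) z ^ 2 + dy (fun w => f i w - f j w) z ^ 2
    rw [dx_sub (hd i hi z) (hd j hj z), dy_sub (hd i hi z) (hd j hj z)])
  obtain ⟨S3, hS3, hc3, h3⟩ := hent S2 (fun i w => f i (rf w)) (fun w => - Ps (rf w)) k hk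
    (Sm_rf sP).neg (by
      intro z hz
      have hz' : rf z ∈ disc 2 := rf_mem.2 hz
      have hdP : DifferentiableAt ℝ Ps (rf z) := sP.diff (isOpen_disc 2) hz'
      rw [dx_neg, dy_neg, dx_rf hdP, dy_rf hdP, abs_neg, neg_neg]
      exact bP _ hz') (fun i hi => sfr i (hS2 hi)) (fun i hi z hz => bf i (hS2 hi) _ (rf_mem.2 hz))
    (by
    intro m hm i hi j hj
    refine le_trans (le_of_eq ?_) (stepL m hm i (hS2 hi) j (hS2 hj))
    refine integral_congr_ae (Filter.Eventually.of_forall fun z => ?_)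
    show _ = dx (fun w => f i (rf w) - f j (rf w)) z ^ 2
      + dy (fun w => f i (rf w) - f j (rf w)) z ^ 2
    rw [dx_sub (hdr i (hS2 hi) z) (hdr j (hS2 hj) z), dy_sub (hdr i (hS2 hi) z) (hdr j (hS2 hj) z)])
  have hcard : 1 < S3.card := by
    by_contra hle
    have hle : S3.card ≤ 1 := by omega
    have h4 := count_lt K0 c k hkc
    have h5 : 2 ^ (k ^ 8) ≤ K0 * (k ^ (c * k ^ 6) * k ^ (c * k ^ 6)) := by
      calc 2 ^ (k ^ 8) ≤ K0 * S1.card := hS1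
        _ ≤ K0 * (S2.card * k ^ (c * k ^ 6)) := Nat.mul_le_mul_left _ hc2
        _ ≤ K0 * ((S3.card * k ^ (c * k ^ 6)) * k ^ (c * k ^ 6)) :=
            Nat.mul_le_mul_left _ (Nat.mul_le_mul_right _ hc3)
        _ ≤ K0 * ((1 * k ^ (c * k ^ 6)) * k ^ (c * k ^ 6)) :=
            Nat.mul_le_mul_left _ (Nat.mul_le_mul_right _ (Nat.mul_le_mul_right _ hle))
        _ = K0 * (k ^ (c * k ^ 6) * k ^ (c * k ^ 6)) := by rw [one_mul]
    omega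
  obtain ⟨i, hi, j, hj, hij⟩ := Finset.one_lt_card.1 hcard
  exact ⟨i, hS2 (hS3 hi), j, hS2 (hS3 hj), hij, h2 i (hS3 hi) j (hS3 hj), h3 i hi j hj⟩

/-- adding the gradient at the last step -/
theorem last_step {C0 j0 k1 n0 g A t0 E : ℝ} {l : ℕ} (hC0 : 2 * (t0 + g / 2) ≤ C0) (hg : 0 < g)
    (hA : 0 < A) (ht0 : 0 < t0) (h1 : (3 * (l : ℝ) + 6) * g ≤ t0)
    (h2 : (3 * (l : ℝ) + 6) * g ≤ 1 / 5)
    (hcac : CacProp C0 j0 k1 n0 g A) {Ps u P κ v : ℝ × ℝ → ℝ}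
    (D : StepData C0 j0 k1 n0 g (t0 + g / 2) Ps u P κ v)
    (hE : ∫ z in Om Ps (t0 + g / 2 + 3 * l * g) (7 / 5 - 3 * l * g), v z ^ 2 ≤ E) :
    ∫ z in Om Ps (t0 + g / 2 + (3 * l + 2) * g) (7 / 5 - (3 * l + 2) * g), en v z
      ≤ (1 + A) * E := by
  have hs := chain_step hC0 hg hA ht0 h1 h2 (le_refl l) hcac D
  have hc1 : Continuous (fun z => v z ^ 2) := D.sv.continuous.pow 2
  have hc2 : Continuous (fun z => dx v z ^ 2 + dy v z ^ 2) :=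
    ((continuous_dx (D.sv.of_le (by norm_num))).pow 2).add
      ((continuous_dy (D.sv.of_le (by norm_num))).pow 2)
  have hlg : 0 ≤ (l : ℝ) * g := by positivity
  have hsub : Om Ps (t0 + g / 2 + (3 * l + 2) * g) (7 / 5 - (3 * l + 2) * g) ⊆
      Om Ps (t0 + g / 2 + 3 * l * g) (7 / 5 - 3 * l * g) := by
    rintro z ⟨hz, hP⟩
    exact ⟨disc_mono (by linarith) (by linarith) hz, by linarith⟩
  have hm := setIntegral_mono_region hc1 (fun z => by positivity)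
    (R := 7 / 5 - 3 * l * g) (fun z hz => hz.1) hsub
  have i1 : IntegrableOn (fun z => v z ^ 2)
      (Om Ps (t0 + g / 2 + (3 * l + 2) * g) (7 / 5 - (3 * l + 2) * g)) :=
    integrableOn_disc hc1 (R := 7 / 5 - (3 * l + 2) * g) (fun z hz => hz.1)
  have i2 : IntegrableOn (fun z => dx v z ^ 2 + dy v z ^ 2)
      (Om Ps (t0 + g / 2 + (3 * l + 2) * g) (7 / 5 - (3 * l + 2) * g)) :=
    integrableOn_disc hc2 (R := 7 / 5 - (3 * l + 2) * g) (fun z hz => hz.1)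
  have e : ∫ z in Om Ps (t0 + g / 2 + (3 * l + 2) * g) (7 / 5 - (3 * l + 2) * g), en v z
      = (∫ z in Om Ps (t0 + g / 2 + (3 * l + 2) * g) (7 / 5 - (3 * l + 2) * g), v z ^ 2)
        + ∫ z in Om Ps (t0 + g / 2 + (3 * l + 2) * g) (7 / 5 - (3 * l + 2) * g),
          (dx v z ^ 2 + dy v z ^ 2) := by
    rw [← integral_add i1 i2]
    refine integral_congr_ae (Filter.Eventually.of_forall fun z => ?_)
    show v z ^ 2 + dx v z ^ 2 + dy v z ^ 2 = v z ^ 2 + (dx v z ^ 2 + dy v z ^ 2)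
    ring
  rw [e]
  have hAE : A * ∫ z in Om Ps (t0 + g / 2 + 3 * l * g) (7 / 5 - 3 * l * g), v z ^ 2 ≤ A * E :=
    mul_le_mul_of_nonneg_left hE hA.le
  linarith

end KeyAux

end Vale.Agent.P229.C3
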